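import Vale.Agent.P050.Defs

namespace Vale.Agent.P050

open Finset Module
open scoped BigOperators

theorem valid_all : ∀ L ∈ ordAll, T0.Valid L := by
  unfold Surf.Valid
  decide +kernel

/-- How often a step pays edge `e`. -/
noncomputable def cE (e : Fin 27) (s : Step (Fin 18)) : ℕ :=
  if s.2.2 = s.2.1 then
    (if T0.edg s.1 (lo s.2.1) = e then 1 else 0) + (if T0.edg s.1 (hi s.2.1) = e then 1 else 0)
  else if T0.edg s.1 (-(s.2.1 + s.2.2)) = e then 1 else 0

/-- How often a step pays face `f`. -/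
def cF (f : Fin 18) (s : Step (Fin 18)) : ℕ := if s.2.2 = s.2.1 ∧ s.1 = f then 1 else 0

/-- How often a list of steps pays edge `e`. -/
noncomputable def CE (L : List (Step (Fin 18))) (e : Fin 27) : ℕ := (L.map (cE e)).sum

/-- How often a list of steps pays face `f`. -/
def CF (L : List (Step (Fin 18))) (f : Fin 18) : ℕ := (L.map (cF f)).sum

theorem stepCost_eq (n : ℕ) (d : Fin 27 → ℕ) (a : Fin 18 → ℕ) (s : Step (Fin 18)) :
    T0.stepCost n d a s =
      ∑ e, (cE e s : ℝ) * nu (d e) + ∑ f, (cF f s : ℝ) * T0.psiF n d a f := by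
  obtain ⟨f, i, j⟩ := s
  unfold Surf.stepCost cE cF
  by_cases h : j = i
  · subst h
    simp only [if_true, true_and, Nat.cast_add, Nat.cast_ite, Nat.cast_one, Nat.cast_zero,
      add_mul, ite_mul, one_mul, zero_mul, Finset.sum_add_distrib, Finset.sum_ite_eq,
      Finset.mem_univ]
    fin_cases j <;> simp [lo, hi] <;> ring
  · simp [h]

theorem cost_eq (n : ℕ) (d : Fin 27 → ℕ) (a : Fin 18 → ℕ) (L : List (Step (Fin 18))) :
    T0.cost n d a L =
      ∑ e, (CE L e : ℝ) * nu (d e) + ∑ f, (CF L f : ℝ) * T0.psiF n d a f := by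
  induction L with
  | nil => simp [Surf.cost, CE, CF]
  | cons s L ih =>
    have h1 : T0.cost n d a (s :: L) = T0.stepCost n d a s + T0.cost n d a L := by
      simp [Surf.cost]
    rw [h1, ih, stepCost_eq]
    simp only [CE, CF, List.map_cons, List.sum_cons, Nat.cast_add, add_mul,
      Finset.sum_add_distrib]
    ring

theorem cost_flatten_le (n : ℕ) (d : Fin 27 → ℕ) (a : Fin 18 → ℕ) (B : ℝ)
    (LL : List (List (Step (Fin 18)))) (h : ∀ L ∈ LL, T0.cost n d a L ≤ B) :
    T0.cost n d a LL.flatten ≤ LL.length * B := by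
  induction LL with
  | nil => simp [Surf.cost]
  | cons L LL ih =>
    have h1 : T0.cost n d a (L :: LL).flatten = T0.cost n d a L + T0.cost n d a LL.flatten := by
      simp [Surf.cost]
    rw [h1]
    have h2 := h L (by simp)
    have h3 := ih (fun L' hL' => h L' (by simp [hL']))
    simp only [List.length_cons, Nat.cast_add, Nat.cast_one]
    linarith

/-- Total weight that a table of corner weights puts on edge `e`. -/
noncomputable def load (c : Fin 18 → Fin 3 → ℕ) (e : Fin 27) : ℕ :=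
  ∑ f, ∑ k, if T0.edg f k = e then c f k else 0

theorem sum_edg (c : Fin 18 → Fin 3 → ℕ) (x : Fin 27 → ℝ) :
    ∑ f, ∑ k, (c f k : ℝ) * x (T0.edg f k) = ∑ e, (load c e : ℝ) * x e := by
  simp only [load, Nat.cast_sum, Finset.sum_mul, Nat.cast_ite, Nat.cast_zero, ite_mul, zero_mul]
  rw [Finset.sum_comm (s := (Finset.univ : Finset (Fin 27)))]
  refine Finset.sum_congr rfl fun f _ => ?_
  rw [Finset.sum_comm (s := (Finset.univ : Finset (Fin 27)))]
  refine Finset.sum_congr rfl fun k _ => ?_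
  simp

/-- Distribution of the extra weight of each face among its sides. -/
def theta : Fin 18 → Fin 3 → ℕ :=
  ![![2, 1, 3], ![2, 3, 1], ![0, 0, 6], ![1, 4, 1], ![0, 1, 5], ![1, 0, 5], ![1, 4, 1], ![2, 3, 1],
    ![1, 5, 0], ![4, 2, 0], ![6, 0, 0], ![6, 0, 0], ![6, 0, 0], ![0, 1, 5], ![6, 0, 0], ![2, 1, 3],
    ![1, 5, 0], ![6, 0, 0]]

theorem theta_sum : ∀ f, theta f 0 + theta f 1 + theta f 2 = 6 := by decide +kernel

theorem load_one : ∀ e, load (fun _ _ => 1) e = 2 := by decide +kernel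

theorem sum_edg_one (x : Fin 27 → ℝ) : ∑ f, ∑ k, x (T0.edg f k) = 2 * ∑ e, x e := by
  have := sum_edg (fun _ _ => 1) x
  simp only [load_one, Nat.cast_one, one_mul, ← Finset.mul_sum] at this
  exact_mod_cast this

theorem CE_I : ∀ e, 9 ≤ CE ordI.flatten e := by decide +kernel

theorem CE_B : ∀ e, 121 + 4 * load theta e ≤ 25 * CE ordB.flatten e ∧ CE ordB.flatten e ≤ 7 := by
  decide +kernel

theorem CF_B : ∀ f, CF ordB.flatten f = 4 := by decide +kernel

theorem X_spec : ∀ f : Fin 18, ∃ L₁ ∈ ordX, ∃ L₂ ∈ ordX, ∀ g : Fin 18,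
    CF [L₁, L₂].flatten g + (if g = f then 1 else 0) = 1 + (if g = f + 1 then 1 else 0) := by
  intro f
  refine ⟨ordX.getD (2 * f.val) [], ?_, ordX.getD (2 * f.val + 1) [], ?_, ?_⟩
  · revert f; decide +kernel
  · revert f; decide +kernel
  · revert f; decide +kernel

theorem nu_nonneg_nat (d : ℕ) : 0 ≤ nu d := by
  unfold nu; positivity

theorem le_nu_nat (d : ℕ) : (d : ℝ) ≤ nu d := by
  unfold nu
  rcases Nat.eq_zero_or_pos d with h | h
  · subst h; simp
  · have : (1 : ℝ) ≤ d := by exact_mod_cast h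
    nlinarith

theorem nu_mono_nat {a b : ℕ} (h : a ≤ b) : nu a ≤ nu b := by
  unfold nu
  have h1 : (a : ℝ) ≤ b := by exact_mod_cast h
  have h2 : (0 : ℝ) ≤ a := by positivity
  nlinarith

theorem base_bound (x : Fin 27 → ℝ) (hx : ∀ e, 0 ≤ x e) (p U : Fin 18 → ℝ)
    (hU : ∀ f k, 100 * U f ≤ 30 * (x (T0.edg f 0) + x (T0.edg f 1) + x (T0.edg f 2)) +
      12 * x (T0.edg f k) + 50 * p f) :
    8 * (∑ f, U f + (∑ e, x e) / 200) ≤
      ∑ e, (CE ordB.flatten e : ℝ) * x e + 4 * ∑ f, p f := by
  have h1 : ∀ f, 600 * U f ≤ 180 * ∑ k, x (T0.edg f k) +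
      12 * ∑ k, (theta f k : ℝ) * x (T0.edg f k) + 300 * p f := by
    intro f
    simp only [Fin.sum_univ_three]
    have hs : (theta f 0 : ℝ) + theta f 1 + theta f 2 = 6 := by exact_mod_cast theta_sum f
    have a0 := mul_le_mul_of_nonneg_left (hU f 0) (Nat.cast_nonneg (α := ℝ) (theta f 0))
    have a1 := mul_le_mul_of_nonneg_left (hU f 1) (Nat.cast_nonneg (α := ℝ) (theta f 1))
    have a2 := mul_le_mul_of_nonneg_left (hU f 2) (Nat.cast_nonneg (α := ℝ) (theta f 2))
    have e2 : (theta f 2 : ℝ) = 6 - theta f 0 - theta f 1 := by linarith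
    rw [e2] at a2 ⊢
    nlinarith
  have h2 := Finset.sum_le_sum (s := (Finset.univ : Finset (Fin 18))) fun f _ => h1 f
  simp only [Finset.sum_add_distrib, ← Finset.mul_sum] at h2
  rw [sum_edg, sum_edg_one] at h2
  have h3 : ∀ e, 8 * (360 * x e + 12 * ((load theta e : ℝ) * x e))
      + 24 * x e ≤ 600 * ((CE ordB.flatten e : ℝ) * x e) := by
    intro e
    have : (121 : ℝ) + 4 * load theta e ≤ 25 * CE ordB.flatten e := by exact_mod_cast (CE_B e).1
    have := mul_le_mul_of_nonneg_right this (hx e)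
    nlinarith
  have h4 := Finset.sum_le_sum (s := (Finset.univ : Finset (Fin 27))) fun e _ => h3 e
  simp only [Finset.sum_add_distrib, ← Finset.mul_sum] at h4
  linarith

theorem exists_step (a : Fin 18 → ℕ) (h0 : ∃ f, a f = 0) (h1 : ∃ f, a f ≠ 0) :
    ∃ f, a f = 0 ∧ a (f + 1) ≠ 0 := by
  by_contra hc
  push Not at hc
  obtain ⟨f, hf⟩ := h0
  obtain ⟨g, hg⟩ := h1
  have : ∀ k : ℕ, a (f + Fin.ofNat 18 k) = 0 := by
    intro k
    induction k with
    | zero => simpa using hf
    | succ k ih =>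
      have := hc _ ih
      have e : f + Fin.ofNat 18 (k + 1) = f + Fin.ofNat 18 k + 1 := by
        rw [add_assoc]; congr 1
        apply Fin.ext
        simp [Fin.val_add]
      rw [e]; exact this
  have h := this (g - f).val
  have e : f + Fin.ofNat 18 (g - f).val = g := by
    have : Fin.ofNat 18 (g - f).val = g - f := by
      apply Fin.ext; simp
    rw [this]; simp
  rw [e] at h
  exact hg h

/-- The exposure certificate: some order pays more than the total boost. -/
theorem cert (n : ℕ) (hn : 10000 ≤ n) (d : Fin 27 → ℕ) (a : Fin 18 → ℕ) (Φ : Fin 18 → ℝ)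
    (had : ∀ f k, a f ≤ d (T0.edg f k))
    (hρ : ∀ f, d (T0.edg f 0) + d (T0.edg f 1) + d (T0.edg f 2) ≤ n + 2 * a f)
    (hd : ∃ e, d e ≠ 0)
    (hΦ : ∀ f, Good n (a f) (d (T0.edg f 0)) (d (T0.edg f 1)) (d (T0.edg f 2)) (Φ f)) :
    ∃ L ∈ ordAll, ∑ f, Φ f + 1 / 1000 ≤ T0.cost n d a L := by
  by_contra hc
  push Not at hc
  set x : Fin 27 → ℝ := fun e => nu (d e) with hxdef
  set p : Fin 18 → ℝ := fun f => T0.psiF n d a f with hpdef
  have hx : ∀ e, 0 ≤ x e := fun e => nu_nonneg_nat _
  have hxle : ∀ e, x e ≤ ∑ e, x e := fun e =>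
    Finset.single_le_sum (fun e _ => hx e) (Finset.mem_univ e)
  have hX : 1 ≤ ∑ e, x e := by
    obtain ⟨e, he⟩ := hd
    have h1 : (1 : ℝ) ≤ d e := by exact_mod_cast Nat.one_le_iff_ne_zero.2 he
    exact (h1.trans (le_nu_nat _)).trans (hxle e)
  have hp0 : ∀ f, a f = 0 → p f = 0 := by
    intro f hf
    simp [hpdef, Surf.psiF, psi, hf, nu]
  have hB := cost_flatten_le n d a _ ordB (fun L hL => (hc L (by simp [ordAll, hL])).le)
  rw [cost_eq] at hB
  have hlB : (ordB.length : ℝ) = 8 := by norm_num [ordB]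
  rw [hlB] at hB
  simp only [CF_B, ← Finset.mul_sum] at hB
  by_cases h1 : ∃ f, a f ≠ 0
  · by_cases h0 : ∃ f, a f = 0
    · obtain ⟨f, hf0, hf1⟩ := exists_step a h0 h1
      obtain ⟨L₁, hL₁, L₂, hL₂, hX12⟩ := X_spec f
      have hXc := cost_flatten_le n d a _ [L₁, L₂] (fun L hL => (hc L (by
        simp only [List.mem_cons, List.not_mem_nil, or_false] at hL
        rcases hL with rfl | rfl <;> simp [ordAll, *])).le)
      rw [cost_eq] at hXc
      have hl2 : (([L₁, L₂].length : ℕ) : ℝ) = 2 := by norm_num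
      rw [hl2] at hXc
      have e1 : ∑ g, (CF [L₁, L₂].flatten g : ℝ) * p g = ∑ g, p g + p (f + 1) - p f := by
        have : ∀ g, (CF [L₁, L₂].flatten g : ℝ) * p g =
            p g + (if g = f + 1 then p g else 0) - (if g = f then p g else 0) := by
          intro g
          have h := hX12 g
          have h' : (CF [L₁, L₂].flatten g : ℝ) + (if g = f then 1 else 0) =
              1 + (if g = f + 1 then 1 else 0) := by exact_mod_cast h
          have h'' : (CF [L₁, L₂].flatten g : ℝ) =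
              1 + (if g = f + 1 then 1 else 0) - (if g = f then 1 else 0) := by linarith
          rw [h'']
          split_ifs <;> ring
        simp only [this, Finset.sum_add_distrib, Finset.sum_sub_distrib, Finset.sum_ite_eq',
          Finset.mem_univ, if_true]
      have e2 : 0 ≤ ∑ e, (CE [L₁, L₂].flatten e : ℝ) * x e :=
        Finset.sum_nonneg fun e _ => mul_nonneg (Nat.cast_nonneg _) (hx e)
      have e3 : (n : ℝ) - 4 * ∑ e, x e ≤ p (f + 1) := by
        have ha1 : (1 : ℝ) ≤ a (f + 1) := by exact_mod_cast Nat.one_le_iff_ne_zero.2 hf1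
        have hr : (d (T0.edg (f + 1) 0) : ℝ) + d (T0.edg (f + 1) 1) + d (T0.edg (f + 1) 2) ≤
            n + 2 * a (f + 1) := by exact_mod_cast hρ (f + 1)
        have b0 := (le_nu_nat (d (T0.edg (f + 1) 0))).trans (hxle _)
        have b1 := (le_nu_nat (d (T0.edg (f + 1) 1))).trans (hxle _)
        have b2 := (le_nu_nat (d (T0.edg (f + 1) 2))).trans (hxle _)
        have b3 := (nu_mono_nat (had (f + 1) 0)).trans (hxle _)
        simp only [hpdef, Surf.psiF, psi]
        nlinarith
      have hb := base_bound x hx p (fun f => Φ f - 3 / 10) (by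
        intro g k
        by_cases hg : a g = 0
        · have := (hΦ g).p0' hg
          have h2 := hx (T0.edg g k)
          rw [hp0 g hg]
          simp only [hxdef] at h2 ⊢
          linarith
        · have hg1 : 1 ≤ a g := Nat.one_le_iff_ne_zero.2 hg
          have q1 := (hΦ g).p1 hg1
          have q2 := (hΦ g).p2 hg1
          have q3 := (hΦ g).p3 hg1
          simp only [hxdef, hpdef, Surf.psiF]
          fin_cases k <;> simp only [Fin.zero_eta, Fin.mk_one, Fin.reduceFinMk] <;> linarith)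
      have e4 : ∑ e, (CE ordB.flatten e : ℝ) * x e ≤ 7 * ∑ e, x e := by
        rw [Finset.mul_sum]
        refine Finset.sum_le_sum fun e _ => mul_le_mul_of_nonneg_right ?_ (hx e)
        exact_mod_cast (CE_B e).2
      simp only [Finset.sum_sub_distrib, Finset.sum_const, Finset.card_univ, Fintype.card_fin,
        nsmul_eq_mul] at hb
      have hn' : (10000 : ℝ) ≤ n := by exact_mod_cast hn
      rw [e1, hp0 f hf0] at hXc
      push_cast at hb hB
      linarith
    · push Not at h0
      have hb := base_bound x hx p Φ (by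
        intro g k
        have hg1 : 1 ≤ a g := Nat.one_le_iff_ne_zero.2 (h0 g)
        have q1 := (hΦ g).p1 hg1
        have q2 := (hΦ g).p2 hg1
        have q3 := (hΦ g).p3 hg1
        simp only [hxdef, hpdef, Surf.psiF]
        fin_cases k <;> simp only [Fin.zero_eta, Fin.mk_one, Fin.reduceFinMk] <;> linarith)
      push_cast at hB
      linarith
  · push Not at h1
    have hI := cost_flatten_le n d a _ ordI (fun L hL => (hc L (by simp [ordAll, hL])).le)
    rw [cost_eq] at hI
    have hlI : (ordI.length : ℝ) = 13 := by norm_num [ordI]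
    rw [hlI] at hI
    have e1 : ∑ g, (CF ordI.flatten g : ℝ) * p g = 0 :=
      Finset.sum_eq_zero fun g _ => by rw [hp0 g (h1 g), mul_zero]
    have e2 : 9 * ∑ e, x e ≤ ∑ e, (CE ordI.flatten e : ℝ) * x e := by
      rw [Finset.mul_sum]
      refine Finset.sum_le_sum fun e _ => mul_le_mul_of_nonneg_right ?_ (hx e)
      exact_mod_cast CE_I e
    have e3 : ∀ f, 3 * Φ f ≤ ∑ k, ((fun _ _ => 1 : Fin 18 → Fin 3 → ℕ) f k : ℝ) *
        x (T0.edg f k) := by
      intro f
      simp only [Fin.sum_univ_three, Nat.cast_one, one_mul]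
      exact (hΦ f).p0 (h1 f)
    have e4 := Finset.sum_le_sum (s := (Finset.univ : Finset (Fin 18))) fun f _ => e3 f
    rw [sum_edg] at e4
    simp only [load_one, ← Finset.mul_sum] at e4
    rw [e1] at hI
    push_cast at e4
    linarith

end Vale.Agent.P050
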