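import Vale.Agent.P050.Mat

namespace Vale.Agent.P050

open Finset Module
open scoped BigOperators

section CutAux

/-- Averaging over shifts. -/
theorem expect_shift {G H : Type} [AddCommGroup G] [Fintype G] [Fintype H] [Nonempty H]
    (j : H → G) (φ : G → ℝ) : 𝔼 x, φ x = 𝔼 x, 𝔼 y, φ (x + j y) := by
  rw [expect_comm]
  have : ∀ y, 𝔼 x, φ (x + j y) = 𝔼 x, φ x := fun y =>
    Fintype.expect_equiv (Equiv.addRight (j y)) _ _ fun _ => rfl
  simp only [this, Fintype.expect_const]

/-- A surjective homomorphism of finite groups preserves averages. -/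
theorem expect_comp_hom {G H : Type} [AddCommGroup G] [AddCommGroup H] [Fintype G] [Fintype H]
    (r : G →+ H) (hr : Function.Surjective r) (φ : H → ℝ) : 𝔼 x, φ (r x) = 𝔼 y, φ y := by
  choose j hj using hr
  rw [expect_shift j]
  simp only [map_add, hj]
  have : ∀ x, 𝔼 y, φ (r x + y) = 𝔼 y, φ y := fun x =>
    Fintype.expect_equiv (Equiv.addLeft (r x)) _ _ fun _ => rfl
  simp only [this, Fintype.expect_const]

variable {F : Type} [Field F] [Fintype F] [DecidableEq F]

omit [Fintype F] [DecidableEq F] in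
theorem ringChar_ne_two_of (h2 : (2 : F) ≠ 0) : ringChar F ≠ 2 := fun h =>
  h2 (by exact_mod_cast (ringChar.spec F 2).2 (h ▸ dvd_rfl))

theorem sum_qc_mul (h2 : (2 : F) ≠ 0) (e : F) :
    ∑ t : F, quadraticChar F t * quadraticChar F (t + e) =
      (if e = 0 then (Fintype.card F : ℤ) else 0) - 1 := by
  have hF := ringChar_ne_two_of h2
  split_ifs with he
  · subst he
    have : ∀ t : F, quadraticChar F t * quadraticChar F (t + 0) =
        1 - if t = 0 then 1 else 0 := fun t => by
      split_ifs with ht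
      · simp [ht]
      · rw [add_zero, ← sq, quadraticChar_sq_one ht, sub_zero]
    simp only [this, sum_sub_distrib]
    simp
  · have hJ := jacobiSum_nontrivial_inv (quadraticChar_ne_one hF)
    rw [(quadraticChar_isQuadratic F).inv, jacobiSum] at hJ
    rw [← Equiv.sum_comp (Equiv.mulLeft₀ (-e) (neg_ne_zero.2 he))]
    have : ∀ x : F, quadraticChar F (-e * x) * quadraticChar F (-e * x + e) =
        quadraticChar F (-1) * (quadraticChar F x * quadraticChar F (1 - x)) := fun x => by
      have h1 : -e * x = -1 * e * x := by ring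
      have h3 : -1 * e * x + e = e * (1 - x) := by ring
      rw [h1, h3, map_mul, map_mul, map_mul]
      linear_combination (quadraticChar F (-1) * quadraticChar F x *
        quadraticChar F (1 - x)) * quadraticChar_sq_one he
    simp only [Equiv.mulLeft₀_apply, this]
    rw [← mul_sum, hJ]
    linear_combination -quadraticChar_sq_one (neg_ne_zero.2 (one_ne_zero (α := F)))

theorem abs_qc_le (t : F) : |((quadraticChar F t : ℤ) : ℝ)| ≤ 1 := by
  rcases quadraticChar_isQuadratic (F := F) t with h | h | h <;> simp [h]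

theorem core_cut (h2 : (2 : F) ≠ 0) (D c : F) (hc : c ≠ 0) (a b : F → ℝ) (ha : ∀ s, |a s| ≤ 1)
    (hb : ∀ s, |b s| ≤ 1) :
    |𝔼 s, 𝔼 s', ((quadraticChar F (D + (s - s') * c) : ℤ) : ℝ) * a s * b s'| ≤
      1 / Real.sqrt (Fintype.card F) := by
  have hq : (0 : ℝ) < Fintype.card F := by exact_mod_cast Fintype.card_pos
  have hin : ∀ s' s'' : F, ∑ s : F, ((quadraticChar F (D + (s - s') * c) : ℤ) : ℝ) *
      ((quadraticChar F (D + (s - s'') * c) : ℤ) : ℝ) =
      (if s' = s'' then (Fintype.card F : ℝ) else 0) - 1 := fun s' s'' => by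
    have h := sum_qc_mul h2 ((s' - s'') * c)
    rw [← (((Equiv.subRight s').trans (Equiv.mulRight₀ c hc)).trans
      (Equiv.addLeft D)).sum_comp] at h
    have h' := congrArg (fun z : ℤ => (z : ℝ)) h
    simp only [mul_eq_zero, hc, or_false, sub_eq_zero] at h'
    push_cast at h'
    rw [← h']
    refine sum_congr rfl fun s _ => ?_
    have : D + (s - s'') * c = D + (s - s') * c + (s' - s'') * c := by ring
    rw [this]
    rfl
  set G : F → ℝ := fun s => ∑ s', ((quadraticChar F (D + (s - s') * c) : ℤ) : ℝ) * b s' with hG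
  have hG2 : ∑ s, G s ^ 2 ≤ (Fintype.card F : ℝ) ^ 2 := by
    have h1 : ∑ s, G s ^ 2 = ∑ s', ∑ s'', b s' * b s'' *
        ((if s' = s'' then (Fintype.card F : ℝ) else 0) - 1) := by
      simp only [← hin, hG, sq, sum_mul_sum]
      simp only [mul_sum]
      rw [sum_comm]
      refine sum_congr rfl fun s' _ => ?_
      rw [sum_comm]
      exact sum_congr rfl fun s'' _ => sum_congr rfl fun s _ => by ring
    have h3 : ∑ s', ∑ s'', b s' * b s'' * ((if s' = s'' then (Fintype.card F : ℝ) else 0) - 1) =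
        (∑ s', b s' ^ 2) * Fintype.card F - (∑ s', b s') ^ 2 := by
      rw [sum_mul, sq (∑ s', b s'), sum_mul_sum]
      simp only [mul_sub, sum_sub_distrib, mul_ite, mul_zero, sum_ite_eq, mem_univ, if_true,
        mul_one, sq]
    have h4 : ∑ s', b s' ^ 2 ≤ Fintype.card F := by
      calc ∑ s', b s' ^ 2 ≤ ∑ _s' : F, (1 : ℝ) :=
            sum_le_sum fun s _ => (sq_le_one_iff_abs_le_one _).2 (hb s)
        _ = Fintype.card F := by simp
    rw [h1, h3]
    nlinarith [sq_nonneg (∑ s', b s')]
  have h5 : 𝔼 s, 𝔼 s', ((quadraticChar F (D + (s - s') * c) : ℤ) : ℝ) * a s * b s' =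
      (∑ s, a s * G s) / (Fintype.card F : ℝ) ^ 2 := by
    simp only [Fintype.expect_eq_sum_div_card, ← sum_div, hG, mul_sum]
    rw [div_div, sq]
    congr 1
    exact sum_congr rfl fun s _ => sum_congr rfl fun s' _ => by ring
  have h6 : (∑ s, a s * G s) ^ 2 ≤ (Fintype.card F : ℝ) ^ 3 := by
    have h7 : ∑ s, a s ^ 2 ≤ Fintype.card F := by
      calc ∑ s, a s ^ 2 ≤ ∑ _s : F, (1 : ℝ) :=
            sum_le_sum fun s _ => (sq_le_one_iff_abs_le_one _).2 (ha s)
        _ = Fintype.card F := by simp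
    calc (∑ s, a s * G s) ^ 2 ≤ (∑ s, a s ^ 2) * ∑ s, G s ^ 2 := sum_mul_sq_le_sq_mul_sq _ _ _
      _ ≤ Fintype.card F * (Fintype.card F : ℝ) ^ 2 :=
          mul_le_mul h7 hG2 (sum_nonneg fun _ _ => sq_nonneg _) hq.le
      _ = _ := by ring
  rw [h5]
  apply abs_le_of_sq_le_sq' _ (by positivity) |> abs_le.2
  rw [div_pow, div_pow, Real.sq_sqrt hq.le, div_le_div_iff₀ (by positivity) hq]
  nlinarith

/-- Deleting the first row and column. -/
def resM (n : ℕ) (F : Type) [Field F] : SymM (n + 1) F →+ SymM n F where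
  toFun x := fun e => x (e.map Fin.succ)
  map_zero' := rfl
  map_add' _ _ := rfl

omit [Fintype F] [DecidableEq F] in
theorem resM_surj (n : ℕ) : Function.Surjective (resM n F) := fun y =>
  ⟨Function.extend (Sym2.map Fin.succ) y 0, funext fun e =>
    (Sym2.map.injective (Fin.succ_injective n)).extend_apply y 0 e⟩

omit [Fintype F] [DecidableEq F] in
theorem det_shift {n : ℕ} (x : SymM (n + 1) F) (t : F) :
    (mat (x + Pi.single s(0, 0) t)).det = (mat x).det + t * (mat (resM n F x)).det := by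
  have h1 : ∀ j : Fin (n + 1), (mat (x + Pi.single s(0, 0) t)).submatrix Fin.succ j.succAbove =
      (mat x).submatrix Fin.succ j.succAbove := fun j => by
    ext i k
    simp [mat]
  have h2 : (mat x).submatrix Fin.succ (0 : Fin (n + 1)).succAbove = mat (resM n F x) := by
    ext i k
    simp [mat, resM]
  have h3 : ∀ j : Fin n, (mat (x + Pi.single s(0, 0) t)) 0 j.succ = mat x 0 j.succ := fun j => by
    simp [mat]
  have h4 : (mat (x + Pi.single s(0, 0) t)) 0 0 = mat x 0 0 + t := by simp [mat]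
  rw [Matrix.det_succ_row_zero, Matrix.det_succ_row_zero (mat x), Fin.sum_univ_succ,
    Fin.sum_univ_succ]
  simp only [h1, h2, h3, h4]
  simp only [Fin.val_zero, pow_zero]
  ring

end CutAux

/-- The quadratic character of the determinant is quasirandom. -/
theorem gm_cut {n : ℕ} (hn : 1 ≤ n) {F : Type} [Field F] [Fintype F] [DecidableEq F]
    (h2 : (2 : F) ≠ 0) (u v : SymM n F → ℝ) (hu : ∀ x, |u x| ≤ 1) (hv : ∀ x, |v x| ≤ 1) :
    |𝔼 x, 𝔼 x', gm x x' * u x * v x'| ≤ 3 / Real.sqrt (Fintype.card F) := by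
  obtain ⟨n, rfl⟩ : ∃ k, n = k + 1 := ⟨n - 1, by omega⟩
  let j : F → SymM (n + 1) F := fun t => Pi.single s(0, 0) t
  have h1 : 𝔼 x, 𝔼 x', gm x x' * u x * v x' =
      𝔼 x, 𝔼 x', 𝔼 s, 𝔼 s', gm (x + j s) (x' + j s') * u (x + j s) * v (x' + j s') := by
    rw [expect_shift j]
    refine expect_congr rfl fun x _ => ?_
    rw [expect_comm univ univ fun x' s => 𝔼 s', gm (x + j s) (x' + j s') * u (x + j s) *
      v (x' + j s')]
    exact expect_congr rfl fun s _ => expect_shift j _
  have h3 : ∀ x x' : SymM (n + 1) F,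
      |𝔼 s, 𝔼 s', gm (x + j s) (x' + j s') * u (x + j s) * v (x' + j s')| ≤
      1 / Real.sqrt (Fintype.card F) +
        if gm (resM n F x) (resM n F x') = 0 then (1 : ℝ) else 0 := fun x x' => by
    have h4 : ∀ s s', gm (x + j s) (x' + j s') = ((quadraticChar F ((mat (x - x')).det +
        (s - s') * (mat (resM n F (x - x'))).det) : ℤ) : ℝ) := fun s s' => by
      have : x + j s - (x' + j s') = x - x' + Pi.single s(0, 0) (s - s') := by
        rw [Pi.single_sub]; simp only [j]; abel
      rw [gm, this, det_shift]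
    simp only [h4]
    split_ifs with h
    · refine le_add_of_nonneg_of_le (by positivity) ?_
      refine (abs_expect_le _ _).trans (expect_le univ_nonempty fun s _ => ?_)
      refine (abs_expect_le _ _).trans (expect_le univ_nonempty fun s' _ => ?_)
      rw [abs_mul, abs_mul]
      exact mul_le_one₀ (mul_le_one₀ (abs_qc_le _) (abs_nonneg _) (hu _)) (abs_nonneg _) (hv _)
    · rw [add_zero]
      refine core_cut h2 _ _ (fun h' => h ?_) _ _ (fun _ => hu _) fun _ => hv _
      rw [gm, ← map_sub, h']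
      simp
  have h5 : 𝔼 x : SymM (n + 1) F, 𝔼 x' : SymM (n + 1) F,
      (if gm (resM n F x) (resM n F x') = 0 then (1 : ℝ) else 0) ≤
      1 / ((Fintype.card F : ℝ) - 1) := by
    have h6 : ∀ y : SymM n F, 𝔼 x' : SymM (n + 1) F,
        (if gm y (resM n F x') = 0 then (1 : ℝ) else 0) =
        𝔼 y' : SymM n F, (if gm y y' = 0 then (1 : ℝ) else 0) := fun y =>
      expect_comp_hom (resM n F) (resM_surj n) fun y' => if gm y y' = 0 then (1 : ℝ) else 0
    simp only [h6]
    rw [expect_comp_hom (resM n F) (resM_surj n)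
      fun y => 𝔼 y' : SymM n F, (if gm y y' = 0 then (1 : ℝ) else 0)]
    exact gm_sing
  have hq : (2 : ℝ) ≤ Fintype.card F := by exact_mod_cast Fintype.one_lt_card
  have h7 : 1 / ((Fintype.card F : ℝ) - 1) ≤ 2 / Real.sqrt (Fintype.card F) := by
    rw [div_le_div_iff₀ (by linarith) (Real.sqrt_pos.2 (by linarith)), one_mul,
      Real.sqrt_le_left (by linarith)]
    nlinarith
  rw [h1]
  calc _ ≤ 𝔼 x : SymM (n + 1) F, 𝔼 x' : SymM (n + 1) F, (1 / Real.sqrt (Fintype.card F) +
        if gm (resM n F x) (resM n F x') = 0 then (1 : ℝ) else 0) :=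
        (abs_expect_le _ _).trans (expect_le_expect fun x _ =>
          (abs_expect_le _ _).trans (expect_le_expect fun x' _ => h3 x x'))
    _ = 1 / Real.sqrt (Fintype.card F) + 𝔼 x : SymM (n + 1) F, 𝔼 x' : SymM (n + 1) F,
        (if gm (resM n F x) (resM n F x') = 0 then (1 : ℝ) else 0) := by
        simp only [expect_add_distrib, Fintype.expect_const]
    _ ≤ 1 / Real.sqrt (Fintype.card F) + 2 / Real.sqrt (Fintype.card F) := by linarith
    _ = _ := by ring

end Vale.Agent.P050
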