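import Mathlib

/-!
Definitions for the counterexample to Sidorenko's conjecture (P050).
See `docs` section of the project row in the team database for the informal proof.
-/

namespace Vale.Agent.P050

open Finset Module
open scoped BigOperators

noncomputable section

/-- `nu x = x (x+1) / 2`. -/
def nu (x : ℝ) : ℝ := x * (x + 1) / 2

/-- `lam q = q / (q-1)`; it lies in `(1,2]` for `q ≥ 2` and tends to `1`. -/
def lam (q : ℝ) : ℝ := q / (q - 1)

/-- The pair boost exponent `i x - (3 i^2 - i)/2`. -/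
def Bq (i x : ℝ) : ℝ := i * x - (3 * i ^ 2 - i) / 2

section Symplectic

variable {F : Type} [Field F] {V : Type} [AddCommGroup V] [Module F V]

/-- `L` is totally isotropic for the bilinear form `ω`. -/
def Isot (ω : LinearMap.BilinForm F V) (L : Submodule F V) : Prop :=
  ∀ u ∈ L, ∀ v ∈ L, ω u v = 0

/-- `L` is isotropic of dimension `n` (a Lagrangian when the space has dimension `2 n`). -/
def IsLag (ω : LinearMap.BilinForm F V) (n : ℕ) (L : Submodule F V) : Prop :=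
  Isot ω L ∧ finrank F L = n

/-- `ω` is a symplectic form on a space of dimension `2 n`. -/
structure Symp (ω : LinearMap.BilinForm F V) (n : ℕ) : Prop where
  alt : ω.IsAlt
  nondeg : ω.Nondegenerate
  dim : finrank F V = 2 * n

end Symplectic

/-- The face term `a * rho - nu a`, `rho = n - d1 - d2 - d3 + 2 a` the rank of the Maslov form. -/
def psi (n a d1 d2 d3 : ℕ) : ℝ :=
  (a : ℝ) * ((n : ℝ) - d1 - d2 - d3 + 2 * a) - nu a

/-- Admissible boost exponents `Φ` of a face whose three Lagrangians have triple intersection of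
dimension `a` and pairwise intersections of dimensions `d1 d2 d3`. -/
structure Good (n a d1 d2 d3 : ℕ) (Φ : ℝ) : Prop where
  p0 : a = 0 → 3 * Φ ≤ nu d1 + nu d2 + nu d3
  p0' : a = 0 → 10 * Φ ≤ 3 * (nu d1 + nu d2 + nu d3) + 3
  p1 : 1 ≤ a → 100 * Φ ≤ 30 * (nu d1 + nu d2 + nu d3) + 12 * nu d1 + 50 * psi n a d1 d2 d3
  p2 : 1 ≤ a → 100 * Φ ≤ 30 * (nu d1 + nu d2 + nu d3) + 12 * nu d2 + 50 * psi n a d1 d2 d3
  p3 : 1 ≤ a → 100 * Φ ≤ 30 * (nu d1 + nu d2 + nu d3) + 12 * nu d3 + 50 * psi n a d1 d2 d3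

/-- Lower endpoint index of the side of a triangle opposite to corner `k`. -/
def lo : Fin 3 → Fin 3 := ![1, 0, 0]
/-- Upper endpoint index of the side of a triangle opposite to corner `k`. -/
def hi : Fin 3 → Fin 3 := ![2, 2, 1]

/-- A triangulated closed surface: vertices `A`, faces `Fc`, edges `Ed`; every edge has two
slots (face, opposite corner). -/
structure Surf (A Fc Ed : Type) [LinearOrder A] where
  vtx : Fc → Fin 3 → A
  mono : ∀ f, StrictMono (vtx f)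
  slot : Ed × Bool ≃ Fc × Fin 3
  ends : Ed → A × A
  ends_inj : Function.Injective ends
  ends_slot : ∀ e b, ends e =
    (vtx (slot (e, b)).1 (lo (slot (e, b)).2), vtx (slot (e, b)).1 (hi (slot (e, b)).2))

/-- The edge of face `f` opposite to corner `k`. -/
def Surf.edg {A Fc Ed : Type} [LinearOrder A] (T : Surf A Fc Ed) (f : Fc) (k : Fin 3) : Ed :=
  (T.slot.symm (f, k)).1

/-- `+1` or `-1`. -/
def sgn (b : Bool) : ℝ := if b then 1 else -1

/-- The abstract sparse model with error `ε` for the surface `T`. -/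
structure Model {A Fc Ed : Type} [LinearOrder A] [Fintype A] [Fintype Fc] [Fintype Ed]
    (T : Surf A Fc Ed) (X : Type) [Fintype X] (ε : ℝ) where
  W : X → X → ℝ
  σ : X → X → ℝ
  g : X → X → ℝ
  W_symm : ∀ x y, W x y = W y x
  σ_symm : ∀ x y, σ x y = σ y x
  W_nonneg : ∀ x y, 0 ≤ W x y
  W_mean : ∀ x, 𝔼 y, W x y = 1
  σ_abs : ∀ x y, |σ x y| ≤ 1
  g_val : ∀ x y, g x y = 0 ∨ g x y = 1 ∨ g x y = -1
  sign : ∀ x x' y, g x x' ≠ 0 → W x y ≠ 0 → W x' y ≠ 0 → σ x y * σ x' y = g x x'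
  two : ∀ x x', g x x' ≠ 0 → 𝔼 y, W x y * W x' y ≤ 1 + ε
  three : ∀ x₁ x₂ x₃, g x₁ x₂ ≠ 0 → g x₁ x₃ ≠ 0 → g x₂ x₃ ≠ 0 →
    𝔼 y, W x₁ y * W x₂ y * W x₃ y ≤ 2 + ε
  sing : 𝔼 x, 𝔼 x', (if g x x' = 0 then (1 : ℝ) else 0) ≤ ε
  cut : ∀ u v : X → ℝ, (∀ x, |u x| ≤ 1) → (∀ x, |v x| ≤ 1) →
    |𝔼 x, 𝔼 x', g x x' * u x * v x'| ≤ ε
  deg : ∀ act : Fc → Fin 3 → Bool,
    𝔼 x : A → X, (if ∃ e, g (x (T.ends e).1) (x (T.ends e).2) = 0 then (1 : ℝ) else 0) *
      ∏ f, 𝔼 y, ∏ i, (if act f i then W (x (T.vtx f i)) y else 1) ≤ ε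

section Kernels

variable {A Fc Ed : Type} [LinearOrder A] [Fintype A] [Fintype Fc] [Fintype Ed]
  [DecidableEq Fc] [DecidableEq Ed] {T : Surf A Fc Ed} {X : Type} [Fintype X] {ε : ℝ}

/-- The one-component kernel `W_τ` on labelled points. -/
def Model.k (M : Model T X ε) (τ : SignType) (z w : X × Bool) : ℝ :=
  1 - (τ : ℝ) ^ 2 + M.W z.1 w.1 * ((τ : ℝ) ^ 2 + (τ : ℝ) * sgn z.2 * sgn w.2 * M.σ z.1 w.1)

/-- The homomorphism density of the vertex-face incidence graph with kernel `W_(τ c)` at corner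
`c`, written face by face. -/
def Model.tFace (M : Model T X ε) (τ : Fc × Fin 3 → SignType) : ℝ :=
  𝔼 z : A → X × Bool, ∏ f, 𝔼 w : X × Bool, ∏ i, M.k (τ (f, i)) (z (T.vtx f i)) w

/-- Product of the two corner signs at the ends of the side in slot `s`. -/
def cc (τ : Fc × Fin 3 → SignType) (s : Fc × Fin 3) : ℝ :=
  (τ (s.1, lo s.2) : ℝ) * (τ (s.1, hi s.2) : ℝ)

/-- The limit functional: product over edges (4-cycles of the incidence graph) of
`1 + holonomy`. -/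
def Surf.Lam (T : Surf A Fc Ed) (τ : Fc × Fin 3 → SignType) : ℝ :=
  ∏ e, (1 + cc τ (T.slot (e, false)) * cc τ (T.slot (e, true)))

/-- Left endpoint of a corner, as a vertex of the incidence graph. -/
def Surf.lft (T : Surf A Fc Ed) (c : Fc × Fin 3) : A ⊕ Fc := Sum.inl (T.vtx c.1 c.2)
/-- Right endpoint of a corner, as a vertex of the incidence graph. -/
def Surf.rgt (_T : Surf A Fc Ed) (c : Fc × Fin 3) : A ⊕ Fc := Sum.inr c.1

/-- Type weights `π` and sign laws `μ`. -/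
structure Weights (Ty : Type) [Fintype Ty] where
  π : Ty → ℝ
  μ : Ty → Ty → SignType × SignType → ℝ
  π_nonneg : ∀ t, 0 ≤ π t
  π_sum : ∑ t, π t = 1
  μ_nonneg : ∀ s t τ, 0 ≤ μ s t τ
  μ_sum : ∀ s t, ∑ τ, μ s t τ = 1
  μ_symm : ∀ s t, μ s t = μ t s

/-- The limiting normalised density. -/
def Surf.Zlim (T : Surf A Fc Ed) (w : Weights (A ⊕ Fc)) : ℝ :=
  ∑ φ : A ⊕ Fc → A ⊕ Fc, (∏ v, w.π (φ v)) *
    ∑ τ : Fc × Fin 3 → SignType × SignType,
      (∏ c, w.μ (φ (T.lft c)) (φ (T.rgt c)) (τ c)) *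
        (T.Lam (fun c => (τ c).1) * T.Lam (fun c => (τ c).2))

/-- An exposure step `(f, i, j)`: the vertex at corner `i` of face `f` is exposed; if `j = i` both
other vertices of the face are its earlier neighbours, otherwise only the one at corner `j`. -/
abbrev Step (Fc : Type) := Fc × Fin 3 × Fin 3

/-- The vertices a step looks at. -/
def Surf.supp (T : Surf A Fc Ed) (s : Step Fc) : Finset A :=
  if s.2.2 = s.2.1 then Finset.univ.image (T.vtx s.1) else {T.vtx s.1 s.2.1, T.vtx s.1 s.2.2}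

/-- A list of steps, latest first, is valid if the exposed vertex of a step is not looked at by
the earlier steps. -/
def Surf.Valid (T : Surf A Fc Ed) (L : List (Step Fc)) : Prop :=
  L.Pairwise (fun s s' => T.vtx s.1 s.2.1 ∉ T.supp s')

/-- The face term of face `f` for edge dimensions `d` and face dimensions `a`. -/
def Surf.psiF (T : Surf A Fc Ed) (n : ℕ) (d : Ed → ℕ) (a : Fc → ℕ) (f : Fc) : ℝ :=
  psi n (a f) (d (T.edg f 0)) (d (T.edg f 1)) (d (T.edg f 2))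

/-- The exponent paid by one step. -/
def Surf.stepCost (T : Surf A Fc Ed) (n : ℕ) (d : Ed → ℕ) (a : Fc → ℕ) (s : Step Fc) : ℝ :=
  if s.2.2 = s.2.1 then
    nu (d (T.edg s.1 0)) + nu (d (T.edg s.1 1)) + nu (d (T.edg s.1 2)) - nu (d (T.edg s.1 s.2.1))
      + T.psiF n d a s.1
  else nu (d (T.edg s.1 (-(s.2.1 + s.2.2))))

/-- The exponent paid by a list of steps. -/
def Surf.cost (T : Surf A Fc Ed) (n : ℕ) (d : Ed → ℕ) (a : Fc → ℕ) (L : List (Step Fc)) : ℝ :=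
  (L.map (T.stepCost n d a)).sum

end Kernels

section Matrices

/-- Symmetric `n × n` matrices, coded as functions on unordered pairs. -/
abbrev SymM (n : ℕ) (F : Type) := Sym2 (Fin n) → F

variable {n : ℕ} {F : Type} [Field F]

/-- The matrix of a coded symmetric matrix. -/
def mat (x : SymM n F) : Matrix (Fin n) (Fin n) F := Matrix.of fun i j => x s(i, j)

/-- The standard symplectic form on `F^n × F^n`. -/
def omega (n : ℕ) (F : Type) [Field F] : LinearMap.BilinForm F ((Fin n → F) × (Fin n → F)) :=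
  LinearMap.mk₂ F (fun u v => u.1 ⬝ᵥ v.2 - v.1 ⬝ᵥ u.2)
    (by intro a b c; simp [add_dotProduct, dotProduct_add]; ring)
    (by intro a b c; simp [smul_dotProduct, dotProduct_smul]; ring)
    (by intro a b c; simp [add_dotProduct, dotProduct_add]; ring)
    (by intro a b c; simp [smul_dotProduct, dotProduct_smul]; ring)

/-- The graph of a symmetric matrix. -/
def lag (x : SymM n F) : Submodule F ((Fin n → F) × (Fin n → F)) :=
  LinearMap.graph (mat x).mulVecLin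

/-- Corank of `x - y`. -/
def cork (x y : SymM n F) : ℕ := finrank F ↥(lag x ⊓ lag y)

/-- Number of symmetric `2m × 2m` matrices of corank `m`. -/
def Rnum (m : ℕ) (F : Type) [Field F] : ℕ :=
  Set.ncard {y : SymM (2 * m) F | cork 0 y = m}

open Classical in
/-- The normalised corank-`m` kernel. -/
def Wm (m : ℕ) (F : Type) [Field F] [Fintype F] (x y : SymM (2 * m) F) : ℝ :=
  if cork x y = m then (Fintype.card F : ℝ) ^ (m * (2 * m + 1)) / Rnum m F else 0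

/-- The quadratic character of the determinant of `x - y`. -/
def gm {F : Type} [Field F] [Fintype F] [DecidableEq F] (x y : SymM n F) : ℝ :=
  ((quadraticChar F (mat (x - y)).det : ℤ) : ℝ)

end Matrices

section Data

/-- Faces of the 11-vertex triangulated sphere. -/
def vtx0 : Fin 18 → Fin 3 → Fin 11 :=
  ![![0, 1, 2], ![0, 1, 4], ![0, 2, 3], ![0, 3, 4], ![1, 2, 5], ![1, 4, 5], ![2, 3, 6], ![2, 5, 6], ![3, 4, 8], ![3, 6, 7], ![3, 7, 8], ![4, 5, 9], ![4, 8, 9], ![5, 6, 10], ![5, 9, 10], ![6, 7, 10], ![7, 8, 10], ![8, 9, 10]]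
/-- Edges of the sphere. -/
def ends0 : Fin 27 → Fin 11 × Fin 11 :=
  ![(0,1), (0,2), (0,3), (0,4), (1,2), (1,4), (1,5), (2,3), (2,5), (2,6), (3,4), (3,6), (3,7), (3,8), (4,5), (4,8), (4,9), (5,6), (5,9), (5,10), (6,7), (6,10), (7,8), (7,10), (8,9), (8,10), (9,10)]
/-- First slot of each edge. -/
def slotA : Fin 27 → Fin 18 × Fin 3 :=
  ![(0,2), (0,1), (2,1), (1,1), (0,0), (1,0), (4,1), (2,0), (4,0), (6,1), (3,0), (6,0), (9,1), (8,1), (5,0), (8,0), (11,1), (7,0), (11,0), (13,1), (9,0), (13,0), (10,0), (15,0), (12,0), (16,0), (14,0)]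
/-- Second slot of each edge. -/
def slotB : Fin 27 → Fin 18 × Fin 3 :=
  ![(1,2), (2,2), (3,2), (3,1), (4,2), (5,2), (5,1), (6,2), (7,2), (7,1), (8,2), (9,2), (10,2), (10,1), (11,2), (12,2), (12,1), (13,2), (14,2), (14,1), (15,2), (15,1), (16,2), (16,1), (17,2), (17,1), (17,0)]
/-- Inverse of the slot map. -/
def slotInv : Fin 18 → Fin 3 → Fin 27 × Bool :=
  ![![(4,false), (1,false), (0,false)], ![(5,false), (3,false), (0,true)], ![(7,false), (2,false), (1,true)], ![(10,false), (3,true), (2,true)], ![(8,false), (6,false), (4,true)], ![(14,false), (6,true), (5,true)], ![(11,false), (9,false), (7,true)], ![(17,false), (9,true), (8,true)], ![(15,false), (13,false), (10,true)], ![(20,false), (12,false), (11,true)], ![(22,false), (13,true), (12,true)], ![(18,false), (16,false), (14,true)], ![(24,false), (16,true), (15,true)], ![(21,false), (19,false), (17,true)], ![(26,false), (19,true), (18,true)], ![(23,false),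 (21,true), (20,true)], ![(25,false), (23,true), (22,true)], ![(26,true), (25,true), (24,true)]]

/-- The slot bijection. -/
def slot0 : Fin 27 × Bool ≃ Fin 18 × Fin 3 where
  toFun p := if p.2 then slotB p.1 else slotA p.1
  invFun c := slotInv c.1 c.2
  left_inv := by decide +kernel
  right_inv := by decide +kernel

/-- The triangulated sphere with 11 vertices, 27 edges and 18 faces. -/
def T0 : Surf (Fin 11) (Fin 18) (Fin 27) where
  vtx := vtx0
  mono := by decide +kernel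
  slot := slot0
  ends := ends0
  ends_inj := by decide +kernel
  ends_slot := by decide +kernel

/-- Exposure orders used when all face dimensions vanish. -/
def ordI : List (List (Step (Fin 18))) :=
  [[(2,0,0), (8,0,0), (4,1,1), (5,0,0), (11,0,0), (17,1,1), (16,1,1), (15,1,1), (13,2,2), (7,2,1)],
   [(2,1,1), (1,1,1), (3,0,0), (8,0,0), (17,0,0), (15,1,1), (13,1,1), (14,2,2), (11,2,2), (5,2,1)],
   [(8,1,1), (16,1,1), (15,1,1), (14,1,1), (13,2,2), (4,0,0), (7,1,1), (6,2,2), (2,2,2), (0,2,0)],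
   [(17,2,2), (12,2,2), (9,2,2), (8,2,2), (6,2,2), (4,2,2), (2,1,1), (3,1,1), (1,2,2), (0,1,0)],
   [(14,2,2), (12,2,2), (9,1,1), (10,1,1), (8,2,2), (2,2,2), (4,1,1), (5,2,2), (1,2,2), (0,1,0)],
   [(16,2,2), (6,0,0), (9,1,1), (10,1,1), (8,0,0), (12,1,1), (11,2,2), (5,2,2), (1,2,2), (0,1,0)],
   [(16,2,2), (11,1,1), (12,2,2), (10,1,1), (8,2,2), (6,2,2), (3,1,1), (1,2,2), (0,2,2), (0,1,0)],
   [(17,1,1), (13,2,2), (10,1,1), (8,2,2), (7,2,2), (5,1,1), (4,2,2), (2,2,2), (0,2,2), (0,1,0)],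
   [(8,2,2), (3,2,2), (2,0,0), (9,0,0), (15,1,1), (14,1,1), (13,2,2), (7,2,2), (4,2,2), (0,2,1)],
   [(7,0,0), (13,1,1), (16,2,2), (11,2,2), (10,1,1), (8,2,2), (5,2,2), (3,1,1), (1,2,2), (0,1,0)],
   [(16,1,1), (13,2,2), (11,2,2), (9,2,2), (7,1,1), (6,2,2), (3,2,2), (2,2,2), (0,2,2), (0,1,0)],
   [(17,0,0), (14,1,1), (3,0,0), (5,1,1), (4,0,0), (13,0,0), (15,2,2), (9,2,2), (6,2,2), (2,2,1)],
   [(16,0,0), (6,1,1), (13,1,1), (14,2,2), (12,1,1), (11,2,2), (5,1,1), (4,2,2), (0,2,2), (0,1,0)]]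

/-- Four complementary pairs of exposure orders. -/
def ordB : List (List (Step (Fin 18))) :=
  [[(15,1,1), (13,2,2), (12,2,2), (8,2,2), (7,1,1), (6,2,2), (2,2,2), (1,2,2), (0,2,2), (0,1,0)],
   [(9,1,1), (3,0,0), (10,0,0), (16,0,0), (17,0,0), (14,2,2), (11,2,2), (5,1,1), (4,2,2), (0,2,1)],
   [(10,0,0), (16,1,1), (15,1,1), (13,1,1), (14,2,2), (11,2,2), (5,1,1), (4,2,2), (0,2,2), (0,1,0)],
   [(17,2,2), (12,2,2), (9,2,2), (8,2,2), (7,1,1), (6,2,2), (2,1,1), (3,1,1), (1,2,2), (0,1,0)],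
   [(16,0,0), (12,1,1), (14,1,1), (13,2,2), (7,2,2), (4,1,1), (5,2,2), (3,1,1), (1,2,2), (0,1,0)],
   [(11,1,1), (17,1,1), (15,2,2), (8,1,1), (10,2,2), (9,2,2), (6,2,2), (2,2,2), (0,2,2), (0,1,0)],
   [(16,1,1), (14,1,1), (3,2,2), (0,0,0), (4,0,0), (13,0,0), (15,2,2), (9,2,2), (6,2,2), (2,2,1)],
   [(17,2,2), (10,1,1), (7,2,2), (2,1,1), (8,0,0), (12,1,1), (11,2,2), (5,2,2), (1,2,2), (0,1,0)]]

/-- For each face `f`, two exposure orders (positions `2f`, `2f+1`) whose two-neighbour steps use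
every face once, except `f` (never) and `f+1` (twice). -/
def ordX : List (List (Step (Fin 18))) :=
  [[(13,2,2), (11,2,2), (9,2,2), (8,2,2), (6,2,2), (4,2,2), (2,1,1), (3,1,1), (1,2,2), (0,1,0)],
   [(7,0,0), (1,0,0), (5,0,0), (14,0,0), (12,0,0), (17,1,1), (15,0,0), (16,2,2), (10,2,2), (9,2,0)],
   [(13,2,2), (11,2,2), (9,2,2), (8,2,2), (6,2,2), (4,2,2), (3,2,2), (2,2,2), (0,2,2), (0,1,0)],
   [(2,0,0), (7,0,0), (5,0,0), (14,0,0), (12,0,0), (17,1,1), (15,0,0), (16,2,2), (10,2,2), (9,2,0)],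
   [(13,2,2), (11,2,2), (9,2,2), (8,2,2), (6,2,2), (4,2,2), (3,1,1), (1,2,2), (0,2,2), (0,1,0)],
   [(7,0,0), (5,0,0), (14,0,0), (3,0,0), (12,0,0), (17,1,1), (15,0,0), (16,2,2), (10,2,2), (9,2,0)],
   [(13,2,2), (11,2,2), (9,2,2), (8,2,2), (6,1,1), (7,2,2), (4,2,2), (1,2,2), (0,2,2), (0,1,0)],
   [(2,0,0), (4,1,1), (5,0,0), (14,0,0), (12,0,0), (17,1,1), (15,0,0), (16,2,2), (10,2,2), (9,2,0)],
   [(13,2,2), (11,2,2), (9,2,2), (8,2,2), (6,2,2), (5,2,2), (2,2,2), (1,2,2), (0,2,2), (0,1,0)],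
   [(7,0,0), (5,0,0), (14,0,0), (3,0,0), (12,0,0), (17,1,1), (15,0,0), (16,2,2), (10,2,2), (9,2,0)],
   [(13,2,2), (11,2,2), (9,2,2), (8,2,2), (7,1,1), (6,2,2), (2,2,2), (1,2,2), (0,2,2), (0,1,0)],
   [(4,0,0), (14,0,0), (3,0,0), (12,0,0), (17,1,1), (6,0,0), (15,0,0), (16,2,2), (10,2,2), (9,2,0)],
   [(13,2,2), (11,2,2), (9,2,2), (8,2,2), (7,2,2), (4,2,2), (2,2,2), (1,2,2), (0,2,2), (0,1,0)],
   [(7,0,0), (5,0,0), (14,0,0), (3,0,0), (12,0,0), (17,1,1), (15,0,0), (16,2,2), (10,2,2), (9,2,0)],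
   [(13,2,2), (11,2,2), (9,1,1), (10,1,1), (8,2,2), (4,2,2), (2,2,2), (1,2,2), (0,2,2), (0,1,0)],
   [(6,0,0), (15,0,0), (16,0,0), (5,0,0), (14,0,0), (17,2,2), (12,2,2), (8,2,2), (3,2,2), (2,2,0)],
   [(13,2,2), (11,2,2), (10,2,2), (9,2,2), (6,2,2), (4,2,2), (2,2,2), (1,2,2), (0,2,2), (0,1,0)],
   [(7,0,0), (5,0,0), (14,0,0), (3,0,0), (12,0,0), (17,1,1), (16,1,1), (15,2,2), (9,2,2), (6,2,1)],
   [(13,2,2), (11,2,2), (10,1,1), (8,2,2), (6,2,2), (4,2,2), (2,2,2), (1,2,2), (0,2,2), (0,1,0)],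
   [(7,0,0), (5,0,0), (14,0,0), (3,0,0), (12,0,0), (17,1,1), (15,0,0), (16,2,2), (10,2,2), (9,2,0)],
   [(15,1,1), (14,2,2), (11,2,2), (8,2,2), (6,2,2), (4,2,2), (2,2,2), (1,2,2), (0,2,2), (0,1,0)],
   [(3,0,0), (9,0,0), (16,0,0), (7,0,0), (13,1,1), (17,2,2), (12,1,1), (11,2,2), (5,2,2), (1,2,1)],
   [(13,2,2), (12,2,2), (9,2,2), (8,2,2), (6,2,2), (4,2,2), (2,2,2), (1,2,2), (0,2,2), (0,1,0)],
   [(7,0,0), (5,0,0), (14,0,0), (3,0,0), (12,0,0), (17,1,1), (15,0,0), (16,2,2), (10,2,2), (9,2,0)],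
   [(14,1,1), (13,2,2), (9,2,2), (8,2,2), (6,2,2), (4,2,2), (2,2,2), (1,2,2), (0,2,2), (0,1,0)],
   [(5,0,0), (3,0,0), (11,0,0), (17,1,1), (10,0,0), (16,1,1), (15,1,1), (13,2,2), (7,2,2), (4,2,1)],
   [(14,2,2), (11,2,2), (9,2,2), (8,2,2), (6,2,2), (4,2,2), (2,2,2), (1,2,2), (0,2,2), (0,1,0)],
   [(7,0,0), (5,0,0), (14,0,0), (3,0,0), (12,0,0), (17,1,1), (15,0,0), (16,2,2), (10,2,2), (9,2,0)],
   [(15,2,2), (11,2,2), (9,2,2), (8,2,2), (6,2,2), (4,2,2), (2,2,2), (1,2,2), (0,2,2), (0,1,0)],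
   [(5,0,0), (3,0,0), (12,0,0), (17,1,1), (10,0,0), (16,1,1), (15,1,1), (13,2,2), (7,2,2), (4,2,1)],
   [(16,2,2), (11,2,2), (9,2,2), (8,2,2), (6,2,2), (4,2,2), (2,2,2), (1,2,2), (0,2,2), (0,1,0)],
   [(3,0,0), (10,0,0), (16,0,0), (5,0,0), (12,0,0), (17,0,0), (14,1,1), (13,2,2), (7,2,2), (4,2,1)],
   [(17,2,2), (11,2,2), (9,2,2), (8,2,2), (6,2,2), (4,2,2), (2,2,2), (1,2,2), (0,2,2), (0,1,0)],
   [(5,0,0), (3,0,0), (12,0,0), (10,0,0), (17,0,0), (15,1,1), (14,1,1), (13,2,2), (7,2,2), (4,2,1)],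
   [(16,2,2), (12,2,2), (9,2,2), (8,2,2), (6,2,2), (4,2,2), (2,2,2), (1,2,2), (0,2,2), (0,1,0)],
   [(10,2,2), (15,1,1), (3,1,1), (0,0,0), (7,0,0), (13,1,1), (14,2,2), (11,2,2), (5,2,2), (1,2,1)]]

/-- All exposure orders. -/
def ordAll : List (List (Step (Fin 18))) := ordI ++ ordB ++ ordX

end Data

end

end Vale.Agent.P050
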