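import Vale.Agent.P050.Defs

namespace Vale.Agent.P050

open Finset Module
open scoped BigOperators

variable {n : ℕ} {F : Type} [Field F]

theorem omega_apply (u v : (Fin n → F) × (Fin n → F)) :
    omega n F u v = u.1 ⬝ᵥ v.2 - v.1 ⬝ᵥ u.2 := rfl

theorem mat_transpose (x : SymM n F) : (mat x).transpose = mat x := by
  ext i j
  simp [mat, Sym2.eq_swap]

theorem mat_sub (x y : SymM n F) : mat (x - y) = mat x - mat y := rfl

theorem mat_injective : Function.Injective (mat : SymM n F → _) := by
  intro x y h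
  funext s
  induction s using Sym2.ind with
  | h i j => exact congrFun (congrFun h i) j

theorem exists_mat (A : Matrix (Fin n) (Fin n) F) (hA : A.transpose = A) :
    ∃ x : SymM n F, mat x = A :=
  ⟨Sym2.lift ⟨fun i j => A i j, fun i j => (congrFun (congrFun hA i) j).symm⟩, rfl⟩

theorem symp_omega : Symp (omega n F) n := by
  have alt : (omega n F).IsAlt := fun u => by simp [omega_apply]
  have hl : (omega n F).SeparatingLeft := by
    intro u hu
    refine Prod.ext (funext fun i => ?_) (funext fun i => ?_)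
    · simpa [omega_apply] using hu (0, Pi.single i 1)
    · simpa [omega_apply] using hu (Pi.single i 1, 0)
  refine ⟨alt, ⟨hl, fun u hu => hl u fun v => alt.isRefl _ _ (hu v)⟩, ?_⟩
  simp [two_mul]

theorem mem_lag {x : SymM n F} {u : (Fin n → F) × (Fin n → F)} :
    u ∈ lag x ↔ u.2 = (mat x).mulVec u.1 := LinearMap.mem_graph_iff _ _

theorem finrank_map_graph (x : SymM n F) (K : Submodule F (Fin n → F)) :
    finrank F (K.map (LinearMap.prod LinearMap.id (mat x).mulVecLin)) = finrank F K :=
  (Submodule.equivMapOfInjective _ (fun _ _ h => (Prod.mk.inj h).1) K).finrank_eq.symm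

theorem isLag_lag (x : SymM n F) : IsLag (omega n F) n (lag x) := by
  constructor
  · intro u hu v hv
    rw [omega_apply, mem_lag.1 hu, mem_lag.1 hv, Matrix.dotProduct_mulVec,
      ← Matrix.mulVec_transpose, mat_transpose, dotProduct_comm, sub_self]
  · rw [lag, LinearMap.graph_eq_range_prod, LinearMap.range_eq_map, finrank_map_graph]
    simp

theorem lag_injective : Function.Injective (lag : SymM n F → _) := by
  intro x y h
  refine mat_injective (Matrix.ext_of_mulVec_single fun i => ?_)
  have : (Pi.single i 1, (mat x).mulVec (Pi.single i 1)) ∈ lag x := mem_lag.2 rfl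
  rw [h] at this
  exact mem_lag.1 this

theorem cork_comm (x y : SymM n F) : cork x y = cork y x := by
  unfold cork
  rw [inf_comm]

theorem cork_eq_ker (x y : SymM n F) :
    cork x y = finrank F (LinearMap.ker (mat (x - y)).mulVecLin) := by
  rw [← finrank_map_graph x]
  suffices h : lag x ⊓ lag y = (LinearMap.ker (mat (x - y)).mulVecLin).map
      (LinearMap.prod LinearMap.id (mat x).mulVecLin) by rw [cork, h]
  ext u
  rw [Submodule.mem_inf, mem_lag, mem_lag, Submodule.mem_map]
  constructor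
  · rintro ⟨h1, h2⟩
    refine ⟨u.1, ?_, Prod.ext rfl h1.symm⟩
    rw [LinearMap.mem_ker, Matrix.mulVecLin_apply, mat_sub, Matrix.sub_mulVec, ← h1, ← h2, sub_self]
  · rintro ⟨v, hv, rfl⟩
    rw [LinearMap.mem_ker, Matrix.mulVecLin_apply, mat_sub, Matrix.sub_mulVec, sub_eq_zero] at hv
    exact ⟨rfl, hv⟩

theorem cork_eq (x y : SymM n F) : cork x y + (mat (x - y)).rank = n := by
  rw [cork_eq_ker, add_comm]
  simpa [Matrix.rank] using LinearMap.finrank_range_add_finrank_ker (mat (x - y)).mulVecLin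

theorem cork_eq_zero_iff (x y : SymM n F) : cork x y = 0 ↔ (mat (x - y)).det ≠ 0 := by
  rw [cork_eq_ker, Submodule.finrank_eq_zero, Ne, ← Matrix.exists_mulVec_eq_zero_iff,
    LinearMap.ker_eq_bot']
  push Not
  exact forall_congr' fun v => not_imp_not.symm

theorem card_SymM [Fintype F] :
    (Fintype.card (SymM n F) : ℝ) = (Fintype.card F : ℝ) ^ nu n := by
  rw [Fintype.card_fun, Sym2.card, Fintype.card_fin, Nat.cast_pow, ← Real.rpow_natCast,
    Nat.cast_choose_two]
  congr 1
  unfold nu
  push_cast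
  ring

/-- Evaluation of a symmetric matrix at a vector. -/
def evalAt (v : Fin n → F) : SymM n F →ₗ[F] (Fin n → F) where
  toFun x := (mat x).mulVec v
  map_add' x y := Matrix.add_mulVec (mat x) (mat y) v
  map_smul' c x := Matrix.smul_mulVec c (mat x) v

theorem evalAt_surjective {v : Fin n → F} (hv : v ≠ 0) : Function.Surjective (evalAt v) := by
  obtain ⟨i, hi⟩ := Function.ne_iff.1 hv
  have hi : v i ≠ 0 := hi
  intro w
  obtain ⟨x, hx⟩ := exists_mat ((v i)⁻¹ • (Matrix.vecMulVec w (Pi.single i 1) +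
    Matrix.vecMulVec (Pi.single i 1) w) - ((w ⬝ᵥ v) * (v i)⁻¹ * (v i)⁻¹) •
      Matrix.vecMulVec (Pi.single i 1) (Pi.single i 1)) (by simp [add_comm])
  refine ⟨x, ?_⟩
  change (mat x).mulVec v = w
  rw [hx, Matrix.sub_mulVec, Matrix.smul_mulVec, Matrix.smul_mulVec, Matrix.add_mulVec,
    Matrix.vecMulVec_mulVec, Matrix.vecMulVec_mulVec, Matrix.vecMulVec_mulVec]
  funext j
  simp
  field_simp
  ring

theorem card_ker_evalAt [Fintype F] [DecidableEq F] {v : Fin n → F} (hv : v ≠ 0) :
    (Finset.univ.filter fun x : SymM n F => (mat x).mulVec v = 0).card * Fintype.card F ^ n =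
      Fintype.card (SymM n F) := by
  have h := Submodule.card_eq_card_quotient_mul_card (LinearMap.ker (evalAt v))
  rw [Nat.card_congr ((evalAt v).quotKerEquivOfSurjective (evalAt_surjective hv)).toEquiv] at h
  rw [← Nat.card_eq_fintype_card (α := SymM n F), h, ← Fintype.card_subtype,
    ← Nat.card_eq_fintype_card]
  rw [Nat.card_fun, Nat.card_eq_fintype_card (α := F), Nat.card_eq_fintype_card (α := Fin n),
    Fintype.card_fin]
  rfl

theorem card_sing [Fintype F] :
    (({x : SymM n F | (mat x).det = 0} : Set (SymM n F)).ncard : ℝ) * ((Fintype.card F : ℝ) - 1) ≤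
      (Fintype.card F : ℝ) ^ nu n := by
  classical
  have hq : 1 ≤ Fintype.card F := Fintype.card_pos
  have hpos : 0 < Fintype.card F ^ n := pow_pos hq n
  set k := Fintype.card (SymM n F) / Fintype.card F ^ n with hk
  have h := Finset.card_mul_le_card_mul (s := Finset.univ.filter fun x : SymM n F =>
    (mat x).det = 0) (t := Finset.univ.filter fun v : Fin n → F => v ≠ 0)
    (fun x v => (mat x).mulVec v = 0) (m := Fintype.card F - 1) (n := k) (by
      intro x hx
      obtain ⟨v, hv, h0⟩ := Matrix.exists_mulVec_eq_zero_iff.2 (Finset.mem_filter.1 hx).2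
      have : (Finset.univ.erase (0 : F)).card = Fintype.card F - 1 := by simp
      rw [← this]
      refine Finset.card_le_card_of_injOn (fun c => c • v) (fun c hc => ?_)
        (smul_left_injective F hv).injOn
      have hc : c ≠ 0 := by simpa using hc
      simp [Finset.bipartiteAbove, hc, hv, Matrix.mulVec_smul, h0]) (by
      intro v hv
      rw [hk, ← card_ker_evalAt (Finset.mem_filter.1 hv).2, Nat.mul_div_cancel _ hpos]
      refine Finset.card_le_card fun x hx => ?_
      simpa using ((Finset.mem_bipartiteBelow _).1 hx).2)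
  have h2 : (Finset.univ.filter fun v : Fin n → F => v ≠ 0).card * k ≤
      Fintype.card (SymM n F) := by
    refine le_trans (Nat.mul_le_mul_right k ?_) (Nat.mul_div_le _ (Fintype.card F ^ n))
    simpa using Finset.card_filter_le (Finset.univ : Finset (Fin n → F)) fun v => v ≠ 0
  rw [← card_SymM, Set.ncard_eq_toFinset_card', Set.toFinset_setOf]
  have h3 := (Nat.cast_le (α := ℝ)).2 (h.trans h2)
  rwa [Nat.cast_mul, Nat.cast_sub hq, Nat.cast_one] at h3

theorem card_sing' [Fintype F] :
    (({x : SymM n F | (mat x).det = 0} : Set (SymM n F)).ncard : ℝ) ≤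
      (Fintype.card F : ℝ) ^ nu n / ((Fintype.card F : ℝ) - 1) := by
  have : (1 : ℝ) < Fintype.card F := by exact_mod_cast Fintype.one_lt_card
  rw [le_div_iff₀ (by linarith)]
  exact card_sing

/-- The identification of two blocks. -/
def blk (m : ℕ) : Fin m ⊕ Fin m ≃ Fin (2 * m) := finSumFinEquiv.trans (finCongr (two_mul m).symm)

theorem rank_block {m : ℕ} (P D : Matrix (Fin m) (Fin m) F) (hD : D.det ≠ 0) :
    ((Matrix.fromCols (1 : Matrix (Fin m) (Fin m) F) P).transpose * D *
      Matrix.fromCols (1 : Matrix (Fin m) (Fin m) F) P).rank = m := by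
  apply le_antisymm
  · exact (Matrix.rank_mul_le_right _ _).trans ((Matrix.rank_le_card_height _).trans (Fintype.card_fin m).le)
  · have e : Matrix.fromCols (1 : Matrix (Fin m) (Fin m) F) (0 : Matrix (Fin m) (Fin m) F) *
        ((Matrix.fromCols (1 : Matrix (Fin m) (Fin m) F) P).transpose * D *
          Matrix.fromCols (1 : Matrix (Fin m) (Fin m) F) P *
          Matrix.fromRows (1 : Matrix (Fin m) (Fin m) F) (0 : Matrix (Fin m) (Fin m) F)) = D := by
      rw [Matrix.transpose_fromCols, Matrix.mul_assoc, Matrix.fromCols_mul_fromRows,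
        ← Matrix.mul_assoc, ← Matrix.mul_assoc, Matrix.fromCols_mul_fromRows]
      simp
    have h1 : D.rank = m := by
      simpa using Matrix.rank_of_isUnit D ((Matrix.isUnit_iff_isUnit_det D).2 (Ne.isUnit hD))
    refine h1.ge.trans ?_
    conv_lhs => rw [← e]
    exact (Matrix.rank_mul_le_right _ _).trans (Matrix.rank_mul_le_left _ _)

theorem Rnum_lower (m : ℕ) [Fintype F] :
    (Fintype.card F : ℝ) ^ ((m : ℝ) ^ 2 + nu m) * (1 - 1 / ((Fintype.card F : ℝ) - 1)) ≤
      Rnum m F := by
  classical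
  have hq : (0 : ℝ) < Fintype.card F := by exact_mod_cast Fintype.card_pos
  have hex : ∀ p : Matrix (Fin m) (Fin m) F × SymM m F, ∃ y : SymM (2 * m) F,
      mat y = Matrix.reindex (blk m) (blk m)
        ((Matrix.fromCols 1 p.1).transpose * mat p.2 * Matrix.fromCols 1 p.1) := fun p =>
    exists_mat _ (by
      rw [Matrix.transpose_reindex, Matrix.transpose_mul, Matrix.transpose_mul,
        Matrix.transpose_transpose, mat_transpose, Matrix.mul_assoc])
  choose φ hφ using hex
  have h1 : ((Set.univ : Set (Matrix (Fin m) (Fin m) F)) ×ˢ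
      {x : SymM m F | (mat x).det = 0}ᶜ).ncard ≤ Rnum m F := by
    refine Set.ncard_le_ncard_of_injOn φ (fun p hp => ?_) (fun p hp p' hp' h => ?_)
    · have h2 := cork_eq (φ p) 0
      rw [sub_zero, hφ, Matrix.rank_reindex, rank_block _ _ hp.2, cork_comm] at h2
      change cork 0 (φ p) = m
      omega
    · have h2 := (Matrix.reindex (blk m) (blk m)).injective ((hφ p).symm.trans (h ▸ hφ p'))
      rw [Matrix.transpose_fromCols, Matrix.transpose_fromCols, Matrix.fromRows_mul _ _ (mat p.2),
        Matrix.fromRows_mul _ _ (mat p'.2), Matrix.fromRows_mul_fromCols,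
        Matrix.fromRows_mul_fromCols] at h2
      simp only [Matrix.transpose_one, Matrix.one_mul, Matrix.mul_one] at h2
      obtain ⟨a, b, -, -⟩ := Matrix.fromBlocks_inj.1 h2
      rw [← a] at b
      have hu : IsUnit (mat p.2) := (Matrix.isUnit_iff_isUnit_det _).2 (Ne.isUnit hp.2)
      exact Prod.ext (hu.mul_left_cancel b) (mat_injective a)
  rw [Set.ncard_prod, Set.ncard_univ] at h1
  have h2 := Set.ncard_add_ncard_compl {x : SymM m F | (mat x).det = 0}
  have h3 : (({x : SymM m F | (mat x).det = 0}ᶜ : Set (SymM m F)).ncard : ℝ) =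
      (Fintype.card F : ℝ) ^ nu m - ({x : SymM m F | (mat x).det = 0} : Set (SymM m F)).ncard := by
    rw [← card_SymM, ← Nat.card_eq_fintype_card, ← h2]
    push_cast
    ring
  have h4 : (Nat.card (Matrix (Fin m) (Fin m) F) : ℝ) = (Fintype.card F : ℝ) ^ ((m : ℝ) ^ 2) := by
    rw [← Nat.cast_pow, Real.rpow_natCast]
    change (Nat.card (Fin m → Fin m → F) : ℝ) = _
    simp [sq, ← pow_mul]
  refine le_trans ?_ (Nat.cast_le.2 h1)
  rw [Nat.cast_mul, h3, h4, Real.rpow_add hq, mul_assoc]
  refine mul_le_mul_of_nonneg_left ?_ (by positivity)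
  have := card_sing' (n := m) (F := F)
  rw [mul_sub, mul_one, mul_one_div]
  linarith

theorem Wm_mean (m : ℕ) [Fintype F] (hq : 3 ≤ Fintype.card F) (x : SymM (2 * m) F) :
    𝔼 y, Wm m F x y = 1 := by
  classical
  have hq' : (3 : ℝ) ≤ Fintype.card F := by exact_mod_cast hq
  have hR : (0 : ℝ) < Rnum m F := by
    refine lt_of_lt_of_le (mul_pos (by positivity) ?_) (Rnum_lower m)
    rw [sub_pos, div_lt_one (by linarith)]
    linarith
  have h1 : (Finset.univ.filter fun y => cork x y = m).card = Rnum m F := by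
    rw [Rnum, Set.ncard_eq_toFinset_card', Set.toFinset_setOf]
    refine Finset.card_equiv (Equiv.subRight x) fun y => ?_
    simp only [Finset.mem_filter, Finset.mem_univ, true_and, Equiv.subRight_apply]
    rw [cork_eq_ker, cork_eq_ker, zero_sub, neg_sub]
  have h2 : (Fintype.card (SymM (2 * m) F) : ℝ) = (Fintype.card F : ℝ) ^ (m * (2 * m + 1)) := by
    rw [card_SymM, ← Real.rpow_natCast]
    congr 1
    unfold nu
    push_cast
    ring
  rw [Fintype.expect_eq_sum_div_card, h2]
  unfold Wm
  rw [← Finset.sum_filter, Finset.sum_const, nsmul_eq_mul]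
  convert_to ((Rnum m F : ℝ) * _) / _ = _
  · congr!
  · field_simp

theorem gm_ne_zero_iff [Fintype F] [DecidableEq F] (x y : SymM n F) :
    gm x y ≠ 0 ↔ cork x y = 0 := by
  rw [cork_eq_zero_iff, gm, Int.cast_ne_zero, Ne, quadraticChar_eq_zero_iff]

theorem gm_val [Fintype F] [DecidableEq F] (x y : SymM n F) :
    gm x y = 0 ∨ gm x y = 1 ∨ gm x y = -1 := by
  unfold gm
  rcases quadraticChar_isQuadratic F (mat (x - y)).det with h | h | h <;> simp [h]

theorem gm_sing [Fintype F] [DecidableEq F] :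
    𝔼 x : SymM n F, 𝔼 x' : SymM n F, (if gm x x' = 0 then (1 : ℝ) else 0) ≤
      1 / ((Fintype.card F : ℝ) - 1) := by
  refine Finset.expect_le Finset.univ_nonempty fun x _ => ?_
  have hq : (0 : ℝ) < Fintype.card F := by exact_mod_cast Fintype.card_pos
  have h1 : (Finset.univ.filter fun y => gm x y = 0).card =
      ({x : SymM n F | (mat x).det = 0} : Set (SymM n F)).ncard := by
    rw [Set.ncard_eq_toFinset_card', Set.toFinset_setOf]
    refine Finset.card_equiv (Equiv.subLeft x) fun y => ?_
    simp only [gm, Finset.mem_filter, Finset.mem_univ, true_and, Int.cast_eq_zero,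
      quadraticChar_eq_zero_iff, Equiv.subLeft_apply]
  rw [Fintype.expect_eq_sum_div_card, card_SymM, Finset.sum_boole, h1,
    div_le_iff₀ (by positivity), one_div_mul_eq_div]
  exact card_sing'

theorem exists_factor {m : ℕ} (A : Matrix (Fin n) (Fin n) F) (hA : A.transpose = A)
    (h : A.rank = m) : ∃ (P : Matrix (Fin m) (Fin n) F) (D : Matrix (Fin m) (Fin m) F),
      A = P.transpose * D * P := by
  let e : LinearMap.range A.mulVecLin ≃ₗ[F] (Fin m → F) :=
    LinearEquiv.ofFinrankEq _ _ (by simpa [Matrix.rank] using h)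
  let p : (Fin n → F) →ₗ[F] (Fin m → F) := e.toLinearMap ∘ₗ A.mulVecLin.rangeRestrict
  obtain ⟨r, hr⟩ := p.exists_rightInverse_of_surjective
    (LinearMap.range_eq_top.2 (e.surjective.comp A.mulVecLin.surjective_rangeRestrict))
  have key : A * (LinearMap.toMatrix' r * LinearMap.toMatrix' p) = A := by
    refine Matrix.ext_of_mulVec_single fun i => ?_
    rw [← Matrix.mulVec_mulVec, ← Matrix.mulVec_mulVec, LinearMap.toMatrix'_mulVec,
      LinearMap.toMatrix'_mulVec]
    exact congrArg Subtype.val (e.injective (LinearMap.congr_fun hr (p (Pi.single i 1))))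
  refine ⟨LinearMap.toMatrix' p, (LinearMap.toMatrix' r).transpose * A * LinearMap.toMatrix' r, ?_⟩
  have key' := congrArg Matrix.transpose key
  rw [Matrix.transpose_mul, Matrix.transpose_mul, hA] at key'
  rw [Matrix.mul_assoc, Matrix.mul_assoc, Matrix.mul_assoc, key, ← Matrix.mul_assoc, key']

theorem char_factor {m : ℕ} (hm : Even m) [Fintype F] [DecidableEq F]
    (P₁ P₂ : Matrix (Fin m) (Fin (2 * m)) F) (D₁ D₂ : Matrix (Fin m) (Fin m) F)
    (h : (P₁.transpose * D₁ * P₁ - P₂.transpose * D₂ * P₂).det ≠ 0) :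
    quadraticChar F D₁.det * quadraticChar F D₂.det =
      quadraticChar F (P₁.transpose * D₁ * P₁ - P₂.transpose * D₂ * P₂).det := by
  let Q : Matrix (Fin m ⊕ Fin m) (Fin m ⊕ Fin m) F := (Matrix.fromRows P₁ P₂).submatrix id (blk m)
  have e : (P₁.transpose * D₁ * P₁ - P₂.transpose * D₂ * P₂).submatrix (blk m) (blk m) =
      Q.transpose * Matrix.fromBlocks D₁ 0 0 (-D₂) * Q := by
    have : P₁.transpose * D₁ * P₁ - P₂.transpose * D₂ * P₂ = (Matrix.fromRows P₁ P₂).transpose *
        Matrix.fromBlocks D₁ 0 0 (-D₂) * Matrix.fromRows P₁ P₂ := by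
      rw [Matrix.transpose_fromRows, Matrix.fromCols_mul_fromBlocks, Matrix.fromCols_mul_fromRows]
      simp [sub_eq_add_neg]
    rw [this]
    rfl
  have e' : (P₁.transpose * D₁ * P₁ - P₂.transpose * D₂ * P₂).det = Q.det ^ 2 * (D₁.det * D₂.det) := by
    rw [← Matrix.det_submatrix_equiv_self (blk m), e, Matrix.det_mul, Matrix.det_mul,
      Matrix.det_transpose, Matrix.det_fromBlocks_zero₂₁, Matrix.det_neg, Fintype.card_fin,
      hm.neg_one_pow]
    ring
  rw [e'] at h ⊢
  have hQ : Q.det ≠ 0 := fun h0 => h (by simp [h0])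
  rw [map_mul, map_mul, quadraticChar_sq_one' hQ, one_mul]

/-- The discriminant sign of a corank-`m` pair. -/
theorem sigma_exists (m : ℕ) (hm : Even m) [Fintype F] [DecidableEq F] :
    ∃ σ : SymM (2 * m) F → SymM (2 * m) F → ℝ, (∀ x y, σ x y = σ y x) ∧ (∀ x y, |σ x y| ≤ 1) ∧
      ∀ x x' y, gm x x' ≠ 0 → cork x y = m → cork x' y = m → σ x y * σ x' y = gm x x' := by
  classical
  let p : SymM (2 * m) F → SymM (2 * m) F → Prop := fun x y =>
    ∃ (P : Matrix (Fin m) (Fin (2 * m)) F) (D : Matrix (Fin m) (Fin m) F),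
      mat (x - y) = P.transpose * D * P ∧ quadraticChar F D.det = 1
  have hp : ∀ x y, p x y → p y x := by
    rintro x y ⟨P, D, h1, h2⟩
    refine ⟨P, -D, ?_, ?_⟩
    · rw [Matrix.mul_neg, Matrix.neg_mul, ← h1, mat_sub, mat_sub, neg_sub]
    · rw [Matrix.det_neg, Fintype.card_fin, hm.neg_one_pow, one_mul, h2]
  have hfac : ∀ x y, cork x y = m → ∃ (P : Matrix (Fin m) (Fin (2 * m)) F)
      (D : Matrix (Fin m) (Fin m) F), mat (x - y) = P.transpose * D * P ∧
        (quadraticChar F D.det ≠ 0 → (if p x y then (1 : ℝ) else -1) =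
          ((quadraticChar F D.det : ℤ) : ℝ)) := by
    intro x y h
    by_cases hxy : p x y
    · obtain ⟨P, D, h1, h2⟩ := id hxy
      exact ⟨P, D, h1, fun _ => by rw [if_pos hxy, h2, Int.cast_one]⟩
    · obtain ⟨P, D, h1⟩ := exists_factor (m := m) (mat (x - y)) (mat_transpose _)
        (by have := cork_eq x y; omega)
      refine ⟨P, D, h1, fun h0 => ?_⟩
      rcases quadraticChar_isQuadratic F D.det with h2 | h2 | h2
      · exact (h0 h2).elim
      · exact (hxy ⟨P, D, h1, h2⟩).elim
      · rw [if_neg hxy, h2]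
        simp
  refine ⟨fun x y => if p x y then 1 else -1,
    fun x y => if_congr ⟨hp x y, hp y x⟩ rfl rfl, fun x y => ?_, fun x x' y hg h1 h2 => ?_⟩
  · dsimp only
    split_ifs <;> simp
  · obtain ⟨P₁, D₁, a1, a2⟩ := hfac x y h1
    obtain ⟨P₂, D₂, b1, b2⟩ := hfac x' y h2
    have e : mat (x - x') = P₁.transpose * D₁ * P₁ - P₂.transpose * D₂ * P₂ := by
      rw [← a1, ← b1, ← mat_sub, sub_sub_sub_cancel_right]
    have hd := (cork_eq_zero_iff x x').1 ((gm_ne_zero_iff x x').1 hg)
    rw [e] at hd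
    have key := char_factor hm P₁ P₂ D₁ D₂ hd
    have hne := mul_ne_zero_iff.1 (key ▸ fun h0 => hd (quadraticChar_eq_zero_iff.1 h0) :
      quadraticChar F D₁.det * quadraticChar F D₂.det ≠ 0)
    dsimp only
    rw [a2 hne.1, b2 hne.2, gm, e, ← key, Int.cast_mul]

end Vale.Agent.P050
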