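import Vale.Agent.P050.Grass

namespace Vale.Agent.P050

open Finset Module
open scoped BigOperators

variable {F : Type} [Field F] [Fintype F] {V : Type} [AddCommGroup V] [Module F V] [Finite V]
  {ω : LinearMap.BilinForm F V} {n : ℕ}

omit [Fintype F] [Finite V] in
theorem Isot.le_orth {A B L : Submodule F V} (hL : Isot ω L) (hA : A ≤ L) (hB : B ≤ L) :
    A ≤ ω.orthogonal B :=
  fun a ha b hb => hL b (hB hb) a (hA ha)

omit [Fintype F] [Finite V] in
theorem Isot.mono {A L : Submodule F V} (hL : Isot ω L) (hA : A ≤ L) : Isot ω A :=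
  fun a ha b hb => hL a (hA ha) b (hA hb)

omit [Fintype F] in
theorem Symp.finrank_orth (h : Symp ω n) (A : Submodule F V) :
    finrank F (ω.orthogonal A) + finrank F A = 2 * n := by
  have h1 := LinearMap.BilinForm.finrank_orthogonal h.nondeg A
  have h2 := Submodule.finrank_le A
  have h3 := h.dim
  omega

omit [Fintype F] in
theorem Isot.finrank_le (h : Symp ω n) {W : Submodule F V} (hW : Isot ω W) : finrank F W ≤ n := by
  have h1 := h.finrank_orth W
  have h2 := Submodule.finrank_mono (hW.le_orth le_rfl le_rfl)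
  omega

theorem IsLag.orth (h : Symp ω n) {L : Submodule F V} (hL : IsLag ω n L) :
    ω.orthogonal L = L := by
  refine (Submodule.eq_of_le_of_finrank_le (hL.1.le_orth le_rfl le_rfl) ?_).symm
  have h1 := h.finrank_orth L
  have h2 := hL.2
  omega

theorem orth_sup (A B : Submodule F V) :
    ω.orthogonal (A ⊔ B) = ω.orthogonal A ⊓ ω.orthogonal B := by
  apply le_antisymm
  · exact le_inf (LinearMap.BilinForm.orthogonal_le le_sup_left)
      (LinearMap.BilinForm.orthogonal_le le_sup_right)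
  · rintro v ⟨h1, h2⟩ w hw
    obtain ⟨a, ha, b, hb, rfl⟩ := Submodule.mem_sup.mp hw
    have e1 : ω a v = 0 := h1 a ha
    have e2 : ω b v = 0 := h2 b hb
    show ω (a + b) v = 0
    simp [e1, e2]

theorem orth_inf (h : Symp ω n) (A B : Submodule F V) :
    ω.orthogonal (A ⊓ B) = ω.orthogonal A ⊔ ω.orthogonal B := by
  have ho := LinearMap.BilinForm.orthogonal_orthogonal h.nondeg h.alt.isRefl
  rw [← ho (ω.orthogonal A ⊔ ω.orthogonal B), orth_sup, ho, ho]

theorem perp_dim (h : Symp ω n) {x : Submodule F V} (hx : IsLag ω n x) (Y : Submodule F V) :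
    finrank F ↥(x ⊓ ω.orthogonal Y) + finrank F Y = n + finrank F ↥(Y ⊓ x) := by
  have h1 : x ⊓ ω.orthogonal Y = ω.orthogonal (Y ⊔ x) := by rw [orth_sup, hx.orth h, inf_comm]
  have h2 := h.finrank_orth (Y ⊔ x)
  have h3 := Submodule.finrank_sup_add_finrank_inf_eq Y x
  have h4 := hx.2
  rw [h1]
  omega

/-- The rank of the Maslov form is nonnegative. -/
theorem maslov (h : Symp ω n) {x y z : Submodule F V} (hx : IsLag ω n x) (hy : IsLag ω n y)
    (hz : IsLag ω n z) :
    finrank F ↥(x ⊓ y) + finrank F ↥(x ⊓ z) + finrank F ↥(y ⊓ z) ≤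
      n + 2 * finrank F ↥(x ⊓ y ⊓ z) := by
  have h1 := perp_dim h hz (x ⊓ y)
  have h2 : x ⊓ z ⊔ y ⊓ z ≤ z ⊓ ω.orthogonal (x ⊓ y) :=
    le_inf (sup_le inf_le_right inf_le_right)
      (sup_le (hx.1.le_orth inf_le_left inf_le_left) (hy.1.le_orth inf_le_left inf_le_right))
  have h3 := Submodule.finrank_mono h2
  have h4 := Submodule.finrank_sup_add_finrank_inf_eq (x ⊓ z) (y ⊓ z)
  have h5 : x ⊓ z ⊓ (y ⊓ z) = x ⊓ y ⊓ z := (inf_inf_distrib_right x y z).symm
  rw [h5] at h4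
  omega

/-- Symplectic reduction of a Lagrangian `M` along an isotropic subspace `I`. -/
theorem reduce (h : Symp ω n) {M I : Submodule F V} (hM : IsLag ω n M) (hI : Isot ω I) :
    IsLag ω n (M ⊓ ω.orthogonal I ⊔ I) ∧
    finrank F ↥(M ⊓ (M ⊓ ω.orthogonal I ⊔ I)) + finrank F I = n + finrank F ↥(M ⊓ I) ∧
    ∀ x, Isot ω x → I ≤ x →
      finrank F ↥((M ⊓ ω.orthogonal I ⊔ I) ⊓ x) + finrank F ↥(M ⊓ I) =
        finrank F ↥(M ⊓ x) + finrank F I := by
  have hII : I ≤ ω.orthogonal I := hI.le_orth le_rfl le_rfl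
  have h1 := perp_dim h hM I
  rw [inf_comm I M] at h1
  have h2 : M ⊓ ω.orthogonal I ⊓ I = M ⊓ I := by rw [inf_assoc, inf_eq_right.mpr hII]
  refine ⟨⟨?_, ?_⟩, ?_, fun x hx hIx => ?_⟩
  · intro u hu v hv
    obtain ⟨a, ha, b, hb, rfl⟩ := Submodule.mem_sup.mp hu
    obtain ⟨c, hc, d, hd, rfl⟩ := Submodule.mem_sup.mp hv
    have e1 : ω a c = 0 := hM.1 a ha.1 c hc.1
    have e2 : ω a d = 0 := h.alt.isRefl _ _ (ha.2 d hd)
    have e3 : ω b c = 0 := hc.2 b hb
    have e4 : ω b d = 0 := hI b hb d hd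
    simp [e1, e2, e3, e4]
  · have h3 := Submodule.finrank_sup_add_finrank_inf_eq (M ⊓ ω.orthogonal I) I
    rw [h2] at h3
    omega
  · have h3 : M ⊓ (M ⊓ ω.orthogonal I ⊔ I) = M ⊓ ω.orthogonal I :=
      le_antisymm (le_inf inf_le_left (inf_le_right.trans (sup_le inf_le_right hII)))
        (le_inf inf_le_left le_sup_left)
    rw [h3, h1]
  · have h3 : (M ⊓ ω.orthogonal I ⊔ I) ⊓ x = M ⊓ x ⊔ I := by
      rw [sup_comm, sup_inf_assoc_of_le _ hIx, inf_assoc,
        inf_eq_right.mpr (hx.le_orth le_rfl hIx), sup_comm]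
    have h4 := Submodule.finrank_sup_add_finrank_inf_eq (M ⊓ x) I
    rw [inf_assoc, inf_eq_right.mpr hIx] at h4
    rw [h3, h4]

omit [Finite V] in
theorem one_lt_q : (1 : ℝ) < Fintype.card F := by exact_mod_cast Fintype.one_lt_card

theorem ncard_submodule_real (A : Submodule F V) :
    ((A : Set V).ncard : ℝ) = (Fintype.card F : ℝ) ^ finrank F A := by
  have := Module.natCard_eq_pow_finrank (K := F) (V := A)
  rw [← Nat.card_coe_set_eq]
  rw [Nat.card_eq_fintype_card (α := F)] at this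
  exact_mod_cast this

theorem lag_ext_aux (h : Symp ω n) {W : Submodule F V} (i : ℕ) (hi : finrank F W + i ≤ n) :
    (({U | Isot ω U ∧ W ≤ U ∧ finrank F U = finrank F W + i} : Set (Submodule F V)).ncard : ℝ) ≤
      lam (Fintype.card F) ^ i * (Fintype.card F : ℝ) ^
        (2 * ((n : ℝ) - finrank F W) * i - 3 * i * (i - 1) / 2 - i) := by
  have hq := one_lt_q (F := F)
  have hq0 : (0 : ℝ) < Fintype.card F := by linarith
  induction i with
  | zero =>
    have : ({U | Isot ω U ∧ W ≤ U ∧ finrank F U = finrank F W + 0} : Set (Submodule F V))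
        ⊆ {W} := by
      rintro U ⟨-, h1, h2⟩
      exact (Submodule.eq_of_le_of_finrank_le h1 (by omega)).symm
    have h1 := Set.ncard_le_ncard this (Set.finite_singleton W)
    rw [Set.ncard_singleton] at h1
    simpa using h1
  | succ i ih =>
    have ih := ih (by omega)
    obtain ⟨r, hr⟩ : ∃ r, 2 * n = r + (finrank F W + i) := ⟨2 * n - (finrank F W + i), by omega⟩
    have hs := step_count (Isot ω) W i ((Fintype.card F : ℝ) ^ r) (by positivity)
      (fun U W' hU _ hle => hU.mono hle) (by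
        intro W' _ _ hd
        have h1 : ({v : V | v ∉ W' ∧ Isot ω (W' ⊔ Submodule.span F {v})} : Set V)
            ⊆ (ω.orthogonal W' : Set V) := by
          rintro v ⟨-, hv⟩ w hw
          exact hv w (Submodule.mem_sup_left hw) v
            (Submodule.mem_sup_right (Submodule.mem_span_singleton_self v))
        have h2 : finrank F (ω.orthogonal W') = r := by
          have := h.finrank_orth W'
          omega
        rw [← h2, ← ncard_submodule_real]
        exact_mod_cast Set.ncard_le_ncard h1 (Set.toFinite _))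
    have hpos : 0 < (Fintype.card F : ℝ) ^ i * (Fintype.card F : ℝ) ^ (finrank F W + i) *
        ((Fintype.card F : ℝ) - 1) := by
      have : 0 < (Fintype.card F : ℝ) - 1 := by linarith
      positivity
    refine le_of_mul_le_mul_right (hs.trans ((mul_le_mul_of_nonneg_right ih (by positivity)).trans
      (le_of_eq ?_))) hpos
    have hr' : (r : ℝ) = 2 * n - (finrank F W + i) := by
      have : ((2 * n : ℕ) : ℝ) = ((r + (finrank F W + i) : ℕ) : ℝ) := by rw [hr]
      push_cast at this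
      linarith
    have hl : lam (Fintype.card F) * ((Fintype.card F : ℝ) - 1) = (Fintype.card F : ℝ) ^ (1 : ℝ) := by
      rw [lam, Real.rpow_one, div_mul_cancel₀]
      linarith
    rw [pow_succ, ← Real.rpow_natCast _ r, ← Real.rpow_natCast (Fintype.card F : ℝ) i,
      ← Real.rpow_natCast (Fintype.card F : ℝ) (finrank F W + i)]
    calc _ = lam (Fintype.card F) ^ i * ((Fintype.card F : ℝ) ^
          ((2 * ((n : ℝ) - finrank F W) * i - 3 * i * (i - 1) / 2 - i) + r)) := by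
          rw [Real.rpow_add hq0, mul_assoc]
      _ = lam (Fintype.card F) ^ i * ((Fintype.card F : ℝ) ^
          ((2 * ((n : ℝ) - finrank F W) * ((i + 1 : ℕ) : ℝ)
            - 3 * ((i + 1 : ℕ) : ℝ) * (((i + 1 : ℕ) : ℝ) - 1) / 2 - ((i + 1 : ℕ) : ℝ))
            + i + ((finrank F W + i : ℕ) : ℝ) + 1)) := by
          congr 2
          rw [hr']
          push_cast
          ring
      _ = _ := by
          rw [Real.rpow_add hq0, Real.rpow_add hq0, Real.rpow_add hq0, ← hl]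
          ring

/-- Number of Lagrangians containing an isotropic subspace. -/
theorem lag_ext (h : Symp ω n) {W : Submodule F V} (hW : Isot ω W) :
    (({M | IsLag ω n M ∧ W ≤ M} : Set (Submodule F V)).ncard : ℝ) ≤
      lam (Fintype.card F) ^ (n - finrank F W) *
        (Fintype.card F : ℝ) ^ nu ((n : ℝ) - finrank F W) := by
  have hw := hW.finrank_le h
  have h1 := lag_ext_aux h (W := W) (n - finrank F W) (by omega)
  have e1 : ({M | IsLag ω n M ∧ W ≤ M} : Set (Submodule F V))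
      = {U | Isot ω U ∧ W ≤ U ∧ finrank F U = finrank F W + (n - finrank F W)} := by
    ext U
    rw [Nat.add_sub_cancel' hw]
    simp only [IsLag, Set.mem_ofPred_eq]
    tauto
  rw [e1]
  refine h1.trans (le_of_eq ?_)
  congr 2
  rw [Nat.cast_sub hw, nu]
  ring

omit [Finite V] in
theorem lam_pow_nonneg (a : ℕ) (x : ℝ) :
    0 ≤ lam (Fintype.card F) ^ a * (Fintype.card F : ℝ) ^ x := by
  have := one_lt_lam (F := F)
  have h1 : 0 ≤ lam (Fintype.card F) := by linarith
  positivity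

omit [Finite V] in
theorem lam_pow_mul (a b : ℕ) (x y : ℝ) :
    lam (Fintype.card F) ^ a * (Fintype.card F : ℝ) ^ x *
      (lam (Fintype.card F) ^ b * (Fintype.card F : ℝ) ^ y)
      = lam (Fintype.card F) ^ (a + b) * (Fintype.card F : ℝ) ^ (x + y) := by
  have hq := one_lt_q (F := F)
  rw [Real.rpow_add (by linarith), pow_add]
  ring

/-- One earlier neighbour. -/
theorem one_nbr (h : Symp ω n) {y : Submodule F V} (hy : IsLag ω n y) (d : ℕ) :
    (({x | IsLag ω n x ∧ finrank F ↥(x ⊓ y) = d} : Set (Submodule F V)).ncard : ℝ) ≤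
      lam (Fintype.card F) ^ n * (Fintype.card F : ℝ) ^ (nu n - nu d) := by
  rcases Set.eq_empty_or_nonempty
    ({x | IsLag ω n x ∧ finrank F ↥(x ⊓ y) = d} : Set (Submodule F V)) with h0 | ⟨x0, hx0, hd⟩
  · rw [h0, Set.ncard_empty, Nat.cast_zero]; exact lam_pow_nonneg _ _
  have hdn : d ≤ n := by rw [← hd]; exact (hx0.1.mono inf_le_left).finrank_le h
  refine (ncard_le_mul_of_fiber _ (fun x => x ⊓ y)
    (lam (Fintype.card F) ^ d * (Fintype.card F : ℝ) ^ ((d : ℝ) * (n - d)))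
    (lam (Fintype.card F) ^ (n - d) * (Fintype.card F : ℝ) ^ nu ((n : ℝ) - d))
    (lam_pow_nonneg _ _) ?_ ?_).trans (le_of_eq ?_)
  · have h1 := grass_bound (⊥ : Submodule F V) y d
    rw [finrank_bot, hy.2, Nat.sub_zero, Nat.cast_zero, sub_zero] at h1
    refine le_trans (Nat.cast_le.mpr (Set.ncard_le_ncard ?_ (Set.toFinite _))) h1
    rintro _ ⟨x, hx, rfl⟩
    exact ⟨bot_le, inf_le_right, hx.2⟩
  · intro x1 hx1
    have h1 := lag_ext h (hx1.1.1.mono (inf_le_left : x1 ⊓ y ≤ x1))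
    rw [hx1.2] at h1
    refine le_trans (Nat.cast_le.mpr (Set.ncard_le_ncard ?_ (Set.toFinite _))) h1
    rintro x ⟨hx, e⟩
    exact ⟨hx.1, le_trans (le_of_eq e.symm) inf_le_left⟩
  · rw [lam_pow_mul, Nat.add_sub_cancel' hdn]
    congr 2
    simp only [nu]
    ring

/-- Two earlier neighbours. -/
theorem two_nbr (h : Symp ω n) {y z : Submodule F V} (hy : IsLag ω n y) (hz : IsLag ω n z)
    (d₁ d₂ c : ℕ) :
    (({x | IsLag ω n x ∧ finrank F ↥(x ⊓ y) = d₁ ∧ finrank F ↥(x ⊓ z) = d₂ ∧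
        finrank F ↥(x ⊓ y ⊓ z) = c} : Set (Submodule F V)).ncard : ℝ) ≤
      lam (Fintype.card F) ^ n * (Fintype.card F : ℝ) ^
        (nu n - nu d₁ - nu d₂ - psi n c d₁ d₂ (finrank F ↥(y ⊓ z))) := by
  rcases Set.eq_empty_or_nonempty
    ({x | IsLag ω n x ∧ finrank F ↥(x ⊓ y) = d₁ ∧ finrank F ↥(x ⊓ z) = d₂ ∧
        finrank F ↥(x ⊓ y ⊓ z) = c} : Set (Submodule F V)) with h0 | ⟨x0, hx0, e1, e2, e3⟩
  · rw [h0, Set.ncard_empty, Nat.cast_zero]; exact lam_pow_nonneg _ _
  have hsup : ∀ x : Submodule F V, finrank F ↥(x ⊓ y ⊔ x ⊓ z) + finrank F ↥(x ⊓ y ⊓ z)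
      = finrank F ↥(x ⊓ y) + finrank F ↥(x ⊓ z) := fun x => by
    have := Submodule.finrank_sup_add_finrank_inf_eq (x ⊓ y) (x ⊓ z)
    rwa [← inf_inf_distrib_left, ← inf_assoc] at this
  have hc1 : c ≤ d₁ := by rw [← e1, ← e3]; exact Submodule.finrank_mono inf_le_left
  have hc2 : c ≤ d₂ := by
    rw [← e2, ← e3]; exact Submodule.finrank_mono (inf_le_inf_right _ inf_le_left)
  have hs : d₁ + d₂ ≤ n + c := by
    have h1 := hsup x0
    have h2 := (hx0.1.mono (sup_le inf_le_left inf_le_left : x0 ⊓ y ⊔ x0 ⊓ z ≤ x0)).finrank_le h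
    omega
  have hd1 : d₁ ≤ n := by omega
  refine (ncard_le_mul_of_fiber _ (fun x => x ⊓ y ⊓ z)
    (lam (Fintype.card F) ^ c * (Fintype.card F : ℝ) ^ ((c : ℝ) * (finrank F ↥(y ⊓ z) - c)))
    (lam (Fintype.card F) ^ (d₁ - c) * (Fintype.card F : ℝ) ^ (((d₁ : ℝ) - c) * (n - d₁)) *
      (lam (Fintype.card F) ^ (d₂ - c) * (Fintype.card F : ℝ) ^ (((d₂ : ℝ) - c) * (n - d₁ + c - d₂)) *
        (lam (Fintype.card F) ^ (n - (d₁ + d₂ - c)) *
          (Fintype.card F : ℝ) ^ nu ((n : ℝ) - (d₁ + d₂ - c)))))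
    (mul_nonneg (lam_pow_nonneg _ _) (mul_nonneg (lam_pow_nonneg _ _) (lam_pow_nonneg _ _)))
    ?_ ?_).trans (le_of_eq ?_)
  · have h1 := grass_bound (⊥ : Submodule F V) (y ⊓ z) c
    rw [finrank_bot, Nat.sub_zero, Nat.cast_zero, sub_zero] at h1
    refine le_trans (Nat.cast_le.mpr (Set.ncard_le_ncard ?_ (Set.toFinite _))) h1
    rintro _ ⟨x, hx, rfl⟩
    exact ⟨bot_le, inf_le_inf_right _ inf_le_right, hx.2.2.2⟩
  · intro x1 hx1
    refine ncard_le_mul_of_fiber _ (fun x => x ⊓ y) _ _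
      (mul_nonneg (lam_pow_nonneg _ _) (lam_pow_nonneg _ _)) ?_ ?_
    · have h1 := grass_bound (x1 ⊓ y ⊓ z) y d₁
      rw [hx1.2.2.2, hy.2] at h1
      refine le_trans (Nat.cast_le.mpr (Set.ncard_le_ncard ?_ (Set.toFinite _))) h1
      rintro _ ⟨x, ⟨hx, e⟩, rfl⟩
      exact ⟨le_trans (le_of_eq e.symm) inf_le_left, inf_le_right, hx.2.1⟩
    · rintro x2 ⟨hx2, -⟩
      refine ncard_le_mul_of_fiber _ (fun x => x ⊓ z) _ _ (lam_pow_nonneg _ _) ?_ ?_
      · have h1 := grass_bound (x2 ⊓ y ⊓ z) (z ⊓ ω.orthogonal (x2 ⊓ y)) d₂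
        have h2 := perp_dim h hz (x2 ⊓ y)
        rw [hx2.2.1, hx2.2.2.2] at h2
        have h3 : (finrank F ↥(z ⊓ ω.orthogonal (x2 ⊓ y)) : ℝ) = n - d₁ + c := by
          have : ((finrank F ↥(z ⊓ ω.orthogonal (x2 ⊓ y)) + d₁ : ℕ) : ℝ) = ((n + c : ℕ) : ℝ) := by
            rw [h2]
          push_cast at this
          linarith
        rw [hx2.2.2.2, h3] at h1
        refine le_trans (Nat.cast_le.mpr (Set.ncard_le_ncard ?_ (Set.toFinite _))) h1
        rintro _ ⟨x, ⟨⟨hx, -⟩, e⟩, rfl⟩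
        refine ⟨?_, le_inf inf_le_right ?_, hx.2.2.1⟩
        · rw [← e]; exact inf_le_inf_right _ inf_le_left
        · rw [← e]; exact hx.1.1.le_orth inf_le_left inf_le_left
      · rintro x3 ⟨⟨hx3, -⟩, e3⟩
        have h1 := lag_ext h
          (hx3.1.1.mono (sup_le inf_le_left inf_le_left : x3 ⊓ y ⊔ x3 ⊓ z ≤ x3))
        have h2 : finrank F ↥(x3 ⊓ y ⊔ x3 ⊓ z) = d₁ + d₂ - c := by
          have := hsup x3
          rw [hx3.2.1, hx3.2.2.1, hx3.2.2.2] at this
          omega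
        rw [h2, Nat.cast_sub (by omega), Nat.cast_add] at h1
        refine le_trans (Nat.cast_le.mpr (Set.ncard_le_ncard ?_ (Set.toFinite _))) h1
        rintro x ⟨⟨⟨hx, -⟩, e⟩, e'⟩
        refine ⟨hx.1, sup_le ?_ ?_⟩
        · exact le_trans (le_of_eq (e3.trans e.symm)) inf_le_left
        · exact le_trans (le_of_eq e'.symm) inf_le_left
  · rw [lam_pow_mul, lam_pow_mul, lam_pow_mul]
    congr 2
    · omega
    · simp only [nu, psi]
      ring

end Vale.Agent.P050
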