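import Vale.Agent.P050.Expose
import Vale.Agent.P050.Mat
import Vale.Agent.P050.Sympl

namespace Vale.Agent.P050

open Finset Module
open scoped BigOperators

namespace TypeProb

open Classical in
lemma prob_le {n : ℕ} {F : Type} [Field F] [Fintype F]
    (S : Set (Submodule F ((Fin n → F) × (Fin n → F)))) (Q : SymM n F → Prop)
    (hQ : ∀ t, Q t → lag t ∈ S) (c : ℝ)
    (hS : (S.ncard : ℝ) ≤ lam (Fintype.card F) ^ n * (Fintype.card F : ℝ) ^ (nu n - c)) :
    𝔼 t : SymM n F, (if Q t then (1 : ℝ) else 0) ≤ 2 ^ n * (Fintype.card F : ℝ) ^ (-c) := by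
  have hq : (2 : ℝ) ≤ Fintype.card F := by exact_mod_cast Fintype.one_lt_card
  have hq0 : (0 : ℝ) < Fintype.card F := by linarith
  have hl0 : 0 ≤ lam (Fintype.card F) := div_nonneg hq0.le (by linarith)
  have hl2 : lam (Fintype.card F) ≤ 2 := by
    rw [lam, div_le_iff₀ (by linarith)]; linarith
  have h1 : (univ.filter Q).card ≤ S.ncard := by
    rw [← Set.ncard_coe_finset]
    exact Set.ncard_le_ncard_of_injOn lag (fun t ht => hQ t (by simpa using ht))
      lag_injective.injOn (Set.toFinite _)
  rw [Fintype.expect_eq_sum_div_card, sum_boole, card_SymM, div_le_iff₀ (by positivity), mul_assoc,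
    ← Real.rpow_add hq0, neg_add_eq_sub]
  refine le_trans (Nat.cast_le.2 h1) (hS.trans ?_)
  gcongr

lemma lo_ne : ∀ j, lo j ≠ j := by decide

lemma hi_ne : ∀ j, hi j ≠ j := by decide

variable {A Fc Ed : Type} [LinearOrder A]

lemma ends_edg (T : Surf A Fc Ed) (f : Fc) (k : Fin 3) :
    T.ends (T.edg f k) = (T.vtx f (lo k), T.vtx f (hi k)) := by
  have := T.ends_slot (T.edg f k) (T.slot.symm (f, k)).2
  have e : T.slot (T.edg f k, (T.slot.symm (f, k)).2) = (f, k) := T.slot.apply_symm_apply (f, k)
  rwa [e] at this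

end TypeProb

open TypeProb in
open Classical in
/-- Probability of a prescribed pattern of intersection dimensions. -/
theorem type_prob {A Fc Ed : Type} [LinearOrder A] [Fintype A] [Fintype Fc] [Fintype Ed]
    [DecidableEq Fc] [DecidableEq Ed] (T : Surf A Fc Ed) (n : ℕ) (F : Type) [Field F] [Fintype F]
    (L : List (Step Fc)) (hL : T.Valid L) (d : Ed → ℕ) (a : Fc → ℕ) :
    𝔼 x : A → SymM n F, (if (∀ e, cork (x (T.ends e).1) (x (T.ends e).2) = d e) ∧
        (∀ f, finrank F ↥(lag (x (T.vtx f 0)) ⊓ lag (x (T.vtx f 1)) ⊓ lag (x (T.vtx f 2))) = a f)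
      then (1 : ℝ) else 0) ≤
      2 ^ (n * L.length) * (Fintype.card F : ℝ) ^ (-T.cost n d a L) := by
  have hq0 : (0 : ℝ) < Fintype.card F := by exact_mod_cast Fintype.card_pos
  let P : Step Fc → (A → SymM n F) → Prop := fun s z =>
    if s.2.2 = s.2.1 then
      cork (z (T.vtx s.1 s.2.1)) (z (T.vtx s.1 (lo s.2.1))) = d (T.edg s.1 (hi s.2.1)) ∧
      cork (z (T.vtx s.1 s.2.1)) (z (T.vtx s.1 (hi s.2.1))) = d (T.edg s.1 (lo s.2.1)) ∧
      cork (z (T.vtx s.1 (lo s.2.1))) (z (T.vtx s.1 (hi s.2.1))) = d (T.edg s.1 s.2.1) ∧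
      finrank F ↥(lag (z (T.vtx s.1 s.2.1)) ⊓ lag (z (T.vtx s.1 (lo s.2.1)))
        ⊓ lag (z (T.vtx s.1 (hi s.2.1)))) = a s.1
    else cork (z (T.vtx s.1 s.2.1)) (z (T.vtx s.1 s.2.2)) = d (T.edg s.1 (-(s.2.1 + s.2.2)))
  have hprod : ∀ L : List (Step Fc), (L.map fun s => 2 ^ n * (Fintype.card F : ℝ) ^
      (-T.stepCost n d a s)).prod
      = 2 ^ (n * L.length) * (Fintype.card F : ℝ) ^ (-T.cost n d a L) := by
    intro L
    induction L with
    | nil => simp [Surf.cost]
    | cons s L ih =>
      rw [List.map_cons, List.prod_cons, ih]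
      simp only [Surf.cost, List.map_cons, List.sum_cons, List.length_cons]
      rw [neg_add, Real.rpow_add hq0]
      ring
  rw [← hprod]
  refine le_trans (expect_le_expect fun x _ => ?_)
    (expose L (fun s => T.vtx s.1 s.2.1) T.supp P _ (fun _ _ => by positivity) ?_ hL ?_)
  · split_ifs with h1 h2
    · exact le_rfl
    · refine absurd (fun s _ => ?_) h2
      obtain ⟨f, i, j⟩ := s
      have h3 : ∀ k, cork (x (T.vtx f (lo k))) (x (T.vtx f (hi k))) = d (T.edg f k) := fun k => by
        have := h1.1 (T.edg f k)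
        rwa [ends_edg] at this
      have c0 : cork (x (T.vtx f 1)) (x (T.vtx f 2)) = d (T.edg f 0) := h3 0
      have c1 : cork (x (T.vtx f 0)) (x (T.vtx f 2)) = d (T.edg f 1) := h3 1
      have c2 : cork (x (T.vtx f 0)) (x (T.vtx f 1)) = d (T.edg f 2) := h3 2
      have c0' := (cork_comm _ _).trans c0
      have c1' := (cork_comm _ _).trans c1
      have c2' := (cork_comm _ _).trans c2
      have c4 := h1.2 f
      have c5 : finrank F ↥(lag (x (T.vtx f 1)) ⊓ lag (x (T.vtx f 0)) ⊓ lag (x (T.vtx f 2)))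
          = a f := by rw [inf_comm (lag (x (T.vtx f 1))), c4]
      have c6 : finrank F ↥(lag (x (T.vtx f 2)) ⊓ lag (x (T.vtx f 0)) ⊓ lag (x (T.vtx f 1)))
          = a f := by rw [inf_assoc, inf_comm (lag (x (T.vtx f 2))), c4]
      simp only [P]
      split_ifs with hij
      · fin_cases i
        · exact ⟨c2, c1, c0, c4⟩
        · exact ⟨c2', c0, c1, c5⟩
        · exact ⟨c1', c0', c2, c6⟩
      · fin_cases i <;> fin_cases j <;> first | exact absurd rfl hij | assumption
    · exact zero_le_one
    · exact le_rfl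
  · rintro ⟨f, i, j⟩ - z z' hz
    simp only [P]
    unfold Surf.supp at hz
    split_ifs at hz ⊢ with hij
    · have h1 : ∀ k, z (T.vtx f k) = z' (T.vtx f k) := fun k =>
        hz _ (mem_image_of_mem _ (mem_univ k))
      rw [h1, h1, h1]
    · rw [hz _ (mem_insert_self _ _), hz _ (mem_insert_of_mem (mem_singleton_self _))]
  · rintro ⟨f, i, j⟩ - z
    have hinj := (T.mono f).injective
    by_cases hij : j = i
    · subst hij
      have hlo : T.vtx f (lo j) ≠ T.vtx f j := hinj.ne (lo_ne j)
      have hhi : T.vtx f (hi j) ≠ T.vtx f j := hinj.ne (hi_ne j)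
      by_cases h3 : cork (z (T.vtx f (lo j))) (z (T.vtx f (hi j))) = d (T.edg f j)
      · have h4 := two_nbr (symp_omega (n := n) (F := F)) (isLag_lag (z (T.vtx f (lo j))))
          (isLag_lag (z (T.vtx f (hi j)))) (d (T.edg f (hi j))) (d (T.edg f (lo j))) (a f)
        refine prob_le _ _ (fun t ht => ?_) _ (h4.trans (le_of_eq ?_))
        · simp only [P, if_true, Function.update_self, Function.update_of_ne hlo,
            Function.update_of_ne hhi] at ht
          have h5 := ht.2.2.2
          rw [Function.update_self, Function.update_of_ne hlo, Function.update_of_ne hhi] at h5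
          exact ⟨isLag_lag t, ht.1, ht.2.1, h5⟩
        · unfold cork at h3
          rw [h3]
          congr 2
          simp only [Surf.stepCost, if_true, Surf.psiF, psi]
          fin_cases j <;> simp [lo, hi] <;> ring
      · refine le_trans (le_of_eq (expect_eq_zero fun t _ => if_neg fun ht => h3 ?_))
          (by positivity)
        simp only [P, if_true, Function.update_self, Function.update_of_ne hlo,
          Function.update_of_ne hhi] at ht
        exact ht.2.2.1
    · have h4 := one_nbr (symp_omega (n := n) (F := F)) (isLag_lag (z (T.vtx f j)))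
        (d (T.edg f (-(i + j))))
      refine prob_le _ _ (fun t ht => ?_) _ (h4.trans (le_of_eq ?_))
      · simp only [P, if_neg hij, Function.update_self, Function.update_of_ne (hinj.ne hij)] at ht
        exact ⟨isLag_lag t, ht⟩
      · simp only [Surf.stepCost, if_neg hij]

end Vale.Agent.P050
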