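import Vale.Agent.P050.FaceBound
import Vale.Agent.P050.TypeProb
import Vale.Agent.P050.Cert
import Vale.Agent.P050.Cut

namespace Vale.Agent.P050

open Finset Module
open scoped BigOperators

theorem DegAux.ends_edg {A Fc Ed : Type} [LinearOrder A] (T : Surf A Fc Ed) (f : Fc) (k : Fin 3) :
    T.ends (T.edg f k) = (T.vtx f (lo k), T.vtx f (hi k)) := by
  have := T.ends_slot (T.slot.symm (f, k)).1 (T.slot.symm (f, k)).2
  simpa [Surf.edg] using this

theorem DegAux.cork_le {n : ℕ} {F : Type} [Field F] (x y : SymM n F) : cork x y ≤ n := by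
  have := cork_eq x y
  omega

open Classical in
/-- The degenerate configurations carry vanishing mass. -/
theorem deg_bound (m : ℕ) (hm : 5000 ≤ m) (ε : ℝ) (hε : 0 < ε) : ∃ q₀ : ℕ,
    ∀ (F : Type) [Field F] [Fintype F], (2 : F) ≠ 0 → q₀ ≤ Fintype.card F →
    ∀ act : Fin 18 → Fin 3 → Bool,
      𝔼 x : Fin 11 → SymM (2 * m) F,
        (if ∃ e, cork (x (T0.ends e).1) (x (T0.ends e).2) ≠ 0 then (1 : ℝ) else 0) *
          ∏ f, 𝔼 y, ∏ i, (if act f i then Wm m F (x (T0.vtx f i)) y else 1) ≤ ε := by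
  obtain ⟨C, hC, hface⟩ := face_bound m (by omega)
  let Ty := (Fin 27 → Fin (2 * m + 1)) × (Fin 18 → Fin (2 * m + 1))
  set K : ℝ := ∑ _t : Ty, ∑ L ∈ ordAll.toFinset, C ^ 18 * 2 ^ (2 * m * L.length) with hK
  have ht : Filter.Tendsto (fun q : ℕ => K * (q : ℝ) ^ (-(1 / 1000) : ℝ)) Filter.atTop (nhds 0) := by
    have := ((tendsto_rpow_neg_atTop (show (0 : ℝ) < 1 / 1000 by norm_num)).comp
      tendsto_natCast_atTop_atTop).const_mul K
    simpa using this
  obtain ⟨q₀, hq₀⟩ := Filter.eventually_atTop.1 (ht.eventually (eventually_le_nhds hε))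
  refine ⟨q₀, fun F _ _ h2 hq act => le_trans ?_ (hq₀ _ hq)⟩
  have hq3 : (3 : ℝ) ≤ Fintype.card F := by exact_mod_cast FaceAux.three_le_card h2
  have hq0 : (0 : ℝ) < Fintype.card F := by linarith
  let ind : Ty → (Fin 11 → SymM (2 * m) F) → ℝ := fun t x =>
    if (∀ e, cork (x (T0.ends e).1) (x (T0.ends e).2) = (t.1 e : ℕ)) ∧
      (∀ f, finrank F ↥(lag (x (T0.vtx f 0)) ⊓ lag (x (T0.vtx f 1)) ⊓ lag (x (T0.vtx f 2)))
        = (t.2 f : ℕ)) then (1 : ℝ) else 0
  let wt : Ty → List (Step (Fin 18)) → ℝ := fun t L => C ^ 18 * (Fintype.card F : ℝ) ^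
    (T0.cost (2 * m) (fun e => (t.1 e : ℕ)) (fun f => (t.2 f : ℕ)) L - 1 / 1000)
  have hwt : ∀ t L, 0 ≤ wt t L := fun t L => by positivity
  have hind : ∀ t x, 0 ≤ ind t x := fun t x => by
    simp only [ind]
    split_ifs <;> norm_num
  have point : ∀ x : Fin 11 → SymM (2 * m) F,
      (if ∃ e, cork (x (T0.ends e).1) (x (T0.ends e).2) ≠ 0 then (1 : ℝ) else 0) *
          ∏ f, 𝔼 y, ∏ i, (if act f i then Wm m F (x (T0.vtx f i)) y else 1) ≤
        ∑ t : Ty, ∑ L ∈ ordAll.toFinset, wt t L * ind t x := fun x => by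
    have hnn : ∀ t : Ty, 0 ≤ ∑ L ∈ ordAll.toFinset, wt t L * ind t x := fun t =>
      Finset.sum_nonneg fun L _ => mul_nonneg (hwt t L) (hind t x)
    split_ifs with hd
    swap
    · rw [zero_mul]
      exact Finset.sum_nonneg fun t _ => hnn t
    choose Φ hΦ hb using fun f => hface F h2 (fun i => x (T0.vtx f i)) (act f)
    let d : Fin 27 → ℕ := fun e => cork (x (T0.ends e).1) (x (T0.ends e).2)
    let a : Fin 18 → ℕ := fun f =>
      finrank F ↥(lag (x (T0.vtx f 0)) ⊓ lag (x (T0.vtx f 1)) ⊓ lag (x (T0.vtx f 2)))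
    have e0 : ∀ f, d (T0.edg f 0) = cork (x (T0.vtx f 1)) (x (T0.vtx f 2)) := fun f => by
      simp only [d, DegAux.ends_edg]; rfl
    have e1 : ∀ f, d (T0.edg f 1) = cork (x (T0.vtx f 0)) (x (T0.vtx f 2)) := fun f => by
      simp only [d, DegAux.ends_edg]; rfl
    have e2 : ∀ f, d (T0.edg f 2) = cork (x (T0.vtx f 0)) (x (T0.vtx f 1)) := fun f => by
      simp only [d, DegAux.ends_edg]; rfl
    have hdims := fun f => FaceAux.dims (x (T0.vtx f 0)) (x (T0.vtx f 1)) (x (T0.vtx f 2))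
    obtain ⟨L, hL, hcost⟩ := cert (2 * m) (by omega) d a Φ
      (fun f k => by
        fin_cases k
        · exact (hdims f).1.trans (e0 f).ge
        · exact (hdims f).2.1.trans (e1 f).ge
        · exact (hdims f).2.2.1.trans (e2 f).ge)
      (fun f => by rw [e0, e1, e2]; exact (hdims f).2.2.2) hd
      (fun f => by rw [e0, e1, e2]; exact hΦ f)
    let t : Ty := (fun e => ⟨d e, Nat.lt_succ_of_le (DegAux.cork_le _ _)⟩,
      fun f => ⟨a f, Nat.lt_succ_of_le ((hdims f).1.trans (DegAux.cork_le _ _))⟩)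
    have hi : ind t x = 1 := if_pos ⟨fun _ => rfl, fun _ => rfl⟩
    have hW : ∀ u v : SymM (2 * m) F, 0 ≤ Wm m F u v := fun u v => by
      unfold Wm
      split_ifs <;> positivity
    calc 1 * ∏ f, 𝔼 y, ∏ i, (if act f i then Wm m F (x (T0.vtx f i)) y else 1)
        ≤ ∏ f, C * (Fintype.card F : ℝ) ^ Φ f := by
          rw [one_mul]
          refine Finset.prod_le_prod (fun f _ => Finset.expect_nonneg fun y _ =>
            Finset.prod_nonneg fun i _ => ?_) fun f _ => hb f
          split_ifs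
          · exact hW _ _
          · exact zero_le_one
      _ = C ^ 18 * (Fintype.card F : ℝ) ^ ∑ f, Φ f := by
          rw [Finset.prod_mul_distrib, Real.rpow_sum_of_pos hq0]
          simp
      _ ≤ wt t L * ind t x := by
          rw [hi, mul_one]
          refine mul_le_mul_of_nonneg_left ?_ (by positivity)
          exact Real.rpow_le_rpow_of_exponent_le (by linarith) (le_sub_iff_add_le.2 hcost)
      _ ≤ ∑ L ∈ ordAll.toFinset, wt t L * ind t x :=
          Finset.single_le_sum (f := fun L => wt t L * ind t x)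
            (fun L _ => mul_nonneg (hwt t L) (hind t x)) (List.mem_toFinset.2 hL)
      _ ≤ _ := Finset.single_le_sum (f := fun t => ∑ L ∈ ordAll.toFinset, wt t L * ind t x)
            (fun t _ => hnn t) (Finset.mem_univ t)
  refine (Finset.expect_le_expect fun x _ => point x).trans ?_
  rw [Finset.expect_sum_comm, hK, Finset.sum_mul]
  refine Finset.sum_le_sum fun t _ => ?_
  rw [Finset.expect_sum_comm, Finset.sum_mul]
  refine Finset.sum_le_sum fun L hL => ?_
  rw [← Finset.mul_expect]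
  have hp := type_prob T0 (2 * m) F L (valid_all L (List.mem_toFinset.1 hL))
    (fun e => (t.1 e : ℕ)) (fun f => (t.2 f : ℕ))
  have hp' : 𝔼 x, ind t x ≤ 2 ^ (2 * m * L.length) * (Fintype.card F : ℝ) ^
      (-T0.cost (2 * m) (fun e => (t.1 e : ℕ)) (fun f => (t.2 f : ℕ)) L) := by
    convert hp
  refine (mul_le_mul_of_nonneg_left hp' (hwt t L)).trans (le_of_eq ?_)
  simp only [wt]
  rw [mul_mul_mul_comm, ← Real.rpow_add hq0]
  congr 2
  ring

/-- Sparse models with arbitrarily small error exist. -/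
theorem model_exists (ε : ℝ) (hε : 0 < ε) :
    ∃ (X : Type) (_ : Fintype X) (_ : Nonempty X), Nonempty (Model T0 X ε) := by
  classical
  obtain ⟨q₁, h₁⟩ := deg_bound 5000 le_rfl ε hε
  obtain ⟨q₂, h₂⟩ := two_sharp 5000 ε hε
  obtain ⟨q₃, h₃⟩ := three_sharp 5000 ε hε
  obtain ⟨q₄, h₄⟩ := Filter.eventually_atTop.1
    (FaceAux.tendsto_inv_sub.eventually (eventually_le_nhds hε))
  have ht : Filter.Tendsto (fun q : ℕ => 3 / Real.sqrt q) Filter.atTop (nhds 0) :=
    tendsto_const_nhds.div_atTop (Real.tendsto_sqrt_atTop.comp tendsto_natCast_atTop_atTop)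
  obtain ⟨q₅, h₅⟩ := Filter.eventually_atTop.1 (ht.eventually (eventually_le_nhds hε))
  obtain ⟨p, hp, hprime⟩ := Nat.exists_infinite_primes (q₁ + q₂ + q₃ + q₄ + q₅ + 3)
  haveI : Fact p.Prime := ⟨hprime⟩
  have hcard : Fintype.card (ZMod p) = p := ZMod.card p
  have h2 : (2 : ZMod p) ≠ 0 := by
    intro h
    have : ((2 : ℕ) : ZMod p) = 0 := by exact_mod_cast h
    rw [ZMod.natCast_eq_zero_iff] at this
    have := Nat.le_of_dvd (by norm_num) this
    omega
  obtain ⟨σ, s1, s2, s3⟩ := sigma_exists (F := ZMod p) 5000 (by decide)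
  have hWc : ∀ x y : SymM (2 * 5000) (ZMod p), Wm 5000 (ZMod p) x y ≠ 0 → cork x y = 5000 :=
    fun x y h => by
      by_contra e
      exact h (if_neg e)
  refine ⟨SymM (2 * 5000) (ZMod p), inferInstance, inferInstance, ⟨
    { W := Wm 5000 (ZMod p), σ := σ, g := gm
      W_symm := fun x y => by unfold Wm; rw [cork_comm]
      σ_symm := s1
      W_nonneg := fun x y => by
        unfold Wm
        split_ifs <;> positivity
      W_mean := Wm_mean 5000 (by omega)
      σ_abs := s2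
      g_val := gm_val
      sign := fun x x' y h a b => s3 x x' y h (hWc _ _ a) (hWc _ _ b)
      two := fun x x' h => h₂ _ (by omega) x x' ((gm_ne_zero_iff _ _).1 h)
      three := fun x₁ x₂ x₃ a b c => h₃ _ h2 (by omega) x₁ x₂ x₃ ((gm_ne_zero_iff _ _).1 a)
        ((gm_ne_zero_iff _ _).1 b) ((gm_ne_zero_iff _ _).1 c)
      sing := gm_sing.trans (h₄ _ (by omega))
      cut := fun u v hu hv => (gm_cut (by norm_num) h2 u v hu hv).trans (h₅ _ (by omega))
      deg := fun act => ?_ }⟩⟩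
  have key := h₁ (ZMod p) h2 (by omega) act
  have e : ∀ x y : SymM (2 * 5000) (ZMod p), gm x y = 0 ↔ cork x y ≠ 0 := fun x y => by
    rw [Ne, ← gm_ne_zero_iff, not_not]
  simp only [e]
  convert key

end Vale.Agent.P050
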