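import Vale.Agent.P050.Expose

namespace Vale.Agent.P050

open Finset Module
open scoped BigOperators

variable {A Fc Ed : Type} [LinearOrder A] [Fintype A] [Fintype Fc] [Fintype Ed]
  [DecidableEq Fc] [DecidableEq Ed] {T : Surf A Fc Ed} {X : Type} [Fintype X] [Nonempty X] {ε : ℝ}

/-- Vertex weights on types times two labelled points. -/
noncomputable def wt (w : Weights (A ⊕ Fc)) (X : Type) [Fintype X]
    (ω : (A ⊕ Fc) × (X × Bool) × (X × Bool)) : ℝ :=
  w.π ω.1 / (Fintype.card ((X × Bool) × (X × Bool)) : ℝ)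

/-- The final kernel. -/
noncomputable def Kern (M : Model T X ε) (w : Weights (A ⊕ Fc))
    (ω ω' : (A ⊕ Fc) × (X × Bool) × (X × Bool)) : ℝ :=
  ∑ τ : SignType × SignType, w.μ ω.1 ω'.1 τ * (M.k τ.1 ω.2.1 ω'.2.1 * M.k τ.2 ω.2.2 ω'.2.2)

omit [LinearOrder A] [DecidableEq Fc] [Nonempty X] in
theorem wt_nonneg (w : Weights (A ⊕ Fc)) (ω : (A ⊕ Fc) × (X × Bool) × (X × Bool)) :
    0 ≤ wt w X ω :=
  div_nonneg (w.π_nonneg _) (Nat.cast_nonneg _)

omit [LinearOrder A] [DecidableEq Fc] [Nonempty X] in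
theorem sum_wt_mul (w : Weights (A ⊕ Fc)) (G : (A ⊕ Fc) × (X × Bool) × (X × Bool) → ℝ) :
    ∑ ω, wt w X ω * G ω = ∑ t, w.π t * 𝔼 p : (X × Bool) × (X × Bool), G (t, p) := by
  rw [Fintype.sum_prod_type]
  refine sum_congr rfl fun t _ => ?_
  rw [Fintype.expect_eq_sum_div_card, ← mul_div_assoc, mul_sum, sum_div]
  exact sum_congr rfl fun p _ => by simp only [wt]; ring

omit [LinearOrder A] [DecidableEq Fc] in
theorem wt_sum (w : Weights (A ⊕ Fc)) : ∑ ω, wt w X ω = 1 := by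
  have := sum_wt_mul (X := X) w fun _ => 1
  simpa only [mul_one, Fintype.expect_const, w.π_sum] using this

omit [DecidableEq Fc] [DecidableEq Ed] [Nonempty X] in
theorem Model.k_symm (M : Model T X ε) (τ : SignType) (z z' : X × Bool) :
    M.k τ z z' = M.k τ z' z := by
  simp only [Model.k]
  rw [M.W_symm z.1, M.σ_symm z.1]
  ring

omit [DecidableEq Fc] [DecidableEq Ed] [Nonempty X] in
theorem Model.k_nonneg (M : Model T X ε) (τ : SignType) (z z' : X × Bool) : 0 ≤ M.k τ z z' := by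
  have h1 := abs_le.1 (M.σ_abs z.1 z'.1)
  have h2 := M.W_nonneg z.1 z'.1
  have h3 := mul_nonneg h2 (show 0 ≤ 1 + M.σ z.1 z'.1 by linarith)
  have h4 := mul_nonneg h2 (show 0 ≤ 1 - M.σ z.1 z'.1 by linarith)
  simp only [Model.k, sgn]
  rcases τ with _ | _ | _ <;> cases z.2 <;> cases z'.2 <;> simp <;> linarith

omit [DecidableEq Fc] [DecidableEq Ed] in
theorem Model.k_mean (M : Model T X ε) (τ : SignType) (z : X × Bool) :
    𝔼 z' : X × Bool, M.k τ z z' = 1 := by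
  rw [expect_prod_type]
  have h : ∀ y : X, 𝔼 b : Bool, M.k τ z (y, b) = 1 - (τ : ℝ) ^ 2 + (τ : ℝ) ^ 2 * M.W z.1 y := by
    intro y
    rw [Fintype.expect_eq_sum_div_card]
    simp only [Model.k, Fintype.sum_bool, Fintype.card_bool]
    have h1 : sgn true = 1 := rfl
    have h2 : sgn false = -1 := rfl
    rw [h1, h2]
    push_cast
    ring
  simp only [h]
  rw [expect_add_distrib, ← mul_expect, M.W_mean, Fintype.expect_const]
  ring

omit [DecidableEq Fc] [DecidableEq Ed] [Nonempty X] in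
theorem Kern_symm (M : Model T X ε) (w : Weights (A ⊕ Fc)) (ω ω') :
    Kern M w ω ω' = Kern M w ω' ω := by
  refine sum_congr rfl fun τ _ => ?_
  rw [w.μ_symm, M.k_symm τ.1, M.k_symm τ.2]

omit [DecidableEq Fc] [DecidableEq Ed] [Nonempty X] in
theorem Kern_nonneg (M : Model T X ε) (w : Weights (A ⊕ Fc)) (ω ω') : 0 ≤ Kern M w ω ω' :=
  sum_nonneg fun _ _ => mul_nonneg (w.μ_nonneg _ _ _)
    (mul_nonneg (M.k_nonneg _ _ _) (M.k_nonneg _ _ _))

omit [DecidableEq Fc] [DecidableEq Ed] in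
theorem Kern_mean (M : Model T X ε) (w : Weights (A ⊕ Fc)) :
    ∑ ω, ∑ ω', wt w X ω * wt w X ω' * Kern M w ω ω' = 1 := by
  have h : ∀ ω, ∑ ω', wt w X ω' * Kern M w ω ω' = 1 := by
    intro ω
    rw [sum_wt_mul, ← w.π_sum]
    refine sum_congr rfl fun t _ => ?_
    simp only [Kern]
    rw [expect_sum_comm]
    have h1 : ∀ τ : SignType × SignType, 𝔼 p : (X × Bool) × (X × Bool),
        w.μ ω.1 t τ * (M.k τ.1 ω.2.1 p.1 * M.k τ.2 ω.2.2 p.2) = w.μ ω.1 t τ := by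
      intro τ
      rw [← mul_expect, expect_prod_type]
      simp only [← mul_expect, M.k_mean, mul_one]
    simp only [h1, w.μ_sum, mul_one]
  simp only [mul_assoc, ← mul_sum, h, mul_one, wt_sum]

omit [DecidableEq Ed] [Nonempty X] in
theorem tFace_eq (M : Model T X ε) (τ : Fc × Fin 3 → SignType) :
    𝔼 p : A ⊕ Fc → X × Bool, ∏ c, M.k (τ c) (p (T.lft c)) (p (T.rgt c)) = M.tFace τ := by
  rw [Fintype.expect_equiv (Equiv.sumArrowEquivProdArrow A Fc (X × Bool))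
    (fun p => ∏ c, M.k (τ c) (p (T.lft c)) (p (T.rgt c)))
    (fun p => ∏ c, M.k (τ c) (p.1 (T.vtx c.1 c.2)) (p.2 c.1)) fun _ => rfl, expect_prod_type]
  refine expect_congr rfl fun z _ => ?_
  simp only [Fintype.prod_prod_type]
  exact expect_pi_prod fun f y => ∏ i, M.k (τ (f, i)) (z (T.vtx f i)) y

omit [DecidableEq Ed] [Nonempty X] in
theorem expand [DecidableEq X] (M : Model T X ε) (w : Weights (A ⊕ Fc)) :
    ∑ ψ : A ⊕ Fc → (A ⊕ Fc) × (X × Bool) × (X × Bool), (∏ v, wt w X (ψ v)) *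
        ∏ c, Kern M w (ψ (T.lft c)) (ψ (T.rgt c)) =
      ∑ φ : A ⊕ Fc → A ⊕ Fc, (∏ v, w.π (φ v)) *
        ∑ τ : Fc × Fin 3 → SignType × SignType,
          (∏ c, w.μ (φ (T.lft c)) (φ (T.rgt c)) (τ c)) *
            (M.tFace (fun c => (τ c).1) * M.tFace (fun c => (τ c).2)) := by
  rw [Fintype.sum_equiv (Equiv.arrowProdEquivProdArrow (A ⊕ Fc) (fun _ => A ⊕ Fc)
      fun _ => (X × Bool) × (X × Bool))
    (fun ψ => (∏ v, wt w X (ψ v)) * ∏ c, Kern M w (ψ (T.lft c)) (ψ (T.rgt c)))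
    (fun q => (∏ v, wt w X (q.1 v, q.2 v)) *
      ∏ c, Kern M w (q.1 (T.lft c), q.2 (T.lft c)) (q.1 (T.rgt c), q.2 (T.rgt c))) fun _ => rfl,
    Fintype.sum_prod_type]
  refine sum_congr rfl fun φ _ => ?_
  have h1 : ∑ p : A ⊕ Fc → (X × Bool) × (X × Bool), (∏ v, wt w X (φ v, p v)) *
      ∏ c, Kern M w (φ (T.lft c), p (T.lft c)) (φ (T.rgt c), p (T.rgt c))
      = (∏ v, w.π (φ v)) * 𝔼 p : A ⊕ Fc → (X × Bool) × (X × Bool),
        ∏ c, Kern M w (φ (T.lft c), p (T.lft c)) (φ (T.rgt c), p (T.rgt c)) := by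
    rw [Fintype.expect_eq_sum_div_card, ← mul_div_assoc, mul_sum, sum_div]
    refine sum_congr rfl fun p _ => ?_
    simp only [wt]
    rw [prod_div_distrib, prod_const, card_univ, Fintype.card_fun, Nat.cast_pow]
    ring
  refine h1.trans ?_
  congr 1
  simp only [Kern]
  simp only [prod_univ_sum, Fintype.piFinset_univ, prod_mul_distrib]
  rw [expect_sum_comm]
  refine sum_congr rfl fun τ _ => ?_
  rw [← mul_expect, ← tFace_eq, ← tFace_eq,
    Fintype.expect_equiv (Equiv.arrowProdEquivProdArrow (A ⊕ Fc) (fun _ => X × Bool)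
      fun _ => X × Bool)
    (fun p => (∏ c, M.k (τ c).1 (p (T.lft c)).1 (p (T.rgt c)).1) *
      ∏ c, M.k (τ c).2 (p (T.lft c)).2 (p (T.rgt c)).2)
    (fun q => (∏ c, M.k (τ c).1 (q.1 (T.lft c)) (q.1 (T.rgt c))) *
      ∏ c, M.k (τ c).2 (q.2 (T.lft c)) (q.2 (T.rgt c))) fun _ => rfl, expect_prod_type,
    expect_mul_expect]

end Vale.Agent.P050
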