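import Vale.Agent.P050.Defs

namespace Vale.Agent.P050

open Finset Module
open scoped BigOperators

theorem expect_prod_type {α β : Type} [Fintype α] [Fintype β] (f : α × β → ℝ) :
    𝔼 p : α × β, f p = 𝔼 a : α, 𝔼 b : β, f (a, b) := by
  rw [← Finset.expect_product, Finset.univ_product_univ]

section General

variable {ι X : Type} [Fintype ι] [DecidableEq ι] [Fintype X] [Nonempty X]

theorem expect_update (h : (ι → X) → ℝ) (a : ι) :
    𝔼 z : ι → X, h z = 𝔼 z : ι → X, 𝔼 s : X, h (Function.update z a s) := by
  have hinv : Function.Involutive fun p : (ι → X) × X => (Function.update p.1 a p.2, p.1 a) := by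
    intro p
    simp
  rw [← expect_prod_type fun p : (ι → X) × X => h (Function.update p.1 a p.2),
    Fintype.expect_bijective _ hinv.bijective (fun p : (ι → X) × X => h (Function.update p.1 a p.2))
      (fun p => h p.1) fun _ => rfl, expect_prod_type]
  simp only [Fintype.expect_const]

theorem expect_comp_inj {κ : Type} [Fintype κ] [DecidableEq κ] (v : κ → ι)
    (hv : Function.Injective v) (h : (κ → X) → ℝ) :
    𝔼 z : ι → X, h (fun k => z (v k)) = 𝔼 w : κ → X, h w := by
  classical
  let e : κ ⊕ {i // i ∉ Set.range v} ≃ ι :=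
    (Equiv.sumCongr (Equiv.ofInjective v hv) (Equiv.refl _)).trans (Equiv.sumCompl _)
  rw [Fintype.expect_equiv ((Equiv.arrowCongr e.symm (Equiv.refl X)).trans
    (Equiv.sumArrowEquivProdArrow _ _ _)) (fun z => h fun k => z (v k)) (fun p => h p.1)
    fun _ => rfl, expect_prod_type]
  simp only [Fintype.expect_const]

omit [Nonempty X] in
theorem expect_pi_prod (h : ι → X → ℝ) :
    𝔼 z : ι → X, ∏ i, h i (z i) = ∏ i, 𝔼 s : X, h i s := by
  simp only [Fintype.expect_eq_sum_div_card]
  rw [prod_div_distrib, prod_univ_sum, Fintype.piFinset_univ, prod_const, card_univ,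
    Fintype.card_fun, Nat.cast_pow]

open Classical in
/-- Sequential exposure: the steps are listed latest first. -/
theorem expose {σ : Type} (L : List σ) (a : σ → ι) (supp : σ → Finset ι)
    (P : σ → (ι → X) → Prop) (b : σ → ℝ) (hb : ∀ s ∈ L, 0 ≤ b s)
    (hsupp : ∀ s ∈ L, ∀ z z' : ι → X, (∀ j ∈ supp s, z j = z' j) → (P s z ↔ P s z'))
    (hL : L.Pairwise (fun s s' => a s ∉ supp s'))
    (hP : ∀ s ∈ L, ∀ z : ι → X,
      𝔼 t : X, (if P s (Function.update z (a s) t) then (1 : ℝ) else 0) ≤ b s) :
    𝔼 z : ι → X, (if ∀ s ∈ L, P s z then (1 : ℝ) else 0) ≤ (L.map b).prod := by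
  induction L with
  | nil => simp
  | cons s L ih =>
    rw [List.pairwise_cons] at hL
    have ih' := ih (fun s hs => hb s (List.mem_cons_of_mem _ hs))
      (fun s hs => hsupp s (List.mem_cons_of_mem _ hs)) hL.2
      (fun s hs => hP s (List.mem_cons_of_mem _ hs))
    have hb0 := hb s List.mem_cons_self
    rw [List.map_cons, List.prod_cons, expect_update _ (a s)]
    refine le_trans ?_ (mul_le_mul_of_nonneg_left ih' hb0)
    rw [mul_expect]
    refine expect_le_expect fun z _ => ?_
    have h1 : ∀ t, ∀ s' ∈ L, (P s' (Function.update z (a s) t) ↔ P s' z) := fun t s' hs' =>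
      hsupp s' (List.mem_cons_of_mem _ hs') _ _ fun j hj =>
        Function.update_of_ne (ne_of_mem_of_not_mem hj (hL.1 s' hs')) _ _
    by_cases h2 : ∀ s' ∈ L, P s' z
    · rw [if_pos h2, mul_one]
      refine le_trans (expect_le_expect fun t _ => ?_) (hP s List.mem_cons_self z)
      split_ifs with h3 h4
      · exact le_rfl
      · exact absurd (h3 s List.mem_cons_self) h4
      · exact zero_le_one
      · exact le_rfl
    · rw [if_neg h2, mul_zero]
      refine le_of_eq (expect_eq_zero fun t _ => if_neg fun h3 => h2 fun s' hs' => ?_)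
      exact (h1 t s' hs').1 (h3 s' (List.mem_cons_of_mem _ hs'))

end General

end Vale.Agent.P050
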