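import Vale.Agent.P050.Grass

namespace Vale.Agent.P050

open Finset Module
open scoped BigOperators

variable {F : Type} [Field F] [Fintype F] {V : Type} [AddCommGroup V] [Module F V] [Finite V]

theorem finrank_inf_orth (B : LinearMap.BilinForm F V) (K : Submodule F V)
    (hs : ∀ u ∈ K, ∀ v ∈ K, B u v = B v u) {W : Submodule F V} (hWK : W ≤ K) :
    finrank F W + finrank F ↥(K ⊓ B.orthogonal W) =
      finrank F K + finrank F ↥(W ⊓ (K ⊓ B.orthogonal K)) := by
  have hr : (B.restrict K).IsRefl := fun u v h => (hs v v.2 u u.2).trans h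
  have h := LinearMap.BilinForm.finrank_add_finrank_orthogonal hr (W.comap K.subtype)
  have e1 : (W.comap K.subtype).map K.subtype = W := by
    rw [Submodule.map_comap_subtype, inf_eq_right.2 hWK]
  have e2 : ((B.restrict K).orthogonal (W.comap K.subtype)).map K.subtype =
      K ⊓ B.orthogonal W := by
    ext v
    constructor
    · rintro ⟨u, hu, rfl⟩
      exact ⟨u.2, fun w hw => hu ⟨w, hWK hw⟩ hw⟩
    · rintro ⟨h1, h2⟩
      exact ⟨⟨v, h1⟩, fun w hw => h2 w.1 hw, rfl⟩
  have e3 : (W.comap K.subtype ⊓ (B.restrict K).orthogonal ⊤).map K.subtype =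
      W ⊓ (K ⊓ B.orthogonal K) := by
    ext v
    constructor
    · rintro ⟨u, ⟨h1, h2⟩, rfl⟩
      exact ⟨h1, u.2, fun w hw => h2 ⟨w, hw⟩ trivial⟩
    · rintro ⟨h0, h1, h2⟩
      exact ⟨⟨v, h1⟩, ⟨h0, fun w _ => h2 w.1 w.2⟩, rfl⟩
  have a1 := Submodule.finrank_map_subtype_eq K (W.comap K.subtype)
  have a2 := Submodule.finrank_map_subtype_eq K ((B.restrict K).orthogonal (W.comap K.subtype))
  have a3 := Submodule.finrank_map_subtype_eq K
    (W.comap K.subtype ⊓ (B.restrict K).orthogonal ⊤)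
  rw [e1] at a1
  rw [e2] at a2
  rw [e3] at a3
  omega

/-- Dimension bound for isotropic subspaces of a form that is symmetric on `K`. -/
theorem iso_dim (B : LinearMap.BilinForm F V) (K : Submodule F V)
    (hs : ∀ u ∈ K, ∀ v ∈ K, B u v = B v u) {W : Submodule F V} (hWK : W ≤ K) (hW : Isot B W) :
    2 * finrank F W + finrank F ↥(K ⊓ B.orthogonal K) ≤
      finrank F K + 2 * finrank F ↥(W ⊓ (K ⊓ B.orthogonal K)) := by
  have h1 := finrank_inf_orth B K hs hWK
  have h2 := Submodule.finrank_sup_add_finrank_inf_eq W (K ⊓ B.orthogonal K)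
  have h3 : finrank F ↥(W ⊔ (K ⊓ B.orthogonal K)) ≤ finrank F ↥(K ⊓ B.orthogonal W) :=
    Submodule.finrank_mono (sup_le (le_inf hWK fun v hv u hu => hW u hu v hv)
      (inf_le_inf_left K (LinearMap.BilinForm.orthogonal_le hWK)))
  omega

/-- The isotropic vectors of a subspace. -/
def zeros (B : LinearMap.BilinForm F V) (Z : Submodule F V) : Set V := {v | v ∈ Z ∧ B v v = 0}

theorem line_count (B : LinearMap.BilinForm F V) (Z : Submodule F V) {w : V} (hw : w ∈ Z)
    (T : Set V) (a b : ℕ) (ha : ∀ u ∈ Z, u ∉ T → {s : F | B (u + s • w) (u + s • w) = 0}.ncard ≤ a)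
    (hb : T.ncard ≤ b) : Fintype.card F * (zeros B Z).ncard ≤
      a * Fintype.card F ^ finrank F Z + Fintype.card F * b := by
  classical
  have := Fintype.ofFinite V
  have h1 : ∑ u ∈ Finset.univ.filter (fun u : V => u ∈ Z),
      (Finset.univ.filter fun s : F => B (u + s • w) (u + s • w) = 0).card =
      Fintype.card F * (zeros B Z).ncard := by
    simp only [Finset.card_filter]
    rw [Finset.sum_comm, ← Finset.card_univ, ← smul_eq_mul, ← Finset.sum_const]
    refine Finset.sum_congr rfl fun s _ => ?_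
    rw [← Finset.card_filter, Finset.filter_filter, Set.ncard_eq_toFinset_card']
    refine Finset.card_equiv (Equiv.addRight (s • w)) fun u => ?_
    rw [Finset.mem_filter, Set.mem_toFinset, Equiv.coe_addRight]
    exact ⟨fun h => ⟨Z.add_mem h.2.1 (Z.smul_mem s hw), h.2.2⟩, fun h => ⟨Finset.mem_univ _,
      (Z.add_mem_iff_left (Z.smul_mem s hw)).1 h.1, h.2⟩⟩
  have h2 : (Finset.univ.filter (fun u : V => u ∈ Z)).card = Fintype.card F ^ finrank F Z := by
    rw [← Fintype.card_subtype, Module.card_eq_pow_finrank (K := F)]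
  rw [← h1, ← h2]
  calc _ ≤ ∑ u ∈ Finset.univ.filter (fun u : V => u ∈ Z),
        (a + if u ∈ T then Fintype.card F else 0) := by
        refine Finset.sum_le_sum fun u hu => ?_
        split_ifs with hT
        · exact (Finset.card_le_univ _).trans (Nat.le_add_left _ _)
        · have := ha u (Finset.mem_filter.1 hu).2 hT
          rwa [Set.ncard_eq_toFinset_card', Set.toFinset_setOf] at this
    _ ≤ _ := by
        rw [Finset.sum_add_distrib, Finset.sum_const, smul_eq_mul, mul_comm, ← Finset.sum_filter,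
          Finset.sum_const, smul_eq_mul, mul_comm _ (Fintype.card F)]
        refine Nat.add_le_add_left (Nat.mul_le_mul_left _ (le_trans ?_ hb)) _
        rw [Set.ncard_eq_toFinset_card']
        exact Finset.card_le_card fun u hu => by simpa using (Finset.mem_filter.1 hu).2

theorem zeros_crude (B : LinearMap.BilinForm F V) (Z : Submodule F V) {w : V} (hw : w ∈ Z)
    (h0 : B w w ≠ 0) : Fintype.card F * (zeros B Z).ncard ≤ 2 * Fintype.card F ^ finrank F Z := by
  classical
  refine line_count B Z hw ∅ 2 0 (fun u _ _ => ?_) (by simp)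
  let p : Polynomial F := Polynomial.C (B w w) * Polynomial.X ^ 2 +
    Polynomial.C (B u w + B w u) * Polynomial.X + Polynomial.C (B u u)
  have hd : p.natDegree = 2 := Polynomial.natDegree_quadratic h0
  have hp : p ≠ 0 := fun h => by simp [h] at hd
  have : {s : F | B (u + s • w) (u + s • w) = 0} ⊆ (p.roots.toFinset : Set F) := by
    intro s hs
    simp only [Set.mem_setOf_eq, map_add, map_smul, LinearMap.add_apply, LinearMap.smul_apply,
      smul_eq_mul] at hs
    simp only [Finset.mem_coe, Multiset.mem_toFinset, Polynomial.mem_roots hp, Polynomial.IsRoot]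
    simp only [p, Polynomial.eval_add, Polynomial.eval_mul, Polynomial.eval_C, Polynomial.eval_X,
      Polynomial.eval_pow]
    linear_combination hs
  refine (Set.ncard_le_ncard this (Finset.finite_toSet _)).trans ?_
  rw [Set.ncard_coe_finset]
  exact (Multiset.toFinset_card_le _).trans ((Polynomial.card_roots' p).trans hd.le)

theorem isot_of_zero (h2 : (2 : F) ≠ 0) (B : LinearMap.BilinForm F V) (K : Submodule F V)
    (hs : ∀ u ∈ K, ∀ v ∈ K, B u v = B v u) {Z : Submodule F V} (hZ : Z ≤ K)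
    (h : ∀ w ∈ Z, B w w = 0) : Isot B Z := by
  intro u hu v hv
  have h1 := h (u + v) (Z.add_mem hu hv)
  simp only [map_add, LinearMap.add_apply, h u hu, h v hv, hs v (hZ hv) u (hZ hu)] at h1
  exact (mul_eq_zero.1 (show 2 * B u v = 0 by linear_combination h1)).resolve_left h2

theorem adm_subset (B : LinearMap.BilinForm F V) {K W : Submodule F V} {v : V}
    (h1 : W ⊔ Submodule.span F {v} ≤ K) (h2 : Isot B (W ⊔ Submodule.span F {v})) :
    v ∈ zeros B (K ⊓ B.orthogonal W) := by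
  have hv : v ∈ W ⊔ Submodule.span F {v} :=
    Submodule.mem_sup_right (Submodule.mem_span_singleton_self v)
  exact ⟨⟨h1 hv, fun w hw => h2 w (Submodule.mem_sup_left hw) v hv⟩, h2 v hv v hv⟩

theorem adm_crude (h2 : (2 : F) ≠ 0) (B : LinearMap.BilinForm F V) (K : Submodule F V)
    (hs : ∀ u ∈ K, ∀ v ∈ K, B u v = B v u) (R W : Submodule F V) (i : ℕ) (hWK : W ≤ K)
    (hR : W ⊓ (K ⊓ B.orthogonal K) = R) (hi : finrank F W = finrank F R + i) :
    (({v : V | v ∉ W ∧ (W ⊔ Submodule.span F {v} ≤ K ∧ Isot B (W ⊔ Submodule.span F {v}) ∧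
      (W ⊔ Submodule.span F {v}) ⊓ (K ⊓ B.orthogonal K) = R)} : Set V).ncard : ℝ) ≤
      2 * (Fintype.card F : ℝ) ^ ((finrank F K : ℝ) - i - 1) := by
  have hq : (0 : ℝ) < Fintype.card F := by exact_mod_cast Fintype.card_pos
  rcases Set.eq_empty_or_nonempty {v : V | v ∉ W ∧ (W ⊔ Submodule.span F {v} ≤ K ∧
    Isot B (W ⊔ Submodule.span F {v}) ∧
      (W ⊔ Submodule.span F {v}) ⊓ (K ⊓ B.orthogonal K) = R)} with he | ⟨v, hv, a1, a2, a3⟩
  · rw [he, Set.ncard_empty, Nat.cast_zero]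
    positivity
  have d1 := finrank_inf_orth B K hs hWK
  rw [hR] at d1
  have hex : ∃ w ∈ K ⊓ B.orthogonal W, B w w ≠ 0 := by
    by_contra hc
    push Not at hc
    have hZ := isot_of_zero h2 B K hs inf_le_left hc
    have hRZ : K ⊓ B.orthogonal K ≤ K ⊓ B.orthogonal W :=
      inf_le_inf_left K (LinearMap.BilinForm.orthogonal_le hWK)
    have d2 := finrank_inf_orth B K hs (W := K ⊓ B.orthogonal W) inf_le_left
    rw [inf_eq_right.2 hRZ] at d2
    have d3 := Submodule.finrank_sup_add_finrank_inf_eq W (K ⊓ B.orthogonal K)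
    rw [hR] at d3
    have e : W ⊔ (K ⊓ B.orthogonal K) = K ⊓ B.orthogonal (K ⊓ B.orthogonal W) := by
      refine Submodule.eq_of_le_of_finrank_le (sup_le (le_inf hWK fun w hw z hz => ?_)
        (inf_le_inf_left K (LinearMap.BilinForm.orthogonal_le inf_le_left))) (by omega)
      exact (hs z hz.1 w (hWK hw)).trans (hz.2 w hw)
    have hvZ := (adm_subset B a1 a2).1
    have : v ∈ W ⊔ (K ⊓ B.orthogonal K) := e ▸ ⟨hvZ.1, fun z hz => hZ z hz v hvZ⟩
    obtain ⟨w, hw, r, hr, e'⟩ := Submodule.mem_sup.1 this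
    have hr' : r ∈ R := by
      rw [← a3]
      refine ⟨?_, hr⟩
      rw [show r = v - w by rw [← e', add_sub_cancel_left]]
      exact sub_mem (Submodule.mem_sup_right (Submodule.mem_span_singleton_self v))
        (Submodule.mem_sup_left hw)
    rw [← hR] at hr'
    exact hv (e' ▸ W.add_mem hw hr'.1)
  obtain ⟨w, hw, h0⟩ := hex
  have h3 := (Nat.cast_le (α := ℝ)).2 (zeros_crude B _ hw h0)
  refine le_trans (Nat.cast_le.2 (Set.ncard_le_ncard (fun v hv => adm_subset B hv.2.1 hv.2.2.1)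
    (Set.toFinite _))) ?_
  have e : (finrank F K : ℝ) - i = (finrank F ↥(K ⊓ B.orthogonal W) : ℕ) := by
    have : ((finrank F K : ℕ) : ℝ) = (finrank F ↥(K ⊓ B.orthogonal W) + i : ℕ) := by
      congr 1
      omega
    rw [this]
    push_cast
    ring
  rw [Real.rpow_sub_one hq.ne', e, Real.rpow_natCast, ← mul_div_assoc, le_div_iff₀' hq]
  exact_mod_cast h3

theorem step_real {x y c C k r : ℝ} {i : ℕ} {r' : ℕ} (hr : r = r') (hc : 0 ≤ c)
    (h : y * ((Fintype.card F : ℝ) ^ i * (Fintype.card F : ℝ) ^ (r' + i) *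
      ((Fintype.card F : ℝ) - 1)) ≤ x * (c * (Fintype.card F : ℝ) ^ (k - i - 1)))
    (hx : x ≤ C * (Fintype.card F : ℝ) ^ ((i : ℝ) * (k - r) - (3 * (i : ℝ) ^ 2 + i) / 2)) :
    y ≤ C * (c * lam (Fintype.card F)) * (Fintype.card F : ℝ) ^
      (((i + 1 : ℕ) : ℝ) * (k - r) - (3 * ((i + 1 : ℕ) : ℝ) ^ 2 + (i + 1 : ℕ)) / 2) := by
  have hq : (1 : ℝ) < Fintype.card F := by exact_mod_cast Fintype.one_lt_card
  generalize (Fintype.card F : ℝ) = q at *
  have hq0 : 0 < q := by linarith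
  have hq1 : 0 < q - 1 := by linarith
  refine le_of_mul_le_mul_right (h.trans ((mul_le_mul_of_nonneg_right hx (by positivity)).trans
    (le_of_eq ?_))) (by positivity)
  have e : q ^ ((i : ℝ) * (k - r) - (3 * (i : ℝ) ^ 2 + i) / 2) * q ^ (k - i - 1) =
      q ^ (((i + 1 : ℕ) : ℝ) * (k - r) - (3 * ((i + 1 : ℕ) : ℝ) ^ 2 + (i + 1 : ℕ)) / 2) *
        q ^ (i + (r' + i) + 1) := by
    rw [← Real.rpow_natCast q (i + (r' + i) + 1), ← Real.rpow_add hq0, ← Real.rpow_add hq0, hr]
    congr 1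
    push_cast
    ring
  rw [mul_mul_mul_comm, e, lam]
  field_simp
  ring

theorem ncard_base (P : Submodule F V → Prop) (R : Submodule F V) :
    (({W | P W ∧ R ≤ W ∧ finrank F W = finrank F R + 0} : Set (Submodule F V)).ncard : ℝ) ≤ 1 := by
  rw [Nat.cast_le_one]
  exact (Set.ncard_le_one (Set.toFinite _)).2 fun a ha b hb =>
    (Submodule.eq_of_le_of_finrank_eq ha.2.1 ha.2.2.symm).symm.trans
      (Submodule.eq_of_le_of_finrank_eq hb.2.1 hb.2.2.symm)

/-- Number of isotropic subspaces meeting the radical in a prescribed subspace `R`. -/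
theorem iso_count (h2 : (2 : F) ≠ 0) (B : LinearMap.BilinForm F V) (K : Submodule F V)
    (hs : ∀ u ∈ K, ∀ v ∈ K, B u v = B v u) (R : Submodule F V) (h : ℕ) :
    (({W | W ≤ K ∧ Isot B W ∧ W ⊓ (K ⊓ B.orthogonal K) = R ∧ finrank F W = finrank F R + h} :
        Set (Submodule F V)).ncard : ℝ) ≤
      (2 * lam (Fintype.card F)) ^ h * (Fintype.card F : ℝ) ^
        ((h : ℝ) * ((finrank F K : ℝ) - finrank F R) - (3 * (h : ℝ) ^ 2 + h) / 2) := by
  have key : ∀ h : ℕ, (({W | (W ≤ K ∧ Isot B W ∧ W ⊓ (K ⊓ B.orthogonal K) = R) ∧ R ≤ W ∧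
      finrank F W = finrank F R + h} : Set (Submodule F V)).ncard : ℝ) ≤
      (2 * lam (Fintype.card F)) ^ h * (Fintype.card F : ℝ) ^
        ((h : ℝ) * ((finrank F K : ℝ) - finrank F R) - (3 * (h : ℝ) ^ 2 + h) / 2) := by
    intro h
    induction h with
    | zero => exact (ncard_base _ R).trans (by simp)
    | succ i IH =>
      rw [pow_succ]
      refine step_real rfl zero_le_two (step_count _ R i _ (by positivity) ?_ ?_) IH
      · rintro U W ⟨a1, a2, a3⟩ b1 b2
        refine ⟨b2.trans a1, fun u hu v hv => a2 u (b2 hu) v (b2 hv), le_antisymm ?_ ?_⟩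
        · exact a3 ▸ inf_le_inf_right _ b2
        · exact le_inf b1 (a3 ▸ inf_le_right)
      · rintro W ⟨a1, -, a3⟩ - b
        exact adm_crude h2 B K hs R W i a1 a3 b
  refine le_trans (Nat.cast_le.2 (Set.ncard_le_ncard ?_ (Set.toFinite _))) (key h)
  rintro W ⟨a1, a2, a3, a4⟩
  exact ⟨⟨a1, a2, a3⟩, a3 ▸ inf_le_left, a4⟩

theorem adm_sharp (h2 : (2 : F) ≠ 0) (B : LinearMap.BilinForm F V) (K : Submodule F V)
    (hs : ∀ u ∈ K, ∀ v ∈ K, B u v = B v u) (hrad : K ⊓ B.orthogonal K = ⊥) (m : ℕ)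
    (hK : finrank F K = 2 * m) (W : Submodule F V) (i : ℕ) (him : i + 2 ≤ m) (hWK : W ≤ K)
    (hi : finrank F W = i) :
    (({v : V | v ∉ W ∧ (W ⊔ Submodule.span F {v} ≤ K ∧ Isot B (W ⊔ Submodule.span F {v}))} :
      Set V).ncard : ℝ) ≤
      (1 + 2 / (Fintype.card F : ℝ)) * (Fintype.card F : ℝ) ^ ((finrank F K : ℝ) - i - 1) := by
  have hq : (0 : ℝ) < Fintype.card F := by exact_mod_cast Fintype.card_pos
  rcases Set.eq_empty_or_nonempty {v : V | v ∉ W ∧ (W ⊔ Submodule.span F {v} ≤ K ∧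
    Isot B (W ⊔ Submodule.span F {v}))} with he | ⟨v, hv, a1, a2⟩
  · rw [he, Set.ncard_empty, Nat.cast_zero]
    positivity
  have d1 := finrank_inf_orth B K hs hWK
  have d2 := finrank_inf_orth B K hs a1
  have d3 : finrank F ↥(W ⊔ Submodule.span F {v}) = finrank F W + 1 :=
    Submodule.finrank_sup_span_singleton hv
  have d4 := fun hH => iso_dim B K hs
    (W := K ⊓ B.orthogonal (W ⊔ Submodule.span F {v})) inf_le_left hH
  rw [hrad, inf_bot_eq, finrank_bot] at d1 d2 d4
  obtain ⟨w, hw, h0⟩ : ∃ w ∈ K ⊓ B.orthogonal (W ⊔ Submodule.span F {v}), B w w ≠ 0 := by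
    by_contra hc
    push Not at hc
    have := d4 (isot_of_zero h2 B K hs inf_le_left hc)
    omega
  have h3 := zeros_crude B _ hw h0
  obtain ⟨hvZ, hvv⟩ := adm_subset B a1 a2
  have h4 := line_count B _ hvZ (zeros B (K ⊓ B.orthogonal (W ⊔ Submodule.span F {v}))) 1 _
    (fun u hu hT => by
      refine (Set.ncard_le_one (Set.toFinite _)).2 fun s hs1 t ht => ?_
      simp only [Set.mem_setOf_eq, map_add, map_smul, LinearMap.add_apply, LinearMap.smul_apply,
        smul_eq_mul, hvv, hs u hu.1 v hvZ.1] at hs1 ht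
      by_cases hb : B v u = 0
      · refine (hT ⟨⟨hu.1, fun z hz => ?_⟩, by simpa [hb] using ht⟩).elim
        obtain ⟨a, ha, b, hb', rfl⟩ := Submodule.mem_sup.1 hz
        obtain ⟨c, rfl⟩ := Submodule.mem_span_singleton.1 hb'
        have : B a u = 0 := hu.2 a ha
        simp [this, hb]
      · exact mul_left_cancel₀ (mul_ne_zero h2 hb) (by linear_combination hs1 - ht)) le_rfl
  have h5 := (Nat.cast_le (α := ℝ)).2 (h4.trans (Nat.add_le_add_left h3 _))
  refine le_trans (Nat.cast_le.2 (Set.ncard_le_ncard (fun v hv => adm_subset B hv.2.1 hv.2.2)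
    (Set.toFinite _))) ?_
  generalize finrank F ↥(K ⊓ B.orthogonal (W ⊔ Submodule.span F {v})) = D at *
  have e1 : finrank F ↥(K ⊓ B.orthogonal W) = D + 1 := by omega
  have e : (finrank F K : ℝ) - i - 1 = (D : ℕ) := by
    have : ((finrank F K : ℕ) : ℝ) = (D + i + 1 : ℕ) := by
      congr 1
      omega
    rw [this]
    push_cast
    ring
  rw [e1] at h5
  rw [e, Real.rpow_natCast]
  refine le_of_mul_le_mul_left (le_trans (by exact_mod_cast le_rfl) (h5.trans (le_of_eq ?_))) hq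
  push_cast
  field_simp
  ring

/-- Sharp bound for the number of maximal isotropic subspaces of a nondegenerate form. -/
theorem iso_count_sharp (h2 : (2 : F) ≠ 0) (B : LinearMap.BilinForm F V) (K : Submodule F V)
    (hs : ∀ u ∈ K, ∀ v ∈ K, B u v = B v u) (hrad : K ⊓ B.orthogonal K = ⊥) (m : ℕ)
    (hK : finrank F K = 2 * m) :
    (({W | W ≤ K ∧ Isot B W ∧ finrank F W = m} : Set (Submodule F V)).ncard : ℝ) ≤
      2 * (lam (Fintype.card F) * (1 + 2 / (Fintype.card F : ℝ))) ^ m *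
        (Fintype.card F : ℝ) ^ ((m : ℝ) * (m - 1) / 2) := by
  have hq : (0 : ℝ) < Fintype.card F := by exact_mod_cast Fintype.card_pos
  have hl : 0 ≤ lam (Fintype.card F) := zero_le_one.trans one_lt_lam.le
  have hher : ∀ U W : Submodule F V, (U ≤ K ∧ Isot B U) → ⊥ ≤ W → W ≤ U → W ≤ K ∧ Isot B W :=
    fun U W a _ b2 => ⟨b2.trans a.1, fun u hu v hv => a.2 u (b2 hu) v (b2 hv)⟩
  have key : ∀ h : ℕ, h + 1 ≤ m → (({W | (W ≤ K ∧ Isot B W) ∧ ⊥ ≤ W ∧
      finrank F W = finrank F (⊥ : Submodule F V) + h} : Set (Submodule F V)).ncard : ℝ) ≤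
      ((1 + 2 / (Fintype.card F : ℝ)) * lam (Fintype.card F)) ^ h * (Fintype.card F : ℝ) ^
        ((h : ℝ) * ((finrank F K : ℝ) - finrank F (⊥ : Submodule F V)) -
          (3 * (h : ℝ) ^ 2 + h) / 2) := by
    intro h
    induction h with
    | zero => exact fun _ => (ncard_base _ _).trans (by simp)
    | succ i IH =>
      intro hi
      rw [pow_succ]
      refine step_real rfl (by positivity) (step_count _ ⊥ i _ (by positivity) hher ?_)
        (IH (by omega))
      rintro W ⟨a1, -⟩ - b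
      exact adm_sharp h2 B K hs hrad m hK W i hi a1 (by simpa using b)
  have hsub : ({W | W ≤ K ∧ Isot B W ∧ finrank F W = m} : Set (Submodule F V)) ⊆
      {W | (W ≤ K ∧ Isot B W) ∧ ⊥ ≤ W ∧ finrank F W = finrank F (⊥ : Submodule F V) + m} :=
    fun W hW => ⟨⟨hW.1, hW.2.1⟩, bot_le, by simpa using hW.2.2⟩
  refine le_trans (Nat.cast_le.2 (Set.ncard_le_ncard hsub (Set.toFinite _))) ?_
  rcases m with _ | m
  · refine (ncard_base _ _).trans ?_
    simp
  refine (step_real rfl zero_le_two (step_count _ ⊥ m _ (by positivity) hher ?_)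
    (key m le_rfl)).trans ?_
  · rintro W ⟨a1, -⟩ - b
    refine le_trans (Nat.cast_le.2 (Set.ncard_le_ncard ?_ (Set.toFinite _)))
      (adm_crude h2 B K hs ⊥ W m a1 (by rw [hrad, inf_bot_eq]) b)
    rintro v ⟨b1, b2, b3⟩
    exact ⟨b1, b2, b3, by rw [hrad, inf_bot_eq]⟩
  · have e : ((m + 1 : ℕ) : ℝ) * ((finrank F K : ℝ) - finrank F (⊥ : Submodule F V)) -
        (3 * ((m + 1 : ℕ) : ℝ) ^ 2 + (m + 1 : ℕ)) / 2 =
        ((m + 1 : ℕ) : ℝ) * (((m + 1 : ℕ) : ℝ) - 1) / 2 := by
      rw [hK, finrank_bot]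
      push_cast
      ring
    rw [e]
    refine mul_le_mul_of_nonneg_right ?_ (by positivity)
    rw [pow_succ, mul_comm (lam _), mul_left_comm]
    have : 0 ≤ 2 / (Fintype.card F : ℝ) := by positivity
    gcongr
    nlinarith

end Vale.Agent.P050
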