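import Vale.Agent.P050.Ksp
import Vale.Agent.P050.Iso

namespace Vale.Agent.P050

open Finset Module
open scoped BigOperators

variable {F : Type} [Field F] [Fintype F] {V : Type} [AddCommGroup V] [Module F V] [Finite V]
  {ω : LinearMap.BilinForm F V} {m : ℕ}

omit [Fintype F] in
theorem GenericAux.sup_eq {M y z : Submodule F V} (hM : finrank F M = 2 * m) (hyz : y ⊓ z = ⊥)
    (h1 : finrank F ↥(M ⊓ y) = m) (h2 : finrank F ↥(M ⊓ z) = m) : M ⊓ y ⊔ M ⊓ z = M := by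
  have e : M ⊓ y ⊓ (M ⊓ z) = ⊥ :=
    le_bot_iff.1 (hyz ▸ inf_le_inf inf_le_right inf_le_right)
  have h3 := Submodule.finrank_sup_add_finrank_inf_eq (M ⊓ y) (M ⊓ z)
  rw [e, finrank_bot, h1, h2] at h3
  exact Submodule.eq_of_le_of_finrank_le (sup_le inf_le_left inf_le_left) (by omega)

theorem two_generic (h : Symp ω (2 * m)) {y z : Submodule F V} (hy : IsLag ω (2 * m) y)
    (hz : IsLag ω (2 * m) z) (hyz : y ⊓ z = ⊥) :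
    (({M | IsLag ω (2 * m) M ∧ finrank F ↥(M ⊓ y) = m ∧ finrank F ↥(M ⊓ z) = m} :
        Set (Submodule F V)).ncard : ℝ) ≤
      lam (Fintype.card F) ^ m * (Fintype.card F : ℝ) ^ ((m : ℝ) ^ 2) := by
  have key : ∀ M, IsLag ω (2 * m) M → finrank F ↥(M ⊓ y) = m → finrank F ↥(M ⊓ z) = m →
      M = M ⊓ y ⊔ z ⊓ ω.orthogonal (M ⊓ y) := by
    intro M hM h1 h2
    have e : M ⊓ y ⊓ z = ⊥ := le_bot_iff.1 (hyz ▸ inf_le_inf inf_le_right le_rfl)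
    have h3 := perp_dim h hz (M ⊓ y)
    rw [e, finrank_bot, h1] at h3
    have hle : M ⊓ z ≤ z ⊓ ω.orthogonal (M ⊓ y) :=
      fun v hv => ⟨hv.2, fun u hu => hM.1 u hu.1 v hv.1⟩
    rw [← Submodule.eq_of_le_of_finrank_le hle (by omega), GenericAux.sup_eq hM.2 hyz h1 h2]
  have hb := grass_bound (⊥ : Submodule F V) y m
  rw [finrank_bot, hy.2, Nat.sub_zero] at hb
  have e : ((m : ℝ) - (0 : ℕ)) * (((2 * m : ℕ) : ℝ) - m) = (m : ℝ) ^ 2 := by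
    push_cast; ring
  rw [e] at hb
  refine le_trans ?_ hb
  haveI : Finite (Submodule F V) := Finite.of_injective _ SetLike.coe_injective
  refine Nat.cast_le.2 ?_
  exact Set.ncard_le_ncard_of_injOn (fun M => M ⊓ y)
    (fun M hM => ⟨bot_le, inf_le_right, hM.2.1⟩)
    (fun M hM M' hM' e => by
      have e' : M ⊓ y = M' ⊓ y := e
      exact (key M hM.1 hM.2.1 hM.2.2).trans (e' ▸ (key M' hM'.1 hM'.2.1 hM'.2.2).symm)) (Set.toFinite _)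

theorem three_generic (h2 : (2 : F) ≠ 0) (h : Symp ω (2 * m)) {x₁ x₂ x₃ : Submodule F V}
    (h₁ : IsLag ω (2 * m) x₁) (h₂ : IsLag ω (2 * m) x₂) (h₃ : IsLag ω (2 * m) x₃)
    (h₁₂ : x₁ ⊓ x₂ = ⊥) (h₁₃ : x₁ ⊓ x₃ = ⊥) (h₂₃ : x₂ ⊓ x₃ = ⊥) :
    (({M | IsLag ω (2 * m) M ∧ finrank F ↥(M ⊓ x₁) = m ∧ finrank F ↥(M ⊓ x₂) = m ∧
        finrank F ↥(M ⊓ x₃) = m} : Set (Submodule F V)).ncard : ℝ) ≤
      2 * (lam (Fintype.card F) * (1 + 2 / (Fintype.card F : ℝ))) ^ m *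
        (Fintype.card F : ℝ) ^ ((m : ℝ) * (m - 1) / 2) := by
  have hrad : Ksp x₁ x₂ x₃ ⊓ (mas ω).orthogonal (Ksp x₁ x₂ x₃) = ⊥ := by
    rw [rad_Ksp h h₁ h₂ h₃, h₁₂, h₁₃, h₂₃]
    simp [Triv]
  have hK : finrank F (Ksp x₁ x₂ x₃) = 2 * m := by
    rw [finrank_Ksp_lag h h₁ h₂ h₃, h₁₂, bot_inf_eq, finrank_bot, add_zero]
  refine le_trans ?_ (iso_count_sharp h2 (mas ω) _ (mas_symm h h₁.1 h₂.1 h₃.1) hrad m hK)
  haveI : Finite (Submodule F (V × V)) := Finite.of_injective _ SetLike.coe_injective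
  have key : ∀ M, IsLag ω (2 * m) M → finrank F ↥(M ⊓ x₁) = m → finrank F ↥(M ⊓ x₂) = m →
      finrank F ↥(M ⊓ x₃) = m →
      M = (Ksp (M ⊓ x₁) (M ⊓ x₂) (M ⊓ x₃)).map (LinearMap.fst F V V) ⊔
        (Ksp (M ⊓ x₁) (M ⊓ x₂) (M ⊓ x₃)).map (LinearMap.snd F V V) := by
    intro M hM a1 a2 a3
    rw [map_fst_Ksp, map_snd_Ksp, GenericAux.sup_eq hM.2 h₂₃ a2 a3,
      GenericAux.sup_eq hM.2 h₁₃ a1 a3, inf_eq_left.2 inf_le_left, inf_eq_left.2 inf_le_left,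
      GenericAux.sup_eq hM.2 h₁₂ a1 a2]
  refine Nat.cast_le.2 ?_
  exact Set.ncard_le_ncard_of_injOn (fun M => Ksp (M ⊓ x₁) (M ⊓ x₂) (M ⊓ x₃))
    (fun M hM => ⟨Ksp_mono inf_le_right inf_le_right inf_le_right,
      isot_Ksp hM.1.1 inf_le_left inf_le_left, by
        have e := finrank_Ksp (M ⊓ x₁) (M ⊓ x₂) (M ⊓ x₃)
        rw [GenericAux.sup_eq hM.1.2 h₁₂ hM.2.1 hM.2.2.1, sup_eq_left.2 inf_le_left, hM.1.2,
          hM.2.1, hM.2.2.1, hM.2.2.2] at e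
        change finrank F (Ksp (M ⊓ x₁) (M ⊓ x₂) (M ⊓ x₃)) = m
        omega⟩)
    (fun M hM M' hM' e => by
      have e' : Ksp (M ⊓ x₁) (M ⊓ x₂) (M ⊓ x₃) = Ksp (M' ⊓ x₁) (M' ⊓ x₂) (M' ⊓ x₃) := e
      exact (key M hM.1 hM.2.1 hM.2.2.1 hM.2.2.2).trans
        (e' ▸ (key M' hM'.1 hM'.2.1 hM'.2.2.1 hM'.2.2.2).symm)) (Set.toFinite _)

end Vale.Agent.P050
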