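import Vale.Agent.P050.ThreeNbr
import Vale.Agent.P050.Generic
import Vale.Agent.P050.Mat

namespace Vale.Agent.P050

open Finset Module
open scoped BigOperators

namespace FaceAux

theorem three_le_card {F : Type} [Field F] [Fintype F] (h2 : (2 : F) ≠ 0) :
    3 ≤ Fintype.card F := by
  have h1 : 1 < Fintype.card F := Fintype.one_lt_card
  by_contra h
  have e : Fintype.card F = 2 := by omega
  have := FiniteField.cast_card_eq_zero F
  rw [e] at this
  exact h2 (by exact_mod_cast this)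

/-- The correction factor of the normalising constant. -/
noncomputable def kap (q : ℝ) : ℝ := (1 - 1 / (q - 1))⁻¹

theorem kap_pos {q : ℝ} (hq : 3 ≤ q) : 0 < kap q := by
  have : 1 / (q - 1) ≤ 1 / 2 := one_div_le_one_div_of_le (by norm_num) (by linarith)
  exact inv_pos.2 (by linarith)

theorem kap_le {q : ℝ} (hq : 3 ≤ q) : kap q ≤ 2 := by
  have : 1 / (q - 1) ≤ 1 / 2 := one_div_le_one_div_of_le (by norm_num) (by linarith)
  rw [kap, inv_le_comm₀ (by linarith) (by norm_num)]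
  linarith

variable {m : ℕ} {F : Type} [Field F] [Fintype F]

/-- The value of the kernel. -/
noncomputable def cW (m : ℕ) (F : Type) [Field F] [Fintype F] : ℝ :=
  (Fintype.card F : ℝ) ^ (m * (2 * m + 1)) / Rnum m F

theorem cW_nonneg : 0 ≤ cW m F := by unfold cW; positivity

theorem cW_le (hq : 3 ≤ Fintype.card F) :
    cW m F ≤ kap (Fintype.card F) * (Fintype.card F : ℝ) ^ nu m := by
  have hq' : (3 : ℝ) ≤ Fintype.card F := by exact_mod_cast hq
  have hq0 : (0 : ℝ) < Fintype.card F := by linarith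
  have h1 := Rnum_lower (F := F) m
  have hk := kap_pos hq'
  have hk' : 0 < 1 - 1 / ((Fintype.card F : ℝ) - 1) := inv_pos.1 hk
  have h2 : 0 < (Fintype.card F : ℝ) ^ ((m : ℝ) ^ 2 + nu m) *
      (1 - 1 / ((Fintype.card F : ℝ) - 1)) := by positivity
  have e : (Fintype.card F : ℝ) ^ (m * (2 * m + 1)) =
      (Fintype.card F : ℝ) ^ ((m : ℝ) ^ 2 + nu m) * (Fintype.card F : ℝ) ^ nu m := by
    rw [← Real.rpow_add hq0, ← Real.rpow_natCast]
    congr 1
    push_cast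
    unfold nu
    ring
  refine (div_le_div_of_nonneg_left (by positivity) h2 h1).trans (le_of_eq ?_)
  rw [e, kap]
  have : (Fintype.card F : ℝ) ^ ((m : ℝ) ^ 2 + nu m) ≠ 0 := by positivity
  field_simp

open Classical in
theorem expect_le (S : Set (Submodule F ((Fin (2 * m) → F) × (Fin (2 * m) → F)))) (t : ℝ)
    (ht : 0 ≤ t) (f : SymM (2 * m) F → ℝ) (hf : ∀ y, f y ≤ if lag y ∈ S then t else 0) :
    𝔼 y, f y ≤ t * S.ncard * (Fintype.card F : ℝ) ^ (-nu ((2 * m : ℕ) : ℝ)) := by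
  have hq0 : (0 : ℝ) < Fintype.card F := by exact_mod_cast Fintype.card_pos
  haveI : Finite (Submodule F ((Fin (2 * m) → F) × (Fin (2 * m) → F))) :=
    Finite.of_injective _ SetLike.coe_injective
  have h1 : (Finset.univ.filter fun y : SymM (2 * m) F => lag y ∈ S).card ≤ S.ncard := by
    rw [← Set.ncard_coe_finset]
    exact Set.ncard_le_ncard_of_injOn lag (fun y hy => by simpa using hy)
      lag_injective.injOn (Set.toFinite _)
  refine (Finset.expect_le_expect fun y _ => hf y).trans ?_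
  rw [Finset.expect_eq_sum_div_card, Finset.card_univ, card_SymM, ← Finset.sum_filter,
    Finset.sum_const, nsmul_eq_mul, Real.rpow_neg hq0.le, div_eq_mul_inv, mul_comm _ t]
  gcongr

theorem Wm_two (x x' y : SymM (2 * m) F) :
    open Classical in
    Wm m F x y * Wm m F x' y ≤ if lag y ∈ {M | IsLag (omega (2 * m) F) (2 * m) M ∧
      finrank F ↥(M ⊓ lag x) = m ∧ finrank F ↥(M ⊓ lag x') = m} then cW m F ^ 2 else 0 := by
  unfold Wm
  by_cases h1 : cork x y = m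
  · by_cases h2 : cork x' y = m
    · rw [if_pos h1, if_pos h2, if_pos ⟨isLag_lag y, (cork_comm y x).trans h1,
        (cork_comm y x').trans h2⟩, sq]
      exact le_rfl
    · rw [if_neg h2, mul_zero]
      split_ifs <;> positivity
  · rw [if_neg h1, zero_mul]
    split_ifs <;> positivity

theorem Wm_three (x₁ x₂ x₃ y : SymM (2 * m) F) :
    open Classical in
    Wm m F x₁ y * Wm m F x₂ y * Wm m F x₃ y ≤
      if lag y ∈ {M | IsLag (omega (2 * m) F) (2 * m) M ∧ finrank F ↥(M ⊓ lag x₁) = m ∧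
        finrank F ↥(M ⊓ lag x₂) = m ∧ finrank F ↥(M ⊓ lag x₃) = m} then cW m F ^ 3 else 0 := by
  have h0 := cW_nonneg (m := m) (F := F)
  unfold Wm
  by_cases h1 : cork x₁ y = m
  · by_cases h2 : cork x₂ y = m
    · by_cases h3 : cork x₃ y = m
      · rw [if_pos h1, if_pos h2, if_pos h3, if_pos ⟨isLag_lag y, (cork_comm y x₁).trans h1,
          (cork_comm y x₂).trans h2, (cork_comm y x₃).trans h3⟩, pow_succ, sq]
        exact le_rfl
      · rw [if_neg h3, mul_zero]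
        split_ifs <;> positivity
    · rw [if_neg h2, mul_zero, zero_mul]
      split_ifs <;> positivity
  · rw [if_neg h1, zero_mul, zero_mul]
    split_ifs <;> positivity

theorem two_le (hq : 3 ≤ Fintype.card F) (x x' : SymM (2 * m) F) {C Φ : ℝ} (hC : 0 ≤ C)
    (h : (({M | IsLag (omega (2 * m) F) (2 * m) M ∧ finrank F ↥(M ⊓ lag x) = m ∧
      finrank F ↥(M ⊓ lag x') = m} : Set (Submodule F _)).ncard : ℝ) ≤
      C * (Fintype.card F : ℝ) ^ ((m : ℝ) ^ 2 + Φ)) :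
    𝔼 y, Wm m F x y * Wm m F x' y ≤ kap (Fintype.card F) ^ 2 * C * (Fintype.card F : ℝ) ^ Φ := by
  have hq0 : (0 : ℝ) < Fintype.card F := by exact_mod_cast Fintype.card_pos
  have h0 := cW_nonneg (m := m) (F := F)
  have hk := kap_pos (q := Fintype.card F) (by exact_mod_cast hq)
  refine (expect_le {M | IsLag (omega (2 * m) F) (2 * m) M ∧ finrank F ↥(M ⊓ lag x) = m ∧
      finrank F ↥(M ⊓ lag x') = m} (cW m F ^ 2) (by positivity) _
      (fun y => by convert Wm_two x x' y)).trans ?_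
  calc _ ≤ (kap (Fintype.card F) * (Fintype.card F : ℝ) ^ nu m) ^ 2 *
        (C * (Fintype.card F : ℝ) ^ ((m : ℝ) ^ 2 + Φ)) *
          (Fintype.card F : ℝ) ^ (-nu ((2 * m : ℕ) : ℝ)) := by
        gcongr
        exact cW_le hq
    _ = kap (Fintype.card F) ^ 2 * C * ((Fintype.card F : ℝ) ^ nu m *
          (Fintype.card F : ℝ) ^ nu m * (Fintype.card F : ℝ) ^ ((m : ℝ) ^ 2 + Φ) *
          (Fintype.card F : ℝ) ^ (-nu ((2 * m : ℕ) : ℝ))) := by ring
    _ = _ := by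
        rw [← Real.rpow_add hq0, ← Real.rpow_add hq0, ← Real.rpow_add hq0]
        congr 2
        push_cast
        unfold nu
        ring

theorem three_le (hq : 3 ≤ Fintype.card F) (x₁ x₂ x₃ : SymM (2 * m) F) {C Φ : ℝ} (hC : 0 ≤ C)
    (h : (({M | IsLag (omega (2 * m) F) (2 * m) M ∧ finrank F ↥(M ⊓ lag x₁) = m ∧
      finrank F ↥(M ⊓ lag x₂) = m ∧ finrank F ↥(M ⊓ lag x₃) = m} :
        Set (Submodule F _)).ncard : ℝ) ≤
      C * (Fintype.card F : ℝ) ^ ((m : ℝ) * (m - 1) / 2 + Φ)) :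
    𝔼 y, Wm m F x₁ y * Wm m F x₂ y * Wm m F x₃ y ≤
      kap (Fintype.card F) ^ 3 * C * (Fintype.card F : ℝ) ^ Φ := by
  have hq0 : (0 : ℝ) < Fintype.card F := by exact_mod_cast Fintype.card_pos
  have h0 := cW_nonneg (m := m) (F := F)
  have hk := kap_pos (q := Fintype.card F) (by exact_mod_cast hq)
  refine (expect_le {M | IsLag (omega (2 * m) F) (2 * m) M ∧ finrank F ↥(M ⊓ lag x₁) = m ∧
      finrank F ↥(M ⊓ lag x₂) = m ∧ finrank F ↥(M ⊓ lag x₃) = m} (cW m F ^ 3) (by positivity) _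
      (fun y => by convert Wm_three x₁ x₂ x₃ y)).trans ?_
  calc _ ≤ (kap (Fintype.card F) * (Fintype.card F : ℝ) ^ nu m) ^ 3 *
        (C * (Fintype.card F : ℝ) ^ ((m : ℝ) * (m - 1) / 2 + Φ)) *
          (Fintype.card F : ℝ) ^ (-nu ((2 * m : ℕ) : ℝ)) := by
        gcongr
        exact cW_le hq
    _ = kap (Fintype.card F) ^ 3 * C * ((Fintype.card F : ℝ) ^ nu m *
          (Fintype.card F : ℝ) ^ nu m * (Fintype.card F : ℝ) ^ nu m *
          (Fintype.card F : ℝ) ^ ((m : ℝ) * (m - 1) / 2 + Φ) *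
          (Fintype.card F : ℝ) ^ (-nu ((2 * m : ℕ) : ℝ))) := by ring
    _ = _ := by
        rw [← Real.rpow_add hq0, ← Real.rpow_add hq0, ← Real.rpow_add hq0, ← Real.rpow_add hq0]
        congr 2
        push_cast
        unfold nu
        ring

theorem dims {n : ℕ} (x₀ x₁ x₂ : SymM n F) :
    finrank F ↥(lag x₀ ⊓ lag x₁ ⊓ lag x₂) ≤ cork x₁ x₂ ∧
    finrank F ↥(lag x₀ ⊓ lag x₁ ⊓ lag x₂) ≤ cork x₀ x₂ ∧
    finrank F ↥(lag x₀ ⊓ lag x₁ ⊓ lag x₂) ≤ cork x₀ x₁ ∧
    cork x₁ x₂ + cork x₀ x₂ + cork x₀ x₁ ≤ n + 2 * finrank F ↥(lag x₀ ⊓ lag x₁ ⊓ lag x₂) := by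
  refine ⟨Submodule.finrank_mono (inf_le_inf inf_le_right le_rfl),
    Submodule.finrank_mono (inf_le_inf inf_le_left le_rfl),
    Submodule.finrank_mono inf_le_left, ?_⟩
  have := maslov symp_omega (isLag_lag x₀) (isLag_lag x₁) (isLag_lag x₂)
  unfold cork
  omega

theorem tendsto_inv_sub : Filter.Tendsto (fun q : ℕ => 1 / ((q : ℝ) - 1)) Filter.atTop (nhds 0) :=
  tendsto_const_nhds.div_atTop
    (Filter.tendsto_atTop_add_const_right _ (-1) tendsto_natCast_atTop_atTop)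

theorem tendsto_kap : Filter.Tendsto (fun q : ℕ => kap q) Filter.atTop (nhds 1) := by
  have := (tendsto_inv_sub.const_sub 1).inv₀ (by norm_num)
  simpa [kap] using this

theorem tendsto_lam : Filter.Tendsto (fun q : ℕ => lam q) Filter.atTop (nhds 1) := by
  have := tendsto_inv_sub.const_add 1
  rw [add_zero] at this
  refine this.congr' ?_
  filter_upwards [Filter.eventually_ge_atTop 2] with q hq
  have : (2 : ℝ) ≤ q := by exact_mod_cast hq
  have h1 : (q : ℝ) - 1 ≠ 0 := by linarith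
  unfold lam
  field_simp
  ring

end FaceAux

open FaceAux

/-- Boost of one face, for any activity pattern. -/
theorem face_bound (m : ℕ) (hm : 500 ≤ m) : ∃ C : ℝ, 0 < C ∧ ∀ (F : Type) [Field F] [Fintype F],
    (2 : F) ≠ 0 → ∀ (x : Fin 3 → SymM (2 * m) F) (act : Fin 3 → Bool),
    ∃ Φ : ℝ, Good (2 * m) (finrank F ↥(lag (x 0) ⊓ lag (x 1) ⊓ lag (x 2))) (cork (x 1) (x 2))
        (cork (x 0) (x 2)) (cork (x 0) (x 1)) Φ ∧
      𝔼 y, ∏ i, (if act i then Wm m F (x i) y else 1) ≤ C * (Fintype.card F : ℝ) ^ Φ := by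
  obtain ⟨C₃, hC₃, h₃⟩ := three_nbr m hm
  obtain ⟨C₂, hC₂, h₂⟩ := two_nbr_boost m
  refine ⟨1 + 4 * C₂ + 8 * C₃, by positivity, fun F _ _ h2 x act => ?_⟩
  have hq := three_le_card h2
  have hq' : (3 : ℝ) ≤ Fintype.card F := by exact_mod_cast hq
  have hq0 : (0 : ℝ) < Fintype.card F := by linarith
  have hk := kap_pos hq'
  have hk2 := kap_le hq'
  obtain ⟨d1, d2, d3, d4⟩ := dims (x 0) (x 1) (x 2)
  have one : (1 : ℝ) ≤ (1 + 4 * C₂ + 8 * C₃) * (Fintype.card F : ℝ) ^ (0 : ℝ) := by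
    rw [Real.rpow_zero, mul_one]; linarith
  have two : ∀ y z : SymM (2 * m) F, ∃ i : ℕ, cork y z ≤ 2 * i ∧
      𝔼 w, Wm m F y w * Wm m F z w ≤
        (1 + 4 * C₂ + 8 * C₃) * (Fintype.card F : ℝ) ^ Bq i (cork y z) := fun y z => by
    obtain ⟨i, hi, hb⟩ := h₂ F _ _ symp_omega _ _ (isLag_lag y) (isLag_lag z)
    refine ⟨i, hi, (two_le hq y z hC₂.le hb).trans ?_⟩
    have : kap (Fintype.card F) ^ 2 ≤ 2 ^ 2 := by gcongr
    refine mul_le_mul_of_nonneg_right ?_ (by positivity)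
    nlinarith
  simp only [Fin.prod_univ_three]
  cases h0 : act 0 <;> cases h1 : act 1 <;> cases h2' : act 2 <;>
    simp only [Bool.false_eq_true, if_false, if_true, mul_one, one_mul]
  · exact ⟨0, good_zero d1 d2 d3 d4, by rw [Fintype.expect_const]; exact one⟩
  · exact ⟨0, good_zero d1 d2 d3 d4, by rw [Wm_mean m hq]; exact one⟩
  · exact ⟨0, good_zero d1 d2 d3 d4, by rw [Wm_mean m hq]; exact one⟩
  · obtain ⟨i, hi, hb⟩ := two (x 1) (x 2)
    exact ⟨_, good_two d1 d2 d3 d4 hi, hb⟩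
  · exact ⟨0, good_zero d1 d2 d3 d4, by rw [Wm_mean m hq]; exact one⟩
  · obtain ⟨i, hi, hb⟩ := two (x 0) (x 2)
    exact ⟨_, (good_two d2 d1 d3 (by omega) hi).swap12, hb⟩
  · obtain ⟨i, hi, hb⟩ := two (x 0) (x 1)
    exact ⟨_, (good_two d3 d1 d2 (by omega) hi).swap12.swap23, hb⟩
  · obtain ⟨Φ, hΦ, hb⟩ := h₃ F _ _ symp_omega h2 _ _ _ (isLag_lag (x 0)) (isLag_lag (x 1))
      (isLag_lag (x 2))
    refine ⟨Φ, hΦ, (three_le hq _ _ _ hC₃.le hb).trans ?_⟩
    have : kap (Fintype.card F) ^ 3 ≤ 2 ^ 3 := by gcongr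
    refine mul_le_mul_of_nonneg_right ?_ (by positivity)
    nlinarith

theorem two_sharp (m : ℕ) (ε : ℝ) (hε : 0 < ε) : ∃ q₀ : ℕ, ∀ (F : Type) [Field F] [Fintype F],
    q₀ ≤ Fintype.card F → ∀ x x' : SymM (2 * m) F, cork x x' = 0 →
      𝔼 y, Wm m F x y * Wm m F x' y ≤ 1 + ε := by
  have ht := (tendsto_kap.pow 2).mul (tendsto_lam.pow m)
  simp only [one_pow, mul_one] at ht
  obtain ⟨q₀, hq₀⟩ := Filter.eventually_atTop.1
    (ht.eventually (eventually_le_nhds (show (1 : ℝ) < 1 + ε by linarith)))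
  refine ⟨max q₀ 3, fun F _ _ hq x x' hx => ?_⟩
  have hb := two_generic symp_omega (isLag_lag x) (isLag_lag x') (Submodule.finrank_eq_zero.1 hx)
  rw [← add_zero ((m : ℝ) ^ 2)] at hb
  have := two_le (le_of_max_le_right hq) x x'
    (pow_nonneg (zero_le_one.trans one_lt_lam.le) m) hb
  rw [Real.rpow_zero, mul_one] at this
  exact this.trans (hq₀ _ (le_of_max_le_left hq))

theorem three_sharp (m : ℕ) (ε : ℝ) (hε : 0 < ε) : ∃ q₀ : ℕ, ∀ (F : Type) [Field F] [Fintype F],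
    (2 : F) ≠ 0 → q₀ ≤ Fintype.card F → ∀ x₁ x₂ x₃ : SymM (2 * m) F, cork x₁ x₂ = 0 →
      cork x₁ x₃ = 0 → cork x₂ x₃ = 0 →
      𝔼 y, Wm m F x₁ y * Wm m F x₂ y * Wm m F x₃ y ≤ 2 + ε := by
  have h0 : Filter.Tendsto (fun q : ℕ => 1 + 2 / (q : ℝ)) Filter.atTop (nhds 1) := by
    simpa using (tendsto_const_div_atTop_nhds_zero_nat (2 : ℝ)).const_add 1
  have ht := (tendsto_kap.pow 3).mul (((tendsto_lam.mul h0).pow m).const_mul 2)
  simp only [one_pow, mul_one, one_mul] at ht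
  obtain ⟨q₀, hq₀⟩ := Filter.eventually_atTop.1
    (ht.eventually (eventually_le_nhds (show (2 : ℝ) < 2 + ε by linarith)))
  refine ⟨q₀, fun F _ _ h2 hq x₁ x₂ x₃ h₁₂ h₁₃ h₂₃ => ?_⟩
  have hb := three_generic h2 symp_omega (isLag_lag x₁) (isLag_lag x₂) (isLag_lag x₃)
    (Submodule.finrank_eq_zero.1 h₁₂) (Submodule.finrank_eq_zero.1 h₁₃)
    (Submodule.finrank_eq_zero.1 h₂₃)
  rw [← add_zero ((m : ℝ) * (m - 1) / 2)] at hb
  have hl : 0 ≤ lam (Fintype.card F) := zero_le_one.trans one_lt_lam.le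
  have := three_le (three_le_card h2) x₁ x₂ x₃ (by positivity) hb
  rw [Real.rpow_zero, mul_one] at this
  exact this.trans (hq₀ _ hq)

end Vale.Agent.P050
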