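import Vale.Agent.P050.Main

namespace Vale.Agent.P050

/-- Homomorphisms out of isomorphic graphs correspond. -/
def homEquiv {V W X : Type} {H : SimpleGraph V} {H' : SimpleGraph W} (e : H ≃g H')
    (G : SimpleGraph X) : (H' →g G) ≃ (H →g G) where
  toFun f := f.comp e.toHom
  invFun f := f.comp e.symm.toHom
  left_inv f := by ext v; simp
  right_inv f := by ext v; simp

theorem not_sidorenko_fin : ∃ (k : ℕ) (H : SimpleGraph (Fin k)), H.IsBipartite ∧
    H.edgeSet.Nonempty ∧ ∃ (N : ℕ) (G : SimpleGraph (Fin N)), 0 < N ∧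
      (Nat.card (H →g G) : ℝ) / (N : ℝ) ^ k <
        (2 * (Nat.card G.edgeSet : ℝ) / (N : ℝ) ^ 2) ^ Nat.card H.edgeSet := by
  obtain ⟨N, hN, G, hG⟩ := not_sidorenko
  have e := H0.overFinIso (n := Fintype.card (Fin 11 ⊕ Fin 18)) rfl
  refine ⟨_, H0.overFin rfl, H0_bipartite.of_hom e.symm.toHom, ?_, N, G, hN, ?_⟩
  · have h : H0.Adj (T0.lft (0, 0)) (T0.rgt (0, 0)) := ⟨(0, 0), rfl⟩
    exact ⟨s(e (T0.lft (0, 0)), e (T0.rgt (0, 0))), e.map_adj_iff.2 h⟩
  · rw [Nat.card_congr (homEquiv e G), ← Nat.card_congr e.mapEdgeSet]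
    exact hG

end Vale.Agent.P050
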