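import Vale.Agent.P050.Force

namespace Vale.Agent.P050

open Finset Module
open scoped BigOperators

namespace FiniteAux

/-- optional integer factor -/
def pw (b : Bool) (x : SignType) : ℤ := if b then (x : ℤ) else 1

/-- the monomial attached to two states -/
def mono (a b : Bool × Bool) (t : SignType × SignType) : ℤ :=
  pw a.1 t.1 * pw b.1 t.1 * (pw a.2 t.2 * pw b.2 t.2)

/-- twice the signed perturbation of the point mass -/
def nu2 (j : Fin 5) (t : SignType × SignType) : ℤ :=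
  if j = 0 then (if t = (0, 0) then -2 else if t.2 = 0 then 1 else 0)
  else if j = 1 then (if t = (0, 0) then -2 else if t.1 = 0 then 1 else 0)
  else if j = 2 then (if t = (0, 0) then -4 else if t = (0, -1) then 2
    else if t.2 = 1 ∧ t.1 ≠ 0 then 1 else 0)
  else if j = 3 then (if t = (0, 0) then -4 else if t = (-1, 0) then 2
    else if t.1 = 1 ∧ t.2 ≠ 0 then 1 else 0)
  else (if t = (0, 0) then -4 else if t = (1, 0) then 2
    else if t.1 = -1 ∧ t.2 ≠ 0 then 1 else 0)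

/-- twice the moments of the perturbation -/
def kk (j : Fin 5) (a b : Bool × Bool) : ℤ := ∑ t, nu2 j t * mono a b t

/-- the sign law -/
noncomputable def law (j : Fin 5) (k : ℝ) (t : SignType × SignType) : ℝ :=
  (if t = (0, 0) then 1 else 0) + k * ((nu2 j t : ℝ) / 2)

theorem nu2_ge : ∀ j t, -4 ≤ nu2 j t ∧ (t ≠ (0, 0) → 0 ≤ nu2 j t) := by decide +kernel
theorem nu2_sum : ∀ j, ∑ t, nu2 j t = 0 := by decide +kernel
theorem kk_zero : ∀ j a, kk j (false, false) a = 0 ∧ kk j a (false, false) = 0 := by decide +kernel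
theorem kk_abs : ∀ j a b, |kk j a b| ≤ 4 := by decide +kernel
theorem kk_comm : ∀ j a b, kk j a b = kk j b a := by decide +kernel
theorem mono_zero : ∀ a b, mono a b (0, 0) =
    if a = (false, false) ∧ b = (false, false) then 1 else 0 := by decide +kernel

theorem law_nonneg (j : Fin 5) {k : ℝ} (h0 : 0 ≤ k) (h1 : k ≤ 1 / 2) (t : SignType × SignType) :
    0 ≤ law j k t := by
  unfold law
  split_ifs with h
  · have : (-4 : ℝ) ≤ nu2 j t := by exact_mod_cast (nu2_ge j t).1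
    nlinarith
  · have : (0 : ℝ) ≤ nu2 j t := by exact_mod_cast (nu2_ge j t).2 h
    positivity

theorem law_sum (j : Fin 5) (k : ℝ) : ∑ t, law j k t = 1 := by
  simp only [law, sum_add_distrib, ← mul_sum, ← sum_div, ← Int.cast_sum, nu2_sum]
  simp

theorem law_mono (j : Fin 5) (k : ℝ) (a b : Bool × Bool) :
    ∑ t, law j k t * (mono a b t : ℝ) =
      (if a = (false, false) ∧ b = (false, false) then 1 else 0) + k * ((kk j a b : ℝ) / 2) := by
  simp only [law, add_mul, sum_add_distrib, kk, Int.cast_sum, Int.cast_mul, sum_div, mul_sum]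
  congr 1
  · rw [sum_eq_single (0, 0) (fun t _ ht => by simp [ht]) (by simp), mono_zero]
    simp
  · exact sum_congr rfl fun t _ => by ring

section general

variable {A Fc Ed : Type} [LinearOrder A] [Fintype Fc] [Fintype Ed]
  [DecidableEq Fc] [DecidableEq Ed] (T : Surf A Fc Ed)

omit [DecidableEq Fc] in
theorem lam_eq (τ : Fc × Fin 3 → SignType) : T.Lam τ = ∑ s : Ed → Bool, ∏ c : Fc × Fin 3,
    ((pw (s (T.edg c.1 (lo c.2))) (τ c) * pw (s (T.edg c.1 (hi c.2))) (τ c) : ℤ) : ℝ) := by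
  have h1 : ∀ x : ℝ, 1 + x = ∑ b : Bool, if b then x else 1 := fun x => by simp [add_comm]
  simp only [Surf.Lam, h1]
  rw [Fintype.prod_sum]
  refine sum_congr rfl fun s _ => ?_
  have h2 : ∏ e, (if s e then cc τ (T.slot (e, false)) * cc τ (T.slot (e, true)) else 1) =
      ∏ p : Ed × Bool, (if s p.1 then cc τ (T.slot p) else 1) := by
    rw [Fintype.prod_prod_type]
    refine prod_congr rfl fun e _ => ?_
    cases h : s e <;> simp [h, mul_comm]
  rw [h2, ← T.slot.symm.prod_comp, Fintype.prod_prod_type, Fintype.prod_prod_type]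
  refine prod_congr rfl fun f _ => ?_
  simp only [Equiv.apply_symm_apply, Fin.prod_univ_three, cc, Surf.edg, pw]
  have l0 : lo 0 = 1 := rfl
  have l1 : lo 1 = 0 := rfl
  have l2 : lo 2 = 0 := rfl
  have h0 : hi 0 = 2 := rfl
  have h1 : hi 1 = 2 := rfl
  have h2 : hi 2 = 1 := rfl
  simp only [l0, l1, l2, h0, h1, h2]
  cases s (T.slot.symm (f, 0)).1 <;> cases s (T.slot.symm (f, 1)).1 <;>
    cases s (T.slot.symm (f, 2)).1 <;> simp <;> ring

theorem inner_eq (μ : Fc × Fin 3 → SignType × SignType → ℝ) :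
    ∑ τ : Fc × Fin 3 → SignType × SignType, (∏ c, μ c (τ c)) *
      (T.Lam (fun c => (τ c).1) * T.Lam (fun c => (τ c).2)) =
    ∑ s : Ed → Bool × Bool, ∏ c : Fc × Fin 3,
      ∑ t, μ c t * (mono (s (T.edg c.1 (lo c.2))) (s (T.edg c.1 (hi c.2))) t : ℝ) := by
  simp only [Fintype.prod_sum, lam_eq]
  rw [sum_comm]
  refine sum_congr rfl fun τ _ => ?_
  rw [sum_mul_sum, ← Fintype.sum_prod_type', mul_sum,
    ← (Equiv.arrowProdEquivProdArrow Ed (fun _ => Bool) (fun _ => Bool)).sum_comp]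
  refine sum_congr rfl fun s _ => ?_
  rw [← prod_mul_distrib, ← prod_mul_distrib]
  refine prod_congr rfl fun c _ => ?_
  simp [mono]

end general

theorem state_sum {C Ed : Type} [Fintype C] [Fintype Ed] [DecidableEq Ed] [Nonempty C]
    (e1 e2 : C → Ed)
    (hconn : ∀ p : Ed → Prop, (∀ c, p (e1 c) ↔ p (e2 c)) → ∀ e e', p e → p e')
    (j : C → Fin 5) (k : C → ℝ) :
    ∑ s : Ed → Bool × Bool, ∏ c, ((if s (e1 c) = (false, false) ∧ s (e2 c) = (false, false)
      then 1 else 0) + k c * ((kk (j c) (s (e1 c)) (s (e2 c)) : ℝ) / 2)) =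
    1 + (∏ c, k c) * ∑ s : Ed → Bool × Bool, ∏ c, ((kk (j c) (s (e1 c)) (s (e2 c)) : ℝ) / 2) := by
  have h1 : (1 : ℝ) = ∑ s : Ed → Bool × Bool, if s = fun _ => (false, false) then 1 else 0 := by
    simp
  rw [mul_sum, h1, ← sum_add_distrib, ← h1]
  refine sum_congr rfl fun s _ => ?_
  by_cases hs : s = fun _ => (false, false)
  · subst hs
    simp [(kk_zero _ _).1]
  rw [if_neg hs, zero_add, ← prod_mul_distrib]
  by_cases h2 : ∃ c, s (e1 c) = (false, false) ∧ s (e2 c) = (false, false)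
  · obtain ⟨c0, h3, h4⟩ := h2
    have h5 : ¬ ∀ c, (s (e1 c) = (false, false) ↔ s (e2 c) = (false, false)) :=
      fun h => hs (funext fun e => hconn (fun e => s e = (false, false)) h _ e h3)
    obtain ⟨c1, h6⟩ := not_forall.1 h5
    refine (prod_eq_zero (mem_univ c1) ?_).trans
      (prod_eq_zero (mem_univ c0) (by rw [h3, (kk_zero _ _).1]; simp)).symm
    rw [if_neg fun h => h6 (iff_of_true h.1 h.2)]
    by_cases h7 : s (e1 c1) = (false, false)
    · rw [h7, (kk_zero _ _).1]; simp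
    · have h8 : s (e2 c1) = (false, false) := by
        by_contra h8
        exact h6 (iff_of_false h7 h8)
      rw [h8, (kk_zero _ _).2]; simp
  · exact prod_congr rfl fun c _ => by rw [if_neg fun h => h2 ⟨c, h⟩, zero_add]

theorem state_abs {C Ed : Type} [Fintype C] [Fintype Ed] [DecidableEq Ed]
    (e1 e2 : C → Ed) : ∃ B : ℝ, 0 < B ∧ ∀ j : C → Fin 5,
    ∑ s : Ed → Bool × Bool, ∏ c, ((kk (j c) (s (e1 c)) (s (e2 c)) : ℝ) / 2) ≤ B := by
  refine ⟨∑ _s : Ed → Bool × Bool, ∏ _c : C, 2, sum_pos (fun _ _ => by positivity) univ_nonempty,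
    fun j => sum_le_sum fun s _ => (le_abs_self _).trans ?_⟩
  rw [abs_prod]
  refine prod_le_prod (fun _ _ => abs_nonneg _) fun c _ => ?_
  have : |(kk (j c) (s (e1 c)) (s (e2 c)) : ℝ)| ≤ 4 := by exact_mod_cast kk_abs _ _ _
  rw [abs_div, abs_two]
  linarith

theorem final {Φ : Type} [Fintype Φ] [DecidableEq Φ] (P W z : Φ → ℝ) (i : Φ) {B : ℝ} (hB : 0 < B)
    (hP : ∑ φ, P φ = 1) (h0 : ∀ φ, 0 ≤ P φ * W φ) (hz : ∀ φ, z φ ≤ B) (hi : z i = -1)
    (hpos : 0 < P i * W i) (hs : ∑ φ ∈ univ.erase i, P φ * W φ ≤ 1 / (2 * B) * (P i * W i)) :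
    ∑ φ, P φ * (1 + W φ * z φ) < 1 := by
  simp only [mul_add, mul_one, sum_add_distrib, hP, ← mul_assoc]
  rw [← add_sum_erase _ _ (mem_univ i), hi]
  have h1 : ∑ φ ∈ univ.erase i, P φ * W φ * z φ ≤ (∑ φ ∈ univ.erase i, P φ * W φ) * B := by
    rw [sum_mul]
    exact sum_le_sum fun φ _ => mul_le_mul_of_nonneg_left (hz φ) (h0 φ)
  have h2 := mul_le_mul_of_nonneg_right hs hB.le
  have h3 : 1 / (2 * B) * (P i * W i) * B = P i * W i / 2 := by field_simp
  linarith

/-- first side at a corner -/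
def e1 (c : Fin 18 × Fin 3) : Fin 27 := T0.edg c.1 (lo c.2)
/-- second side at a corner -/
def e2 (c : Fin 18 × Fin 3) : Fin 27 := T0.edg c.1 (hi c.2)
/-- class of an edge -/
def ec (e : Fin 27) : Fin 3 := if e < 4 then 1 else if e = 4 ∨ e = 5 ∨ e = 7 ∨ e = 10 then 2 else 0
/-- class of a corner -/
def cl (c : Fin 18 × Fin 3) : Fin 5 :=
  if c = (0, 1) then 4 else if ec (e1 c) = 0 ∧ ec (e2 c) = 0 then 0
  else if ec (e1 c) = 1 ∧ ec (e2 c) = 1 then 1 else if ec (e1 c) = 0 ∨ ec (e2 c) = 0 then 2 else 3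
/-- class of a vertex-face pair -/
def cl' (a : Fin 11) (f : Fin 18) : Fin 5 :=
  if vtx0 f 0 = a then cl (f, 0) else if vtx0 f 1 = a then cl (f, 1) else cl (f, 2)
/-- class of a pair of types -/
def cls : Fin 11 ⊕ Fin 18 → Fin 11 ⊕ Fin 18 → Fin 5
  | .inl a, .inr f => cl' a f
  | .inr f, .inl a => cl' a f
  | _, _ => 0
/-- the forced state -/
def st (e : Fin 27) : Bool × Bool :=
  if ec e = 0 then (true, false) else if ec e = 1 then (false, true) else (true, true)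

theorem cls_symm (s t : Fin 11 ⊕ Fin 18) : cls s t = cls t s := by
  cases s <;> cases t <;> rfl

theorem cls_id : ∀ c, cls (T0.lft c) (T0.rgt c) = cl c := by decide +kernel

theorem conn0 : ∀ e : Fin 27, e = 0 ∨ ∃ c, (e1 c = e ∧ e2 c < e) ∨ (e2 c = e ∧ e1 c < e) := by
  decide +kernel

theorem conn (p : Fin 27 → Prop) (h : ∀ c, p (e1 c) ↔ p (e2 c)) (e e' : Fin 27) (he : p e) :
    p e' := by
  have key : ∀ e : Fin 27, p e ↔ p 0 := by
    intro e
    induction e using WellFoundedLT.induction with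
    | ind e ih =>
      rcases conn0 e with rfl | ⟨c, ⟨rfl, h1⟩ | ⟨rfl, h1⟩⟩
      · rfl
      · exact (h c).trans (ih _ h1)
      · exact (h c).symm.trans (ih _ h1)
  exact (key e').2 ((key e).1 he)

theorem prod_st : ∏ c, kk (cl c) (st (e1 c)) (st (e2 c)) = -2 ^ 54 := by decide +kernel

theorem stageA : ∀ e, ec e = 2 ∨ ∃ c, (e1 c = e ∨ e2 c = e) ∧
    ∀ a b, kk (cl c) a b = 0 ∨ (a = st (e1 c) ∧ b = st (e2 c)) := by decide +kernel

theorem stageB1 : ∀ e, ec e ≠ 2 ∨ ∃ c,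
    (e1 c = e ∧ ec (e2 c) ≠ 2 ∧ ∀ a, kk (cl c) a (st (e2 c)) = 0 ∨ a.1 = (st e).1) ∨
    (e2 c = e ∧ ec (e1 c) ≠ 2 ∧ ∀ a, kk (cl c) (st (e1 c)) a = 0 ∨ a.1 = (st e).1) := by
  decide +kernel

theorem stageB2 : ∀ e, ec e ≠ 2 ∨ ∃ c,
    (e1 c = e ∧ ec (e2 c) ≠ 2 ∧ ∀ a, kk (cl c) a (st (e2 c)) = 0 ∨ a.2 = (st e).2) ∨
    (e2 c = e ∧ ec (e1 c) ≠ 2 ∧ ∀ a, kk (cl c) (st (e1 c)) a = 0 ∨ a.2 = (st e).2) := by
  decide +kernel

theorem forced (s : Fin 27 → Bool × Bool) (h : ∀ c, kk (cl c) (s (e1 c)) (s (e2 c)) ≠ 0) :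
    s = st := by
  have hA : ∀ e, ec e ≠ 2 → s e = st e := by
    intro e he
    obtain ⟨c, h1, h2⟩ := (stageA e).resolve_left he
    have h3 := (h2 _ _).resolve_left (h c)
    rcases h1 with rfl | rfl
    · exact h3.1
    · exact h3.2
  funext e
  by_cases he : ec e = 2
  · refine Prod.ext ?_ ?_
    · obtain ⟨c, ⟨rfl, h1, h2⟩ | ⟨rfl, h1, h2⟩⟩ := (stageB1 e).resolve_left (not_not.2 he)
      · exact (h2 _).resolve_left (hA _ h1 ▸ h c)
      · exact (h2 _).resolve_left (hA _ h1 ▸ h c)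
    · obtain ⟨c, ⟨rfl, h1, h2⟩ | ⟨rfl, h1, h2⟩⟩ := (stageB2 e).resolve_left (not_not.2 he)
      · exact (h2 _).resolve_left (hA _ h1 ▸ h c)
      · exact (h2 _).resolve_left (hA _ h1 ▸ h c)
  · exact hA e he

theorem z_id : ∑ s : Fin 27 → Bool × Bool,
    ∏ c, ((kk (cl c) (s (e1 c)) (s (e2 c)) : ℝ) / 2) = -1 := by
  rw [sum_eq_single st (fun s _ hs => ?_) (fun h => absurd (mem_univ _) h)]
  · rw [prod_div_distrib, ← Int.cast_prod, prod_st, prod_const, card_univ, Fintype.card_prod,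
      Fintype.card_fin, Fintype.card_fin]
    norm_num
  · obtain ⟨c, hc⟩ := not_forall.1 fun h => hs (forced s h)
    exact prod_eq_zero (mem_univ c) (by rw [not_not.1 hc]; simp)

theorem sum_prod_one_fin {V : Type} [Fintype V] [DecidableEq V] (π : V → ℝ) (h : ∑ t, π t = 1) :
    ∑ φ : V → V, ∏ v, π (φ v) = 1 := by
  rw [← Fintype.prod_sum (fun _ t => π t)]
  simp [h]

end FiniteAux

open FiniteAux in
/-- The limiting normalised density can be made smaller than one. -/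
theorem zlim_lt_one : ∃ w : Weights (Fin 11 ⊕ Fin 18), T0.Zlim w < 1 := by
  obtain ⟨B, hB, hz⟩ := state_abs e1 e2
  obtain ⟨π, κ, h1, h2, h3, h4, h5, h6, -, h8⟩ := force_id (1 / (2 * B)) (by positivity)
  refine ⟨⟨π, fun s t => law (cls s t) (κ s t), fun t => (h1 t).le, h2,
    fun s t => law_nonneg _ (h4 s t) (h5 s t), fun s t => law_sum _ _,
    fun s t => by rw [cls_symm, h3]⟩, ?_⟩
  have key := final (fun φ : Fin 11 ⊕ Fin 18 → Fin 11 ⊕ Fin 18 => ∏ v, π (φ v))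
    (fun φ => ∏ c, κ (φ (T0.lft c)) (φ (T0.rgt c)))
    (fun φ => ∑ s : Fin 27 → Bool × Bool,
      ∏ c, ((kk (cls (φ (T0.lft c)) (φ (T0.rgt c))) (s (e1 c)) (s (e2 c)) : ℝ) / 2)) id hB
    (sum_prod_one_fin π h2)
    (fun φ => mul_nonneg (prod_nonneg fun v _ => (h1 _).le) (prod_nonneg fun c _ => h4 _ _))
    (fun φ => hz _) (by simp only [id, cls_id]; exact z_id)
    (mul_pos (prod_pos fun v _ => h1 _) (prod_pos fun c _ => h6 c)) h8
  refine lt_of_eq_of_lt (sum_congr rfl fun φ _ => ?_) key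
  refine congrArg₂ (· * ·) rfl ?_
  rw [← state_sum e1 e2 conn]
  refine (inner_eq T0 fun c => law (cls (φ (T0.lft c)) (φ (T0.rgt c)))
    (κ (φ (T0.lft c)) (φ (T0.rgt c)))).trans ?_
  simp only [law_mono]
  rfl

end Vale.Agent.P050
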