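import Vale.Agent.P050.Defs

namespace Vale.Agent.P050

open Finset Module
open scoped BigOperators

namespace ForceAux

open Filter Topology

variable {V C : Type} [Fintype V] [DecidableEq V] [Fintype C] (l r : C → V)

/-- the linear functional of a map -/
def LL (α : V → ℝ) (β : V → V → ℝ) (φ : V → V) : ℝ := ∑ v, α (φ v) + ∑ k, β (φ (l k)) (φ (r k))

/-- the property `P` is forced by minimising some functional -/
def Forced (P : (V → V) → Prop) : Prop :=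
  ∃ (α : V → ℝ) (β : V → V → ℝ), (∀ s t, β s t = β t s) ∧
    ∀ φ, LL l r α β id ≤ LL l r α β φ ∧ (¬ P φ → LL l r α β id < LL l r α β φ)

/-- number of neighbours with a given colour -/
def nb {G : Type} [DecidableEq G] (c : V → G) (t : V) (γ : G) : ℕ :=
  (univ.filter fun k => l k = t ∧ c (r k) = γ).card +
    (univ.filter fun k => r k = t ∧ c (l k) = γ).card

theorem sum_nb {G : Type} [Fintype G] [DecidableEq G] (c : V → G) (f : V → G → ℝ) :
    ∑ v, ∑ γ, (nb l r c v γ : ℝ) * f v γ = ∑ k, (f (l k) (c (r k)) + f (r k) (c (l k))) := by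
  have key : ∀ l r : C → V, ∑ v, ∑ γ, ((univ.filter fun k => l k = v ∧ c (r k) = γ).card : ℝ) *
      f v γ = ∑ k, f (l k) (c (r k)) := by
    intro l r
    simp only [card_filter, Nat.cast_sum, sum_mul]
    simp only [sum_comm (s := (univ : Finset G)) (t := (univ : Finset C))]
    rw [sum_comm]
    refine sum_congr rfl fun k _ => ?_
    rw [sum_eq_single (l k) (fun v _ hv => by simp [hv.symm]) (by simp),
      sum_eq_single (c (r k)) (fun v _ hv => by simp [hv.symm]) (by simp)]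
    simp
  simp only [nb, Nat.cast_add, add_mul, sum_add_distrib, key]

theorem refine_step {G G' : Type} [Fintype G] [DecidableEq G] (c : V → G) (c' : V → G')
    (h : Forced l r fun φ => ∀ v, c (φ v) = c v)
    (hc : ∀ s t, c s ≠ c t ∨ c' s = c' t ∨ ∃ γ, nb l r c s γ ≠ nb l r c t γ) :
    Forced l r fun φ => ∀ v, c' (φ v) = c' v := by
  obtain ⟨α, β, hβ, hL⟩ := h
  let α' : V → ℝ := fun t => ∑ γ, (nb l r c t γ : ℝ) ^ 2
  let β' : V → V → ℝ := fun s t => -2 * ((nb l r c s (c t) : ℝ) + nb l r c t (c s))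
  have hsq : ∀ φ : V → V, (∀ v, c (φ v) = c v) → LL l r α' β' φ =
      ∑ v, ∑ γ, ((nb l r c (φ v) γ : ℝ) ^ 2 - 2 * (nb l r c v γ * nb l r c (φ v) γ)) := by
    intro φ hφ
    have := sum_nb l r c (fun v γ => (nb l r c (φ v) γ : ℝ))
    simp only [LL, α', β', hφ, sum_sub_distrib, ← mul_sum, this]
    ring
  have hdiff : ∀ φ : V → V, (∀ v, c (φ v) = c v) → LL l r α' β' φ - LL l r α' β' id =
      ∑ v, ∑ γ, ((nb l r c (φ v) γ : ℝ) - nb l r c v γ) ^ 2 := by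
    intro φ hφ
    rw [hsq φ hφ, hsq id fun _ => rfl, ← sum_sub_distrib]
    refine sum_congr rfl fun v _ => ?_
    rw [← sum_sub_distrib]
    exact sum_congr rfl fun γ _ => by simp only [id]; ring
  have hev : ∀ φ : V → V, ∀ᶠ Λ : ℝ in atTop,
      0 ≤ Λ * (LL l r α β φ - LL l r α β id) + (LL l r α' β' φ - LL l r α' β' id) ∧
      ((¬ ∀ v, c' (φ v) = c' v) →
        0 < Λ * (LL l r α β φ - LL l r α β id) + (LL l r α' β' φ - LL l r α' β' id)) := by
    intro φ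
    by_cases hφ : ∀ v, c (φ v) = c v
    · filter_upwards [eventually_ge_atTop 0] with Λ hΛ
      have h1 := mul_nonneg hΛ (sub_nonneg.2 (hL φ).1)
      have h2 : 0 ≤ LL l r α' β' φ - LL l r α' β' id := by rw [hdiff φ hφ]; positivity
      refine ⟨by linarith, fun hn => ?_⟩
      obtain ⟨v, hv⟩ := not_forall.1 hn
      obtain ⟨γ, hγ⟩ := ((hc (φ v) v).resolve_left (not_not.2 (hφ v))).resolve_left hv
      have h3 : 0 < LL l r α' β' φ - LL l r α' β' id := by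
        rw [hdiff φ hφ]
        refine sum_pos' (fun _ _ => by positivity) ⟨v, mem_univ _,
          sum_pos' (fun _ _ => by positivity) ⟨γ, mem_univ _, ?_⟩⟩
        have : (nb l r c (φ v) γ : ℝ) - nb l r c v γ ≠ 0 := sub_ne_zero.2 (by exact_mod_cast hγ)
        positivity
      linarith
    · have h1 := sub_pos.2 ((hL φ).2 hφ)
      have h2 := (tendsto_id.atTop_mul_const h1).eventually_gt_atTop
        (-(LL l r α' β' φ - LL l r α' β' id))
      filter_upwards [h2] with Λ hΛ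
      simp only [id] at hΛ
      exact ⟨by linarith, fun _ => by linarith⟩
  obtain ⟨Λ, hΛ⟩ := (eventually_all.2 hev).exists
  have hlin : ∀ φ, LL l r (fun t => Λ * α t + α' t) (fun s t => Λ * β s t + β' s t) φ =
      Λ * LL l r α β φ + LL l r α' β' φ := by
    intro φ
    simp only [LL, sum_add_distrib, ← mul_sum]
    ring
  refine ⟨fun t => Λ * α t + α' t, fun s t => Λ * β s t + β' s t, fun s t => ?_, fun φ => ?_⟩
  · simp only [β', hβ s t, add_comm]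
  · rw [hlin, hlin]
    exact ⟨by linarith [(hΛ φ).1], fun hn => by linarith [(hΛ φ).2 hn]⟩

omit [DecidableEq V] in
theorem forced_const : Forced l r fun φ => ∀ v, (fun _ : V => (0 : Fin 29)) (φ v) =
    (fun _ : V => (0 : Fin 29)) v :=
  ⟨0, 0, fun _ _ => rfl, fun φ => ⟨by simp [LL], fun h => absurd (fun _ => rfl) h⟩⟩

theorem weights [Nonempty V] {G : Type} {c : V → G} (hc : Function.Injective c)
    (h : Forced l r fun φ => ∀ v, c (φ v) = c v) (η : ℝ) (hη : 0 < η) :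
    ∃ (π : V → ℝ) (κ : V → V → ℝ), (∀ t, 0 < π t) ∧ ∑ t, π t = 1 ∧
    (∀ s t, κ s t = κ t s) ∧ (∀ s t, 0 ≤ κ s t) ∧ (∀ s t, κ s t ≤ 1 / 2) ∧
    (∀ k, 0 < κ (l k) (r k)) ∧
    (∀ s t, κ s t ≠ 0 → ∃ k, (s = l k ∧ t = r k) ∨ (s = r k ∧ t = l k)) ∧
    ∑ φ ∈ (Finset.univ : Finset (V → V)).erase id, (∏ v, π (φ v)) * ∏ k, κ (φ (l k)) (φ (r k)) ≤
      η * ((∏ v, π v) * ∏ k, κ (l k) (r k)) := by
  classical
  obtain ⟨α, β, hβ, hL⟩ := h
  obtain ⟨B, hB⟩ : ∃ B : ℝ, ∀ s t, 0 ≤ β s t + B := by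
    obtain ⟨b, hb⟩ := (Set.finite_range fun p : V × V => β p.1 p.2).bddBelow
    exact ⟨-b, fun s t => by linarith [hb ⟨(s, t), rfl⟩]⟩
  have ht : Tendsto (fun x : ℝ => ∑ φ ∈ (Finset.univ : Finset (V → V)).erase id,
      Real.exp (-(x * (LL l r α β φ - LL l r α β id)))) atTop
      (𝓝 (∑ _φ ∈ (Finset.univ : Finset (V → V)).erase id, 0)) := by
    refine tendsto_finsetSum _ fun φ hφ => ?_
    have h1 := sub_pos.2 ((hL φ).2 fun hn => (mem_erase.1 hφ).1 (funext fun v => hc (hn v)))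
    exact Real.tendsto_exp_neg_atTop_nhds_zero.comp (tendsto_id.atTop_mul_const h1)
  rw [sum_const_zero] at ht
  obtain ⟨x, hx, hx0⟩ := ((ht.eventually (gt_mem_nhds hη)).and (eventually_ge_atTop 0)).exists
  have hZ : 0 < ∑ t, Real.exp (-(x * α t)) := sum_pos (fun _ _ => Real.exp_pos _) univ_nonempty
  generalize hZ' : ∑ t, Real.exp (-(x * α t)) = Z at hZ
  have hfull : ∀ φ : V → V, (∏ v, Real.exp (-(x * α (φ v))) / Z) *
      ∏ k, Real.exp (-(x * (β (φ (l k)) (φ (r k)) + B))) / 2 =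
      Real.exp (-(x * (LL l r α β φ - LL l r α β id))) * ((∏ v, Real.exp (-(x * α v)) / Z) *
        ∏ k, Real.exp (-(x * (β (l k) (r k) + B))) / 2) := by
    intro φ
    simp only [prod_div_distrib, ← Real.exp_sum]
    rw [div_mul_div_comm, div_mul_div_comm, ← mul_div_assoc, ← Real.exp_add, ← Real.exp_add,
      ← Real.exp_add]
    congr 2
    simp only [LL, sum_neg_distrib, ← mul_sum, sum_add_distrib, id]
    ring
  refine ⟨fun t => Real.exp (-(x * α t)) / Z,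
    fun s t => if ∃ k, (s = l k ∧ t = r k) ∨ (s = r k ∧ t = l k) then
      Real.exp (-(x * (β s t + B))) / 2 else 0, fun t => by positivity,
    by rw [← sum_div, hZ', div_self hZ.ne'], fun s t => ?_, fun s t => ?_, fun s t => ?_,
    fun k => ?_, fun s t hne => ?_, ?_⟩
  · beta_reduce
    rw [hβ s t]
    refine if_congr ⟨?_, ?_⟩ rfl rfl <;> rintro ⟨k, hk⟩ <;> exact ⟨k, by tauto⟩
  · beta_reduce
    split_ifs <;> positivity
  · beta_reduce
    split_ifs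
    · have := Real.exp_le_one_iff.2 (neg_nonpos.2 (mul_nonneg hx0 (hB s t)))
      linarith
    · norm_num
  · beta_reduce
    rw [if_pos ⟨k, Or.inl ⟨rfl, rfl⟩⟩]
    positivity
  · by_contra hn
    exact hne (if_neg hn)
  · have e : ∀ k, (if ∃ k', (l k = l k' ∧ r k = r k') ∨ (l k = r k' ∧ r k = l k') then
        Real.exp (-(x * (β (l k) (r k) + B))) / 2 else 0) =
        Real.exp (-(x * (β (l k) (r k) + B))) / 2 := fun k => if_pos ⟨k, Or.inl ⟨rfl, rfl⟩⟩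
    simp only [e]
    refine le_trans (sum_le_sum fun φ _ => (?_ : _ ≤ Real.exp (-(x * (LL l r α β φ -
      LL l r α β id))) * ((∏ v, Real.exp (-(x * α v)) / Z) *
        ∏ k, Real.exp (-(x * (β (l k) (r k) + B))) / 2))) ?_
    · rw [← hfull φ]
      refine mul_le_mul_of_nonneg_left (prod_le_prod (fun k _ => ?_) fun k _ => ?_)
        (by positivity)
      · split_ifs <;> positivity
      · split_ifs
        · exact le_rfl
        · positivity
    · rw [← sum_mul]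
      exact mul_le_mul_of_nonneg_right hx.le (by positivity)

/-- colour table -/
def c1 : Fin 11 ⊕ Fin 18 → Fin 29 :=
  Sum.elim ![1,1,2,3,3,3,2,1,2,1,2] ![0,0,0,0,0,0,0,0,0,0,0,0,0,0,0,0,0,0]
/-- colour table -/
def c2 : Fin 11 ⊕ Fin 18 → Fin 29 :=
  Sum.elim ![7,7,8,9,9,9,8,7,8,7,8] ![0,1,3,4,3,4,5,5,6,3,3,4,3,5,3,2,2,2]
/-- colour table -/
def c3 : Fin 11 ⊕ Fin 18 → Fin 29 :=
  Sum.elim ![7,7,10,15,14,16,13,8,12,9,11] ![0,1,3,4,3,4,5,5,6,3,3,4,3,5,3,2,2,2]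
/-- colour table -/
def c4 : Fin 11 ⊕ Fin 18 → Fin 29 :=
  Sum.elim ![18,18,21,26,25,27,24,19,23,20,22] ![0,1,5,11,6,12,14,15,17,8,7,13,10,16,9,3,2,4]
/-- colour table -/
def c5 : Fin 11 ⊕ Fin 18 → Fin 29 :=
  Sum.elim ![18,19,22,27,26,28,25,20,24,21,23] ![0,1,5,11,6,12,14,15,17,8,7,13,10,16,9,3,2,4]

theorem r1 : ∀ s t, (fun _ : Fin 11 ⊕ Fin 18 => (0 : Fin 29)) s ≠
    (fun _ : Fin 11 ⊕ Fin 18 => (0 : Fin 29)) t ∨ c1 s = c1 t ∨
    ∃ γ, nb T0.lft T0.rgt (fun _ : Fin 11 ⊕ Fin 18 => (0 : Fin 29)) s γ ≠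
      nb T0.lft T0.rgt (fun _ : Fin 11 ⊕ Fin 18 => (0 : Fin 29)) t γ := by decide +kernel
theorem r2 : ∀ s t, c1 s ≠ c1 t ∨ c2 s = c2 t ∨
    ∃ γ, nb T0.lft T0.rgt c1 s γ ≠ nb T0.lft T0.rgt c1 t γ := by decide +kernel
theorem r3 : ∀ s t, c2 s ≠ c2 t ∨ c3 s = c3 t ∨
    ∃ γ, nb T0.lft T0.rgt c2 s γ ≠ nb T0.lft T0.rgt c2 t γ := by decide +kernel
theorem r4 : ∀ s t, c3 s ≠ c3 t ∨ c4 s = c4 t ∨
    ∃ γ, nb T0.lft T0.rgt c3 s γ ≠ nb T0.lft T0.rgt c3 t γ := by decide +kernel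
theorem r5 : ∀ s t, c4 s ≠ c4 t ∨ c5 s = c5 t ∨
    ∃ γ, nb T0.lft T0.rgt c4 s γ ≠ nb T0.lft T0.rgt c4 t γ := by decide +kernel
theorem c5_inj : Function.Injective c5 := by decide +kernel

end ForceAux

open ForceAux in
/-- Weights that single out one endomorphism. -/
theorem force_id (η : ℝ) (hη : 0 < η) : ∃ (π : Fin 11 ⊕ Fin 18 → ℝ)
    (κ : Fin 11 ⊕ Fin 18 → Fin 11 ⊕ Fin 18 → ℝ), (∀ t, 0 < π t) ∧ ∑ t, π t = 1 ∧
    (∀ s t, κ s t = κ t s) ∧ (∀ s t, 0 ≤ κ s t) ∧ (∀ s t, κ s t ≤ 1 / 2) ∧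
    (∀ c, 0 < κ (T0.lft c) (T0.rgt c)) ∧
    (∀ s t, κ s t ≠ 0 → ∃ c, (s = T0.lft c ∧ t = T0.rgt c) ∨ (s = T0.rgt c ∧ t = T0.lft c)) ∧
    ∑ φ ∈ (Finset.univ : Finset (Fin 11 ⊕ Fin 18 → Fin 11 ⊕ Fin 18)).erase id,
        (∏ v, π (φ v)) * ∏ c, κ (φ (T0.lft c)) (φ (T0.rgt c)) ≤
      η * ((∏ v, π v) * ∏ c, κ (T0.lft c) (T0.rgt c)) := by
  exact weights T0.lft T0.rgt c5_inj (refine_step _ _ _ _ (refine_step _ _ _ _
    (refine_step _ _ _ _ (refine_step _ _ _ _ (refine_step _ _ _ _ (forced_const _ _) r1) r2) r3)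
    r4) r5) η hη

end Vale.Agent.P050
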