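import Vale.Agent.P050.Defs

namespace Vale.Agent.P050

open Finset Module
open scoped BigOperators

theorem psi_swap12 (n a d1 d2 d3 : ℕ) : psi n a d2 d1 d3 = psi n a d1 d2 d3 := by
  unfold psi
  ring

theorem psi_swap23 (n a d1 d2 d3 : ℕ) : psi n a d1 d3 d2 = psi n a d1 d2 d3 := by
  unfold psi
  ring

theorem nu_natCast_nonneg (a : ℕ) : 0 ≤ nu a := by
  unfold nu
  positivity

theorem nu_natCast_mono {a b : ℕ} (h : a ≤ b) : nu a ≤ nu b := by
  have : (a : ℝ) ≤ b := by exact_mod_cast h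
  have h0 : (0 : ℝ) ≤ a := by positivity
  unfold nu
  nlinarith

theorem one_le_nu {a : ℕ} (h : 1 ≤ a) : 1 ≤ nu a := by
  have := nu_natCast_mono h
  norm_num [nu] at this ⊢
  linarith

theorem psi_lower {n a d1 d2 d3 : ℕ} (hρ : d1 + d2 + d3 ≤ n + 2 * a) :
    -nu a ≤ psi n a d1 d2 d3 := by
  have : (d1 : ℝ) + d2 + d3 ≤ n + 2 * a := by exact_mod_cast hρ
  have := mul_nonneg (Nat.cast_nonneg (α := ℝ) a)
    (show (0 : ℝ) ≤ (n : ℝ) - d1 - d2 - d3 + 2 * a by linarith)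
  unfold psi
  linarith

theorem int_sq_add (z : ℤ) : (0 : ℝ) ≤ (z : ℝ) ^ 2 + z := by
  have : 0 ≤ z ^ 2 + z := by
    rcases le_or_gt 0 z with h | h
    · positivity
    · nlinarith
  exact_mod_cast this

theorem Bq_three (i b : ℕ) : 3 * Bq i b ≤ nu b := by
  have := int_sq_add ((b : ℤ) - 3 * i)
  push_cast at this
  unfold Bq nu
  nlinarith

theorem Bq_ten (i s : ℕ) {x : ℝ} (h : x + s = 2 * i) : 10 * Bq i x ≤ 3 * nu x + 1 := by
  have h1 := int_sq_add (-(s : ℤ))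
  push_cast at h1
  have h2 : (0 : ℝ) ≤ (i : ℝ) * s := by positivity
  obtain rfl : x = 2 * i - s := by linarith
  unfold Bq nu
  nlinarith [sq_nonneg ((i : ℝ) - 1)]

theorem Bq_eight (i s : ℕ) {x : ℝ} (h : x + s = 2 * i) (hx : 0 ≤ x) :
    8 * Bq i x ≤ x ^ 2 + 2 * x := by
  obtain rfl : x = 2 * i - s := by linarith
  have hs : (0 : ℝ) ≤ s := by positivity
  unfold Bq
  rcases Nat.eq_zero_or_pos i with rfl | hi
  · have : (s : ℝ) = 0 := by
      push_cast at hx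
      linarith
    simp [this]
  · have : (1 : ℝ) ≤ i := by exact_mod_cast hi
    nlinarith [mul_nonneg hs (show (0 : ℝ) ≤ 4 * i + s - 2 by linarith)]

theorem Good.swap12 {n a d1 d2 d3 : ℕ} {Φ : ℝ} (h : Good n a d1 d2 d3 Φ) :
    Good n a d2 d1 d3 Φ := by
  refine ⟨fun ha => ?_, fun ha => ?_, fun ha => ?_, fun ha => ?_, fun ha => ?_⟩
  · linarith [h.p0 ha]
  · linarith [h.p0' ha]
  · linarith [h.p2 ha, psi_swap12 n a d1 d2 d3]
  · linarith [h.p1 ha, psi_swap12 n a d1 d2 d3]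
  · linarith [h.p3 ha, psi_swap12 n a d1 d2 d3]

theorem Good.swap23 {n a d1 d2 d3 : ℕ} {Φ : ℝ} (h : Good n a d1 d2 d3 Φ) :
    Good n a d1 d3 d2 Φ := by
  refine ⟨fun ha => ?_, fun ha => ?_, fun ha => ?_, fun ha => ?_, fun ha => ?_⟩
  · linarith [h.p0 ha]
  · linarith [h.p0' ha]
  · linarith [h.p1 ha, psi_swap23 n a d1 d2 d3]
  · linarith [h.p3 ha, psi_swap23 n a d1 d2 d3]
  · linarith [h.p2 ha, psi_swap23 n a d1 d2 d3]

theorem good_zero {n a d1 d2 d3 : ℕ} (h1 : a ≤ d1) (h2 : a ≤ d2) (h3 : a ≤ d3)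
    (hρ : d1 + d2 + d3 ≤ n + 2 * a) : Good n a d1 d2 d3 0 := by
  have := nu_natCast_nonneg a
  have := nu_natCast_mono h1
  have := nu_natCast_mono h2
  have := nu_natCast_mono h3
  have := psi_lower hρ
  refine ⟨fun _ => ?_, fun _ => ?_, fun _ => ?_, fun _ => ?_, fun _ => ?_⟩ <;> linarith

theorem good_two {n a d1 d2 d3 i : ℕ} (h1 : a ≤ d1) (h2 : a ≤ d2) (h3 : a ≤ d3)
    (hρ : d1 + d2 + d3 ≤ n + 2 * a) (hi : d1 ≤ 2 * i) : Good n a d1 d2 d3 (Bq i d1) := by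
  have := nu_natCast_nonneg a
  have := nu_natCast_mono h1
  have := nu_natCast_mono h2
  have := nu_natCast_mono h3
  have := psi_lower hρ
  have := Bq_three i d1
  obtain ⟨s, hs⟩ := Nat.exists_eq_add_of_le hi
  have := Bq_ten i s (x := d1) (by exact_mod_cast hs.symm)
  refine ⟨fun _ => ?_, fun _ => ?_, fun ha => ?_, fun ha => ?_, fun ha => ?_⟩
  · linarith
  · linarith
  all_goals linarith [one_le_nu ha]

theorem side_pos {t e β i : ℕ} (h : i ≤ β) (h' : β + t ≤ t + e + 1 + 2 * i) :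
    100 * Bq i ((β : ℝ) + t - (t + e + 1 : ℕ)) ≤
      30 * ((2 * t + e + 1 : ℝ) * β + nu β) - 50 * (t + e + 1 : ℝ) * β + 25 * (e + 1 : ℝ) * e := by
  have he : (0 : ℝ) ≤ e := by positivity
  have ht : (0 : ℝ) ≤ t := by positivity
  rcases Nat.eq_zero_or_pos β with rfl | hβ
  · obtain rfl : i = 0 := by omega
    simp [Bq, nu]
    positivity
  · obtain ⟨s, hs⟩ := Nat.exists_eq_add_of_le h'
    have hb : (1 : ℝ) ≤ β := by exact_mod_cast hβ
    have h1 : ((t + e + 1 + 2 * i : ℕ) : ℝ) = (β + t + s : ℕ) := by rw [hs]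
    have h2 := Bq_ten i s (x := (β : ℝ) + t - (t + e + 1 : ℕ)) (by push_cast at h1 ⊢; linarith)
    push_cast at h2 ⊢
    unfold nu at h2 ⊢
    nlinarith [mul_nonneg ht (show (0 : ℝ) ≤ β by positivity),
      mul_nonneg he (show (0 : ℝ) ≤ β - 1 by linarith), mul_nonneg he he]

theorem side_neg {k s y i : ℕ} (h' : s + y + (k + s) ≤ k + 2 * i) :
    100 * Bq i (((s + y : ℕ) : ℝ) + (k + s : ℕ) - k) ≤
      30 * ((2 * k + s : ℝ) * (s + y) + nu (s + y : ℕ)) - 50 * (k : ℝ) * (s + y) -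
        (10 * k * s - 5 * s ^ 2 - 35 * s + 10 * y - 40) := by
  obtain ⟨r, hr⟩ := Nat.exists_eq_add_of_le h'
  have h1 : ((k + 2 * i : ℕ) : ℝ) = (s + y + (k + s) + r : ℕ) := by rw [hr]
  have hs : (0 : ℝ) ≤ s := by positivity
  have hy : (0 : ℝ) ≤ y := by positivity
  have hk : (0 : ℝ) ≤ k := by positivity
  have h2 := Bq_eight i r (x := ((s + y : ℕ) : ℝ) + (k + s : ℕ) - k)
    (by push_cast at h1 ⊢; linarith) (by push_cast; linarith)
  push_cast at h2 ⊢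
  unfold nu
  nlinarith [mul_nonneg hk hy, mul_nonneg hs hy, sq_nonneg ((y : ℝ) - 4)]

theorem good_three_aux {m k t β1 β2 β3 i1 i2 i3 : ℕ} (hm : 500 ≤ m) (ha : 1 ≤ k + t)
    (hρ : k + t + β1 + β2 + β3 ≤ 2 * m) (h1 : i1 ≤ β1) (h2 : i2 ≤ β2) (h3 : i3 ≤ β3)
    (h1' : β1 + t ≤ k + 2 * i1) (h2' : β2 + t ≤ k + 2 * i2) (h3' : β3 + t ≤ k + 2 * i3)
    {β : ℕ} (hβ : t ≤ k + β) :
    100 * ((k : ℝ) * (m + 1 - k + t) + Bq i1 ((β1 : ℝ) + t - k) + Bq i2 ((β2 : ℝ) + t - k) +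
        Bq i3 ((β3 : ℝ) + t - k)) ≤
      30 * (nu (k + t + β1 : ℕ) + nu (k + t + β2 : ℕ) + nu (k + t + β3 : ℕ)) +
        12 * nu (k + t + β : ℕ) +
        50 * psi (2 * m) (k + t) (k + t + β1) (k + t + β2) (k + t + β3) := by
  obtain ⟨ρ, hρ'⟩ := Nat.exists_eq_add_of_le hρ
  have e : (m : ℝ) = (k + t + β1 + β2 + β3 + ρ) / 2 := by
    have : ((2 * m : ℕ) : ℝ) = (k + t + β1 + β2 + β3 + ρ : ℕ) := by rw [hρ']
    push_cast at this
    linarith
  have hρ0 : (0 : ℝ) ≤ ρ := by positivity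
  rcases lt_or_ge t k with hk | hk
  · obtain ⟨d, rfl⟩ := Nat.exists_eq_add_of_lt hk
    have a1 := side_pos h1 h1'
    have a2 := side_pos h2 h2'
    have a3 := side_pos h3 h3'
    have a4 := nu_natCast_mono (Nat.le_add_right (t + d + 1 + t) β)
    have ht : (0 : ℝ) ≤ t := by positivity
    have hd : (0 : ℝ) ≤ d := by positivity
    unfold psi
    generalize nu (t + d + 1 + t + β : ℕ) = N at a4 ⊢
    generalize Bq i1 _ = B1 at a1 ⊢
    generalize Bq i2 _ = B2 at a2 ⊢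
    generalize Bq i3 _ = B3 at a3 ⊢
    unfold nu at *
    push_cast at *
    rw [e]
    nlinarith [mul_nonneg ht hρ0, mul_nonneg ht hd, mul_nonneg ht ht, mul_nonneg hd hd]
  · obtain ⟨s, rfl⟩ := Nat.exists_eq_add_of_le hk
    obtain ⟨y1, rfl⟩ := Nat.exists_eq_add_of_le (show s ≤ β1 by omega)
    obtain ⟨y2, rfl⟩ := Nat.exists_eq_add_of_le (show s ≤ β2 by omega)
    obtain ⟨y3, rfl⟩ := Nat.exists_eq_add_of_le (show s ≤ β3 by omega)
    have a1 := side_neg h1'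
    have a2 := side_neg h2'
    have a3 := side_neg h3'
    have a4 := nu_natCast_mono (show k + (k + s) + s ≤ k + (k + s) + β by omega)
    have hk0 : (0 : ℝ) ≤ k := by positivity
    have hs : (0 : ℝ) ≤ s := by positivity
    have ht : (0 : ℝ) ≤ k + s - 1 := by
      have : ((1 : ℕ) : ℝ) ≤ (k + s : ℕ) := by exact_mod_cast (show 1 ≤ k + s by omega)
      push_cast at this
      linarith
    have hm' : (500 : ℝ) ≤ m := by exact_mod_cast hm
    unfold psi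
    generalize nu (k + (k + s) + β : ℕ) = N at a4 ⊢
    generalize Bq i1 _ = B1 at a1 ⊢
    generalize Bq i2 _ = B2 at a2 ⊢
    generalize Bq i3 _ = B3 at a3 ⊢
    unfold nu at *
    push_cast at *
    rw [e] at hm' ⊢
    nlinarith [mul_nonneg ht hρ0, mul_nonneg hk0 hs, mul_nonneg hs hs,
      sq_nonneg (2 * (k : ℝ) + s - 58)]

theorem good_three {m k t β1 β2 β3 i1 i2 i3 : ℕ} (hm : 500 ≤ m)
    (hρ : k + t + β1 + β2 + β3 ≤ 2 * m) (h1 : i1 ≤ β1) (h2 : i2 ≤ β2) (h3 : i3 ≤ β3)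
    (h1' : β1 + t ≤ k + 2 * i1) (h2' : β2 + t ≤ k + 2 * i2) (h3' : β3 + t ≤ k + 2 * i3) :
    Good (2 * m) (k + t) (k + t + β1) (k + t + β2) (k + t + β3)
      ((k : ℝ) * (m + 1 - k + t) + Bq i1 ((β1 : ℝ) + t - k) + Bq i2 ((β2 : ℝ) + t - k) +
        Bq i3 ((β3 : ℝ) + t - k)) := by
  refine ⟨fun ha => ?_, fun ha => ?_, fun ha => ?_, fun ha => ?_, fun ha => ?_⟩
  · obtain rfl : k = 0 := by omega
    obtain rfl : t = 0 := by omega
    have := Bq_three i1 β1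
    have := Bq_three i2 β2
    have := Bq_three i3 β3
    simp only [Nat.cast_zero, zero_mul, add_zero, sub_zero, zero_add]
    linarith
  · obtain rfl : k = 0 := by omega
    obtain rfl : t = 0 := by omega
    obtain ⟨s1, e1⟩ := Nat.exists_eq_add_of_le (show β1 ≤ 2 * i1 by omega)
    obtain ⟨s2, e2⟩ := Nat.exists_eq_add_of_le (show β2 ≤ 2 * i2 by omega)
    obtain ⟨s3, e3⟩ := Nat.exists_eq_add_of_le (show β3 ≤ 2 * i3 by omega)
    have := Bq_ten i1 s1 (x := β1) (by exact_mod_cast e1.symm)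
    have := Bq_ten i2 s2 (x := β2) (by exact_mod_cast e2.symm)
    have := Bq_ten i3 s3 (x := β3) (by exact_mod_cast e3.symm)
    simp only [Nat.cast_zero, zero_mul, add_zero, sub_zero, zero_add]
    linarith
  · exact good_three_aux hm ha hρ h1 h2 h3 h1' h2' h3' (by omega)
  · exact good_three_aux hm ha hρ h1 h2 h3 h1' h2' h3' (by omega)
  · exact good_three_aux hm ha hρ h1 h2 h3 h1' h2' h3' (by omega)

end Vale.Agent.P050
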