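import Vale.Agent.P050.Defs

namespace Vale.Agent.P050

open Finset Module
open scoped BigOperators

variable {F : Type} [Field F] [Fintype F] {V : Type} [AddCommGroup V] [Module F V] [Finite V]

/-- Counting by fibres of a map. -/
theorem ncard_le_mul_of_fiber {α β : Type} [Finite α] (S : Set α) (f : α → β) (B₁ B₂ : ℝ)
    (hB₂ : 0 ≤ B₂) (h₁ : ((f '' S).ncard : ℝ) ≤ B₁)
    (h₂ : ∀ x₀ ∈ S, (({x | x ∈ S ∧ f x = f x₀} : Set α).ncard : ℝ) ≤ B₂) :
    (S.ncard : ℝ) ≤ B₁ * B₂ := by
  classical
  have := Fintype.ofFinite α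
  have h3 : S.toFinset.card = ∑ y ∈ S.toFinset.image f, (S.toFinset.filter fun x => f x = y).card :=
    Finset.card_eq_sum_card_image f _
  have h4 : ((S.toFinset.image f).card : ℝ) ≤ B₁ := by
    rwa [← Set.ncard_coe_finset, Finset.coe_image, Set.coe_toFinset]
  rw [Set.ncard_eq_toFinset_card', h3, Nat.cast_sum]
  refine le_trans (Finset.sum_le_card_nsmul _ _ B₂ fun y hy => ?_) ?_
  · obtain ⟨x₀, hx₀, rfl⟩ := Finset.mem_image.1 hy
    refine le_trans (le_of_eq ?_) (h₂ x₀ (Set.mem_toFinset.1 hx₀))
    rw [← Set.ncard_coe_finset]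
    congr 2
    ext x
    simp
  · rw [nsmul_eq_mul]
    exact mul_le_mul_of_nonneg_right h4 hB₂

theorem card_hyperplanes (A U : Submodule F V) (hAU : A ≤ U) (i : ℕ)
    (hU : finrank F U = finrank F A + (i + 1)) :
    Fintype.card F ^ i ≤
      ({W | A ≤ W ∧ W ≤ U ∧ finrank F W = finrank F A + i} : Set (Submodule F V)).ncard := by
  classical
  have hq : finrank F (U ⧸ A.submoduleOf U) = finrank F (Fin (i + 1) → F) := by
    have h1 := Submodule.finrank_quotient_add_finrank (A.submoduleOf U)
    rw [(Submodule.submoduleOfEquivOfLe hAU).finrank_eq] at h1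
    rw [Module.finrank_fin_fun]
    omega
  let e := LinearEquiv.ofFinrankEq _ _ hq
  let π : U →ₗ[F] (Fin (i + 1) → F) := e.toLinearMap ∘ₗ (A.submoduleOf U).mkQ
  have hπ : Function.Surjective π := e.surjective.comp (Submodule.mkQ_surjective _)
  let f : (Fin i → F) → (U →ₗ[F] F) := fun c =>
    (LinearMap.proj 0 + ∑ j, c j • LinearMap.proj (Fin.succ j)) ∘ₗ π
  have hf : ∀ c x, f c x = π x 0 + ∑ j, c j * π x j.succ := by
    intro c x
    simp [f]
  let g : (Fin i → F) → Submodule F V := fun c => (LinearMap.ker (f c)).map U.subtype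
  have hg : Function.Injective g := by
    intro c c' h
    have h1 : LinearMap.ker (f c) = LinearMap.ker (f c') :=
      Submodule.map_injective_of_injective U.injective_subtype h
    funext j
    obtain ⟨x, hx⟩ := hπ (Fin.cons (-c j) (Pi.single j 1))
    have h2 : x ∈ LinearMap.ker (f c) := by
      rw [LinearMap.mem_ker, hf, hx]
      simp [Pi.single_apply]
    rw [h1, LinearMap.mem_ker, hf, hx] at h2
    simp only [Fin.cons_zero, Fin.cons_succ, Pi.single_apply, mul_ite, mul_one, mul_zero,
      Finset.sum_ite_eq', Finset.mem_univ, if_true] at h2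
    linear_combination -h2
  have h3 : Set.range g ⊆ {W | A ≤ W ∧ W ≤ U ∧ finrank F W = finrank F A + i} := by
    rintro _ ⟨c, rfl⟩
    refine ⟨fun x hx => ⟨⟨x, hAU hx⟩, ?_, rfl⟩, Submodule.map_subtype_le _ _, ?_⟩
    · have : π ⟨x, hAU hx⟩ = 0 := by
        simp only [π, LinearMap.comp_apply, Submodule.mkQ_apply]
        rw [(Submodule.Quotient.mk_eq_zero _).2 (by exact hx), map_zero]
      simp [hf, this]
    · have h4 := LinearMap.finrank_range_add_finrank_ker (f c)
      have h5 : LinearMap.range (f c) = ⊤ := by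
        rw [LinearMap.range_eq_top]
        intro t
        obtain ⟨x, hx⟩ := hπ (Fin.cons t 0)
        exact ⟨x, by rw [hf, hx]; simp⟩
      rw [h5, finrank_top, finrank_self] at h4
      simp only [g]
      rw [Submodule.finrank_map_subtype_eq]
      omega
  have h6 := Set.ncard_le_ncard h3
  rwa [Set.ncard_range_of_injective hg, Nat.card_eq_fintype_card, Fintype.card_fun,
    Fintype.card_fin] at h6

theorem ncard_submodule (W : Submodule F V) :
    (W : Set V).ncard = Fintype.card F ^ finrank F W := by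
  rw [← Nat.card_coe_set_eq, ← Nat.card_eq_fintype_card]
  exact Module.natCard_eq_pow_finrank

/-- One-step double counting of flags `W ≤ U` of codimension one above `A`. -/
theorem step_count (P : Submodule F V → Prop) (A : Submodule F V) (i : ℕ) (N : ℝ) (hN0 : 0 ≤ N)
    (hher : ∀ U W, P U → A ≤ W → W ≤ U → P W)
    (hN : ∀ W, P W → A ≤ W → finrank F W = finrank F A + i →
      (({v : V | v ∉ W ∧ P (W ⊔ Submodule.span F {v})} : Set V).ncard : ℝ) ≤ N) :
    (({U | P U ∧ A ≤ U ∧ finrank F U = finrank F A + (i + 1)} : Set (Submodule F V)).ncard : ℝ) *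
        ((Fintype.card F : ℝ) ^ i * (Fintype.card F : ℝ) ^ (finrank F A + i) *
          ((Fintype.card F : ℝ) - 1)) ≤
      (({W | P W ∧ A ≤ W ∧ finrank F W = finrank F A + i} : Set (Submodule F V)).ncard : ℝ) * N := by
  classical
  have := Fintype.ofFinite V
  have := Fintype.ofFinite (Submodule F V)
  have hq : (1 : ℝ) < Fintype.card F := by exact_mod_cast Fintype.one_lt_card
  have hD : (0 : ℝ) < (Fintype.card F : ℝ) ^ (finrank F A + i) * ((Fintype.card F : ℝ) - 1) :=
    mul_pos (by positivity) (by linarith)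
  rw [Set.ncard_eq_toFinset_card', Set.ncard_eq_toFinset_card']
  have key := Finset.card_nsmul_le_card_nsmul (R := ℝ) (fun U W : Submodule F V => W ≤ U)
    (s := {U | P U ∧ A ≤ U ∧ finrank F U = finrank F A + (i + 1)}.toFinset)
    (t := {W | P W ∧ A ≤ W ∧ finrank F W = finrank F A + i}.toFinset)
    (m := (Fintype.card F : ℝ) ^ i)
    (n := N / ((Fintype.card F : ℝ) ^ (finrank F A + i) * ((Fintype.card F : ℝ) - 1)))
    (by
      intro U hU
      obtain ⟨h1, h2, h3⟩ := Set.mem_toFinset.1 hU
      have h4 := card_hyperplanes A U h2 i h3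
      rw [Set.ncard_eq_toFinset_card'] at h4
      refine le_trans (by exact_mod_cast h4) (Nat.cast_le.2 (Finset.card_le_card ?_))
      intro W hW
      obtain ⟨k1, k2, k3⟩ := Set.mem_toFinset.1 hW
      exact (Finset.mem_bipartiteAbove _).2 ⟨Set.mem_toFinset.2 ⟨hher U W h1 k1 k2, k1, k3⟩, k2⟩)
    (by
      intro W hW
      obtain ⟨h1, h2, h3⟩ := Set.mem_toFinset.1 hW
      have h4 := hN W h1 h2 h3
      rw [Set.ncard_eq_toFinset_card'] at h4
      rw [le_div_iff₀ hD, ← nsmul_eq_mul]
      refine le_trans ?_ h4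
      refine le_trans ?_ (Nat.cast_le.2 (Finset.card_filter_le _
        fun v => W ⊔ Submodule.span F {v} ∈ Finset.bipartiteBelow (fun U W : Submodule F V => W ≤ U)
          {U | P U ∧ A ≤ U ∧ finrank F U = finrank F A + (i + 1)}.toFinset W))
      rw [← Finset.sum_card_fiberwise_eq_card_filter, Nat.cast_sum]
      refine Finset.card_nsmul_le_sum _ _ _ fun U hU => ?_
      obtain ⟨hU1, hWU⟩ := (Finset.mem_bipartiteBelow _).1 hU
      obtain ⟨k1, k2, k3⟩ := Set.mem_toFinset.1 hU1
      have h5 : ((U : Set V) \ W).ncard + (W : Set V).ncard = (U : Set V).ncard :=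
        Set.ncard_sdiff_add_ncard_of_subset hWU
      rw [ncard_submodule, ncard_submodule, h3, k3] at h5
      have h6 : (((U : Set V) \ W).ncard : ℝ) =
          (Fintype.card F : ℝ) ^ (finrank F A + i) * ((Fintype.card F : ℝ) - 1) := by
        have h7 : (((U : Set V) \ W).ncard : ℝ) + (Fintype.card F : ℝ) ^ (finrank F A + i) =
            (Fintype.card F : ℝ) ^ (finrank F A + (i + 1)) := by exact_mod_cast h5
        rw [← add_assoc, pow_succ] at h7
        linarith
      rw [← h6, Set.ncard_eq_toFinset_card']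
      refine Nat.cast_le.2 (Finset.card_le_card fun v hv => ?_)
      obtain ⟨v1, v2⟩ := Set.mem_toFinset.1 hv
      have h8 : W ⊔ Submodule.span F {v} = U := by
        refine Submodule.eq_of_le_of_finrank_le
          (sup_le hWU ((Submodule.span_singleton_le_iff_mem _ _).2 v1)) ?_
        have h9 : W < W ⊔ Submodule.span F {v} := by
          refine lt_of_le_of_ne le_sup_left fun h => v2 ?_
          rw [h]
          exact Submodule.mem_sup_right (Submodule.mem_span_singleton_self v)
        have := Submodule.finrank_lt_finrank_of_lt h9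
        omega
      exact Finset.mem_filter.2 ⟨Set.mem_toFinset.2 ⟨v2, h8 ▸ k1⟩, h8⟩)
  rw [nsmul_eq_mul, nsmul_eq_mul, ← mul_div_assoc, le_div_iff₀ hD] at key
  refine le_trans (le_of_eq ?_) key
  ring

/-- Upper bound for the number of subspaces of dimension `u` between `A` and `B`. -/
theorem grass_bound (A B : Submodule F V) (u : ℕ) :
    (({U | A ≤ U ∧ U ≤ B ∧ finrank F U = u} : Set (Submodule F V)).ncard : ℝ) ≤
      lam (Fintype.card F) ^ (u - finrank F A) *
        (Fintype.card F : ℝ) ^ (((u : ℝ) - finrank F A) * ((finrank F B : ℝ) - u)) := by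
  have hq : (1 : ℝ) < Fintype.card F := by exact_mod_cast Fintype.one_lt_card
  have hq0 : (0 : ℝ) < Fintype.card F := by linarith
  have hl : 0 < lam (Fintype.card F) := div_pos hq0 (by linarith)
  rcases lt_or_ge u (finrank F A) with h | h
  · have : ({U | A ≤ U ∧ U ≤ B ∧ finrank F U = u} : Set (Submodule F V)) = ∅ := by
      refine Set.eq_empty_of_forall_notMem fun U hU => ?_
      have := Submodule.finrank_mono hU.1
      have := hU.2.2
      omega
    rw [this, Set.ncard_empty, Nat.cast_zero]
    positivity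
  obtain ⟨k, rfl⟩ := Nat.exists_eq_add_of_le h
  clear h
  rw [Nat.add_sub_cancel_left]
  induction k with
  | zero =>
    have : ({U | A ≤ U ∧ U ≤ B ∧ finrank F U = finrank F A + 0} : Set (Submodule F V)) ⊆ {A} :=
      fun U hU => (Submodule.eq_of_le_of_finrank_eq hU.1 hU.2.2.symm).symm
    have h1 := Set.ncard_le_ncard this
    rw [Set.ncard_singleton] at h1
    simpa using h1
  | succ k ih =>
    have h1 := step_count (fun U => U ≤ B) A k ((Fintype.card F : ℝ) ^ finrank F B) (by positivity)
      (fun U W h _ h' => h'.trans h) (fun W _ _ _ => by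
        have h2 : ({v : V | v ∉ W ∧ W ⊔ Submodule.span F {v} ≤ B} : Set V) ⊆ B := fun v hv =>
          hv.2 (Submodule.mem_sup_right (Submodule.mem_span_singleton_self v))
        have h3 := Set.ncard_le_ncard h2
        rw [ncard_submodule] at h3
        exact_mod_cast h3)
    simp only [and_left_comm (a := _ ≤ B)] at h1
    have hD : (0 : ℝ) < (Fintype.card F : ℝ) ^ k * (Fintype.card F : ℝ) ^ (finrank F A + k) *
        ((Fintype.card F : ℝ) - 1) := mul_pos (by positivity) (by linarith)
    refine le_of_mul_le_mul_right (h1.trans ?_) hD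
    refine (mul_le_mul_of_nonneg_right ih (by positivity)).trans (le_of_eq ?_)
    have e1 : lam (Fintype.card F) * ((Fintype.card F : ℝ) - 1) = Fintype.card F := by
      unfold lam
      rw [div_mul_cancel₀]
      linarith
    have e2 : (Fintype.card F : ℝ) ^ ((((finrank F A + k : ℕ) : ℝ) - finrank F A) *
        ((finrank F B : ℝ) - (finrank F A + k : ℕ))) * (Fintype.card F : ℝ) ^ finrank F B =
        (Fintype.card F : ℝ) ^ ((((finrank F A + (k + 1) : ℕ) : ℝ) - finrank F A) *
          ((finrank F B : ℝ) - (finrank F A + (k + 1) : ℕ))) *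
          ((Fintype.card F : ℝ) ^ k * (Fintype.card F : ℝ) ^ (finrank F A + k) *
            (Fintype.card F : ℝ) ^ 1) := by
      simp only [← Real.rpow_natCast, ← Real.rpow_add hq0]
      congr 1
      push_cast
      ring
    rw [mul_assoc, e2, pow_one, pow_succ]
    linear_combination (-(lam (Fintype.card F) ^ k * (Fintype.card F : ℝ) ^
      ((((finrank F A + (k + 1) : ℕ) : ℝ) - finrank F A) *
          ((finrank F B : ℝ) - (finrank F A + (k + 1) : ℕ))) *
          ((Fintype.card F : ℝ) ^ k * (Fintype.card F : ℝ) ^ (finrank F A + k)))) * e1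

theorem one_lt_lam : 1 < lam (Fintype.card F) := by
  have hq : (1 : ℝ) < Fintype.card F := by exact_mod_cast Fintype.one_lt_card
  unfold lam
  rw [one_lt_div (by linarith)]
  linarith

theorem lam_le_two : lam (Fintype.card F) ≤ 2 := by
  have hq : (2 : ℝ) ≤ Fintype.card F := by exact_mod_cast Fintype.one_lt_card
  unfold lam
  rw [div_le_iff₀ (by linarith)]
  linarith

end Vale.Agent.P050
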