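import Vale.Agent.P050.KeyAux

namespace Vale.Agent.P050

open Finset Module
open scoped BigOperators

namespace Key

variable {A Fc Ed : Type} [LinearOrder A] [Fintype A] [Fintype Fc] [Fintype Ed]
  {T : Surf A Fc Ed} {X : Type} [Fintype X] {ε : ℝ} (M : Model T X ε)

/-- indicator of a degenerate configuration -/
noncomputable def ng (x : A → X) : ℝ :=
  if ∃ e, M.g (x (T.ends e).1) (x (T.ends e).2) = 0 then (1 : ℝ) else 0

lemma deg' (a : Fc → Fin 3 → Bool) :
    𝔼 z : A → X × Bool, ng M (fun v => (z v).1) *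
      ∏ f, Fa M (a f) (fun i => (z (T.vtx f i)).1) ≤ ε := by
  rw [expect_fst (fun x => ng M x * ∏ f, Fa M (a f) (fun i => x (T.vtx f i)))]
  exact M.deg a

lemma Fa_false [Nonempty X] (x : Fin 3 → X) : Fa M (fun _ => false) x = 1 := by simp [Fa]

lemma lo_lt_hi (k : Fin 3) : lo k < hi k := by fin_cases k <;> simp [lo, hi]

omit [Fintype A] [Fintype Fc] [Fintype Ed] in
lemma ends_edg (f : Fc) (k : Fin 3) :
    T.ends (T.edg f k) = (T.vtx f (lo k), T.vtx f (hi k)) := by
  have := T.ends_slot (T.slot.symm (f, k)).1 (T.slot.symm (f, k)).2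
  simpa [Surf.edg] using this

omit [Fintype A] [Fintype Fc] [Fintype Ed] in
lemma ends_lt (e : Ed) : (T.ends e).1 < (T.ends e).2 := by
  rw [T.ends_slot e false]
  exact T.mono _ (lo_lt_hi _)

lemma face_err [Nonempty X] [DecidableEq Fc] (hε : 0 ≤ ε) (f : Fc) (t : Fin 3 → SignType) :
    𝔼 z : A → X × Bool, (1 - ng M (fun v => (z v).1)) *
      |Fa M (act t) (fun i => (z (T.vtx f i)).1) - RR M t (fun i => z (T.vtx f i))| ≤ 4 * ε := by
  have h1 : 𝔼 z : A → X × Bool, ng M (fun v => (z v).1) *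
      Fa M (act t) (fun i => (z (T.vtx f i)).1) ≤ ε := by
    have := deg' M (fun f' => if f' = f then act t else fun _ => false)
    refine le_of_eq_of_le (expect_congr rfl fun z _ => ?_) this
    congr 1
    rw [Finset.prod_eq_single f]
    · simp
    · intro f' _ hf'
      simp [hf', Fa_false]
    · simp
  have h2 : 𝔼 z : A → X × Bool, Fa M (act t) (fun i => (z (T.vtx f i)).1) = 1 := by
    rw [expect_fst (fun x => Fa M (act t) (fun i => x (T.vtx f i))),
      expect_comp_inj (T.vtx f) (T.mono f).injective (Fa M (act t)), expect_Fa]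
  have h3 : 𝔼 z : A → X × Bool, RR M t (fun i => z (T.vtx f i)) ≤ 1 + ε := by
    unfold RR
    rw [expect_add_distrib, ← mul_expect, Fintype.expect_const]
    have h4 := cut_family M (univ : Finset (Fin 3)) univ_nonempty
      (fun k => (T.vtx f (lo k), T.vtx f (hi k))) (by
        intro k k' h
        have e1 := (T.mono f).injective (congrArg Prod.fst h)
        have e2 := (T.mono f).injective (congrArg Prod.snd h)
        revert e1 e2
        fin_cases k <;> fin_cases k' <;> simp [lo, hi])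
      (fun k => T.mono f (lo_lt_hi k))
    have h5 : ((t 0 : ℝ) * t 1 * t 2) ^ 2 ≤ 1 := by
      rw [← sq_abs, abs_mul, abs_mul]
      exact pow_le_one₀ (by positivity) (mul_le_one₀ (mul_le_one₀ (abs_sign_le _) (abs_nonneg _)
        (abs_sign_le _)) (abs_nonneg _) (abs_sign_le _))
    have h6 := (abs_le.1 h4).2
    have h7 := mul_le_mul_of_nonneg_left h6 (sq_nonneg ((t 0 : ℝ) * t 1 * t 2))
    have h8 := mul_le_mul_of_nonneg_right h5 hε
    simp only at h7
    linarith
  have h4 : 𝔼 z : A → X × Bool, (1 - ng M (fun v => (z v).1)) *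
      |Fa M (act t) (fun i => (z (T.vtx f i)).1) - RR M t (fun i => z (T.vtx f i))|
      ≤ 𝔼 z : A → X × Bool, (RR M t (fun i => z (T.vtx f i)) + 2 * ε
        - Fa M (act t) (fun i => (z (T.vtx f i)).1)
        + ng M (fun v => (z v).1) * Fa M (act t) (fun i => (z (T.vtx f i)).1)) := by
    refine expect_le_expect fun z _ => ?_
    have hR := (RR_nonneg M t (fun i => z (T.vtx f i))).1
    unfold ng
    split_ifs with h
    · linarith
    · push Not at h
      have h5 := Fa_le M hε t (fun i => z (T.vtx f i)) (fun k => by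
        have := h (T.edg f k); rwa [ends_edg] at this)
      simp only [sub_zero, one_mul, zero_mul, add_zero]
      rw [abs_le]
      constructor <;> linarith
  rw [expect_add_distrib, expect_sub_distrib, expect_add_distrib, Fintype.expect_const, h2] at h4
  linarith

/-- the edge polynomial -/
noncomputable def PP (τ : Fc × Fin 3 → SignType) (z : A → X × Bool) : ℝ :=
  ∏ e, ((cc τ (T.slot (e, false)) + cc τ (T.slot (e, true))) * G M (z (T.ends e).1) (z (T.ends e).2)
    + (1 + cc τ (T.slot (e, false)) * cc τ (T.slot (e, true))))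

omit [Fintype Fc] in
lemma abs_cc_le (τ : Fc × Fin 3 → SignType) (s : Fc × Fin 3) : |cc τ s| ≤ 1 := by
  unfold cc
  rw [abs_mul]
  exact mul_le_one₀ (abs_sign_le _) (abs_nonneg _) (abs_sign_le _)

omit [Fintype Fc] in
lemma abs_beta_le (τ : Fc × Fin 3 → SignType) (s s' : Fc × Fin 3) : |cc τ s + cc τ s'| ≤ 2 := by
  linarith [abs_add_le (cc τ s) (cc τ s'), abs_cc_le τ s, abs_cc_le τ s']

omit [Fintype Fc] in
lemma abs_theta_le (τ : Fc × Fin 3 → SignType) (s s' : Fc × Fin 3) :
    |1 + cc τ s * cc τ s'| ≤ 2 := by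
  have h1 := abs_add_le 1 (cc τ s * cc τ s')
  rw [abs_one, abs_mul] at h1
  linarith [mul_le_one₀ (abs_cc_le τ s) (abs_nonneg _) (abs_cc_le τ s')]

lemma abs_PP_le (τ : Fc × Fin 3 → SignType) (z : A → X × Bool) :
    |PP M τ z| ≤ 4 ^ Fintype.card Ed := by
  unfold PP
  rw [abs_prod, ← card_univ, ← prod_const]
  refine prod_le_prod (fun _ _ => abs_nonneg _) fun e _ => ?_
  refine (abs_add_le _ _).trans ?_
  rw [abs_mul]
  have h1 := mul_le_mul (abs_beta_le τ (T.slot (e, false)) (T.slot (e, true)))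
    (abs_G_le M (z (T.ends e).1) (z (T.ends e).2)) (abs_nonneg _) (by norm_num)
  linarith [abs_theta_le τ (T.slot (e, false)) (T.slot (e, true))]

lemma PP_eq (τ : Fc × Fin 3 → SignType) (z : A → X × Bool)
    (h : ∀ e, M.g (z (T.ends e).1).1 (z (T.ends e).2).1 ≠ 0) :
    PP M τ z = ∏ f, ∏ k, (1 + aa M (fun i => τ (f, i)) (fun i => z (T.vtx f i)) k) := by
  rw [← Fintype.prod_prod_type' (fun f k =>
    1 + aa M (fun i => τ (f, i)) (fun i => z (T.vtx f i)) k), ← T.slot.prod_comp,
    Fintype.prod_prod_type]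
  unfold PP
  refine prod_congr rfl fun e _ => ?_
  have h1 : ∀ b, aa M (fun i => τ ((T.slot (e, b)).1, i)) (fun i => z (T.vtx (T.slot (e, b)).1 i))
      (T.slot (e, b)).2 = cc τ (T.slot (e, b)) * G M (z (T.ends e).1) (z (T.ends e).2) := by
    intro b
    rw [T.ends_slot e b]
    rfl
  rw [Fintype.prod_bool, h1, h1]
  have h2 := G_sq M (h e)
  linear_combination (-(cc τ (T.slot (e, false)) * cc τ (T.slot (e, true)))) * h2

lemma expect_PP [Nonempty X] [DecidableEq Ed] (hε : 0 ≤ ε) (τ : Fc × Fin 3 → SignType) :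
    |𝔼 z, PP M τ z - T.Lam τ| ≤ 4 ^ Fintype.card Ed * ε := by
  have hz : ∀ z, PP M τ z = ∑ S ∈ powerset (univ : Finset Ed),
      ((∏ e ∈ S, (cc τ (T.slot (e, false)) + cc τ (T.slot (e, true)))) *
        ∏ e ∈ S, G M (z (T.ends e).1) (z (T.ends e).2)) *
        ∏ e ∈ univ \ S, (1 + cc τ (T.slot (e, false)) * cc τ (T.slot (e, true))) := by
    intro z
    unfold PP
    rw [prod_add]
    simp only [prod_mul_distrib]
  simp only [hz]
  rw [expect_sum_comm, ← add_sum_erase _ _ (empty_mem_powerset univ)]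
  simp only [prod_empty, mul_one, one_mul, sdiff_empty, Fintype.expect_const, Surf.Lam,
    add_sub_cancel_left]
  refine (abs_sum_le_sum_abs _ _).trans ?_
  have h1 : ∀ S ∈ (powerset (univ : Finset Ed)).erase ∅,
      |𝔼 z : A → X × Bool, ((∏ e ∈ S, (cc τ (T.slot (e, false)) + cc τ (T.slot (e, true)))) *
        ∏ e ∈ S, G M (z (T.ends e).1) (z (T.ends e).2)) *
        ∏ e ∈ univ \ S, (1 + cc τ (T.slot (e, false)) * cc τ (T.slot (e, true)))|
      ≤ 2 ^ Fintype.card Ed * ε := by
    intro S hS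
    rw [← expect_mul, ← mul_expect, abs_mul, abs_mul, mul_right_comm]
    refine mul_le_mul ?_ (cut_family M S (nonempty_iff_ne_empty.2 (ne_of_mem_erase hS)) T.ends
      T.ends_inj ends_lt) (abs_nonneg _) (by positivity)
    rw [abs_prod, abs_prod, ← card_univ, ← card_sdiff_add_card_eq_card (subset_univ S), pow_add,
      mul_comm, ← prod_const, ← prod_const]
    exact mul_le_mul (prod_le_prod (fun _ _ => abs_nonneg _) fun e _ => abs_theta_le τ _ _)
      (prod_le_prod (fun _ _ => abs_nonneg _) fun e _ => abs_beta_le τ _ _)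
      (prod_nonneg fun _ _ => abs_nonneg _) (by positivity)
  refine (sum_le_card_nsmul _ _ _ h1).trans ?_
  rw [nsmul_eq_mul, ← mul_assoc, show (4 : ℝ) = 2 * 2 by norm_num, mul_pow]
  refine mul_le_mul_of_nonneg_right (mul_le_mul_of_nonneg_right ?_ (by positivity)) hε
  have := card_erase_le (s := powerset (univ : Finset Ed)) (a := ∅)
  rw [card_powerset, card_univ] at this
  exact_mod_cast this

lemma pointwise [Nonempty X] (hε : 0 ≤ ε) (hε1 : ε ≤ 1) (τ : Fc × Fin 3 → SignType)
    (z : A → X × Bool) :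
    |∏ f, Ph M (fun i => τ (f, i)) (fun i => z (T.vtx f i)) - PP M τ z|
      ≤ 8 ^ Fintype.card Fc * (ng M (fun v => (z v).1) *
          ∏ f, Fa M (act fun i => τ (f, i)) (fun i => (z (T.vtx f i)).1))
        + 4 ^ Fintype.card Ed * ng M (fun v => (z v).1)
        + 12 ^ Fintype.card Fc * 4 * ∑ f, (1 - ng M (fun v => (z v).1)) *
          |Fa M (act fun i => τ (f, i)) (fun i => (z (T.vtx f i)).1)
            - RR M (fun i => τ (f, i)) (fun i => z (T.vtx f i))| := by
  unfold ng
  split_ifs with h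
  · simp only [one_mul, mul_one, sub_self, zero_mul, sum_const_zero, mul_zero, add_zero]
    refine (abs_sub _ _).trans (add_le_add ?_ (abs_PP_le M τ z))
    rw [abs_prod, ← card_univ, ← prod_const, ← prod_mul_distrib]
    exact prod_le_prod (fun _ _ => abs_nonneg _) fun f _ => abs_Ph_le M _ _
  · push Not at h
    have hg : ∀ f k, M.g (z (T.vtx f (lo k))).1 (z (T.vtx f (hi k))).1 ≠ 0 := fun f k => by
      have := h (T.edg f k); rwa [ends_edg] at this
    have hs : ∀ f, |1 + ∑ k, aa M (fun i => τ (f, i)) (fun i => z (T.vtx f i)) k| ≤ 4 := by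
      intro f
      rw [Fin.sum_univ_three, abs_le]
      have a0 := abs_le.1 (abs_aa_le M (fun i => τ (f, i)) (fun i => z (T.vtx f i)) 0)
      have a1 := abs_le.1 (abs_aa_le M (fun i => τ (f, i)) (fun i => z (T.vtx f i)) 1)
      have a2 := abs_le.1 (abs_aa_le M (fun i => τ (f, i)) (fun i => z (T.vtx f i)) 2)
      constructor <;> linarith [a0.1, a0.2, a1.1, a1.2, a2.1, a2.2]
    simp only [zero_mul, mul_zero, zero_add, sub_zero, one_mul]
    rw [PP_eq M τ z h]
    refine (abs_prod_sub_prod univ _ _ (B := 12) (by norm_num) (fun f => ?_) (fun f => ?_)).trans ?_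
    · rw [Ph_eq M _ _ (hg f), abs_mul, abs_of_nonneg (Fa_nonneg M _ _)]
      have h1 := Fa_le M hε (fun i => τ (f, i)) (fun i => z (T.vtx f i)) (hg f)
      have h2 := (RR_nonneg M (fun i => τ (f, i)) (fun i => z (T.vtx f i))).2
      have h3 := mul_le_mul (show Fa M (act fun i => τ (f, i)) (fun i => (z (T.vtx f i)).1) ≤ 3
        by linarith) (hs f) (abs_nonneg _) (by norm_num)
      linarith
    · rw [prod_aa M _ _ (hg f), abs_mul, abs_of_nonneg (RR_nonneg M _ _).1]
      have h3 := mul_le_mul (RR_nonneg M (fun i => τ (f, i)) (fun i => z (T.vtx f i))).2 (hs f)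
        (abs_nonneg _) (by norm_num)
      linarith
    · rw [card_univ, mul_assoc, mul_sum (a := (4 : ℝ))]
      refine mul_le_mul_of_nonneg_left (sum_le_sum fun f _ => ?_) (by positivity)
      rw [Ph_eq M _ _ (hg f), prod_aa M _ _ (hg f), ← sub_mul, abs_mul, mul_comm]
      exact mul_le_mul_of_nonneg_right (hs f) (abs_nonneg _)

end Key

open Key in
/-- In a model with error `ε` the face density is within `C ε` of the limit functional. -/
theorem key_lemma {A Fc Ed : Type} [LinearOrder A] [Fintype A] [Fintype Fc] [Fintype Ed]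
    [DecidableEq Fc] [DecidableEq Ed] (T : Surf A Fc Ed) :
    ∃ C : ℝ, 0 < C ∧ ∀ (X : Type) [Fintype X] [Nonempty X] (ε : ℝ), 0 ≤ ε → ε ≤ 1 →
      ∀ (M : Model T X ε) (τ : Fc × Fin 3 → SignType), |M.tFace τ - T.Lam τ| ≤ C * ε := by
  refine ⟨8 ^ Fintype.card Fc + 4 ^ Fintype.card Ed
    + 12 ^ Fintype.card Fc * 4 * (Fintype.card Fc * 4) + 4 ^ Fintype.card Ed, by positivity,
    fun X _ _ ε hε hε1 M τ => ?_⟩
  have h1 : M.tFace τ
      = 𝔼 z : A → X × Bool, ∏ f, Ph M (fun i => τ (f, i)) (fun i => z (T.vtx f i)) := rfl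
  have h2 := expect_PP M hε τ
  have h3 : |M.tFace τ - 𝔼 z, PP M τ z| ≤ 8 ^ Fintype.card Fc * ε + 4 ^ Fintype.card Ed * ε
      + 12 ^ Fintype.card Fc * 4 * (Fintype.card Fc * (4 * ε)) := by
    rw [h1, ← expect_sub_distrib]
    refine (abs_expect_le _ _).trans ((expect_le_expect fun z _ =>
      pointwise M hε hε1 τ z).trans ?_)
    rw [expect_add_distrib, expect_add_distrib, ← mul_expect, ← mul_expect, ← mul_expect,
      expect_sum_comm]
    have a1 := deg' M (fun f => act fun i => τ (f, i))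
    have a2 := deg' M (fun _ _ => false)
    simp only [Fa_false, prod_const_one, mul_one] at a2
    have a3 := sum_le_card_nsmul univ _ _
      (fun f _ => face_err M hε f (fun i => τ (f, i)))
    rw [card_univ, nsmul_eq_mul] at a3
    gcongr
  have h4 := abs_sub_le (M.tFace τ) (𝔼 z, PP M τ z) (T.Lam τ)
  nlinarith

end Vale.Agent.P050
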