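import Vale.Agent.P050.Expose

/-! Face-level computations for the key lemma. -/

namespace Vale.Agent.P050

open Finset Module
open scoped BigOperators

namespace Key

lemma expect_bool (f : Bool → ℝ) : 𝔼 s : Bool, f s = (f true + f false) / 2 := by
  rw [Fintype.expect_eq_sum_div_card]; simp

lemma expect_prod' {P Q : Type} [Fintype P] [Fintype Q] (f : P × Q → ℝ) :
    𝔼 w : P × Q, f w = 𝔼 p : P, 𝔼 q : Q, f (p, q) := by
  rw [← univ_product_univ, expect_product]

lemma expect_fst {A X : Type} [Fintype A] [DecidableEq A] [Fintype X] (h : (A → X) → ℝ) :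
    𝔼 z : A → X × Bool, h (fun a => (z a).1) = 𝔼 x : A → X, h x := by
  rw [Fintype.expect_equiv (Equiv.arrowProdEquivProdArrow A (fun _ => X) (fun _ => Bool))
    (fun z => h (fun a => (z a).1)) (fun q => h q.1) (fun _ => rfl), expect_prod']
  simp

lemma abs_expect_le' {P : Type} [Fintype P] [Nonempty P] {f : P → ℝ} {c : ℝ}
    (h : ∀ p, |f p| ≤ c) : |𝔼 p, f p| ≤ c :=
  (abs_expect_le _ _).trans (expect_le univ_nonempty fun p _ => h p)

lemma abs_prod_sub_prod {ι : Type} (s : Finset ι) (a b : ι → ℝ) {B : ℝ} (hB : 1 ≤ B)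
    (ha : ∀ i, |a i| ≤ B) (hb : ∀ i, |b i| ≤ B) :
    |∏ i ∈ s, a i - ∏ i ∈ s, b i| ≤ B ^ s.card * ∑ i ∈ s, |a i - b i| := by
  classical
  induction s using Finset.induction_on with
  | empty => simp
  | insert j s hj ih =>
    rw [prod_insert hj, prod_insert hj, sum_insert hj, card_insert_of_notMem hj]
    have h1 : a j * ∏ i ∈ s, a i - b j * ∏ i ∈ s, b i
        = a j * (∏ i ∈ s, a i - ∏ i ∈ s, b i) + (a j - b j) * ∏ i ∈ s, b i := by ring
    have h2 : |∏ i ∈ s, b i| ≤ B ^ s.card := by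
      rw [abs_prod]
      exact (prod_le_prod (fun _ _ => abs_nonneg _) fun i _ => hb i).trans (by simp)
    have h3 : 0 ≤ ∑ i ∈ s, |a i - b i| := sum_nonneg fun _ _ => abs_nonneg _
    have h4 : B ^ s.card ≤ B ^ (s.card + 1) := pow_le_pow_right₀ hB (Nat.le_succ _)
    have h5 : |a j| * |∏ i ∈ s, a i - ∏ i ∈ s, b i| ≤ B * (B ^ s.card * ∑ i ∈ s, |a i - b i|) :=
      mul_le_mul (ha j) ih (abs_nonneg _) (by linarith)
    have h6 : |a j - b j| * |∏ i ∈ s, b i| ≤ |a j - b j| * B ^ (s.card + 1) :=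
      mul_le_mul_of_nonneg_left (h2.trans h4) (abs_nonneg _)
    rw [h1]
    refine (abs_add_le _ _).trans ?_
    rw [abs_mul, abs_mul, pow_succ] at *
    nlinarith

lemma sgn_sq (b : Bool) : sgn b ^ 2 = 1 := by cases b <;> simp [sgn]
lemma abs_sgn (b : Bool) : |sgn b| = 1 := by cases b <;> simp [sgn]
lemma abs_sign_le (t : SignType) : |(t : ℝ)| ≤ 1 := by cases t <;> simp
lemma sign_sq (t : SignType) (h : t ≠ 0) : (t : ℝ) ^ 2 = 1 := by cases t <;> simp at h ⊢

variable {A Fc Ed : Type} [LinearOrder A] [Fintype A] [Fintype Fc] [Fintype Ed]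
  {T : Surf A Fc Ed} {X : Type} [Fintype X] {ε : ℝ} (M : Model T X ε)

/-- common-neighbour density of the active corners -/
noncomputable def Fa (act : Fin 3 → Bool) (x : Fin 3 → X) : ℝ :=
  𝔼 y, ∏ i, (if act i then M.W (x i) y else 1)

/-- signed quadratic character -/
def G (p p' : X × Bool) : ℝ := sgn p.2 * sgn p'.2 * M.g p.1 p'.1

/-- the face factor -/
noncomputable def Ph (t : Fin 3 → SignType) (p : Fin 3 → X × Bool) : ℝ :=
  𝔼 w : X × Bool, ∏ i, M.k (t i) (p i) w

/-- active corners -/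
def act (t : Fin 3 → SignType) (i : Fin 3) : Bool := decide (t i ≠ 0)

/-- the side terms -/
def aa (t : Fin 3 → SignType) (p : Fin 3 → X × Bool) (k : Fin 3) : ℝ :=
  ((t (lo k) : ℝ) * (t (hi k) : ℝ)) * G M (p (lo k)) (p (hi k))

/-- the limit of the common-neighbour density -/
noncomputable def RR (t : Fin 3 → SignType) (p : Fin 3 → X × Bool) : ℝ :=
  1 + ((t 0 : ℝ) * t 1 * t 2) ^ 2 * ∏ k, G M (p (lo k)) (p (hi k))

/-- the corner weight -/
def V (t : SignType) (x y : X) : ℝ := if decide (t ≠ 0) then M.W x y else 1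

lemma Fa_act (t : Fin 3 → SignType) (x : Fin 3 → X) :
    Fa M (act t) x = 𝔼 y, ∏ i, V M (t i) (x i) y := rfl

lemma abs_g_le (x y : X) : |M.g x y| ≤ 1 := by
  rcases M.g_val x y with h | h | h <;> simp [h]

lemma g_sq {x y : X} (h : M.g x y ≠ 0) : M.g x y ^ 2 = 1 := by
  rcases M.g_val x y with h' | h' | h' <;> simp_all

lemma abs_G_le (p p' : X × Bool) : |G M p p'| ≤ 1 := by
  simp only [G, abs_mul, abs_sgn, one_mul]; exact abs_g_le M _ _

lemma G_sq {p p' : X × Bool} (h : M.g p.1 p'.1 ≠ 0) : G M p p' ^ 2 = 1 := by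
  simp only [G, mul_pow, sgn_sq, g_sq M h, one_mul]

lemma abs_aa_le (t : Fin 3 → SignType) (p : Fin 3 → X × Bool) (k : Fin 3) : |aa M t p k| ≤ 1 := by
  simp only [aa, abs_mul]
  exact mul_le_one₀ (mul_le_one₀ (abs_sign_le _) (abs_nonneg _) (abs_sign_le _)) (abs_nonneg _)
    (abs_G_le M _ _)

lemma k_eq (t : SignType) (p w : X × Bool) :
    M.k t p w = V M t p.1 w.1 * (1 + (t : ℝ) * sgn p.2 * sgn w.2 * M.σ p.1 w.1) := by
  cases t <;> simp [Model.k, V]

lemma V_nonneg (b : Bool) (x y : X) : 0 ≤ (if b then M.W x y else 1) := by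
  split_ifs
  · exact M.W_nonneg _ _
  · exact zero_le_one

lemma V_nonneg' (t : SignType) (x y : X) : 0 ≤ V M t x y := V_nonneg M _ _ _

lemma Fa_nonneg (a : Fin 3 → Bool) (x : Fin 3 → X) : 0 ≤ Fa M a x :=
  expect_nonneg fun _ _ => prod_nonneg fun _ _ => V_nonneg M _ _ _

lemma abs_Ph_le (t : Fin 3 → SignType) (p : Fin 3 → X × Bool) :
    |Ph M t p| ≤ 8 * Fa M (act t) (fun i => (p i).1) := by
  unfold Ph
  rw [Fa_act, expect_prod', mul_expect]
  refine (abs_expect_le _ _).trans (expect_le_expect fun y _ => abs_expect_le' fun s => ?_)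
  rw [abs_prod, show (8 : ℝ) = ∏ _i : Fin 3, 2 by norm_num, ← prod_mul_distrib]
  refine prod_le_prod (fun _ _ => abs_nonneg _) fun i _ => ?_
  rw [k_eq, abs_mul, abs_of_nonneg (V_nonneg' M _ _ _), mul_comm]
  refine mul_le_mul_of_nonneg_right ?_ (V_nonneg' M _ _ _)
  refine (abs_add_le _ _).trans ?_
  simp only [abs_one, abs_mul, abs_sgn, mul_one]
  have := mul_le_one₀ (abs_sign_le (t i)) (abs_nonneg _) (M.σ_abs (p i).1 y)
  linarith

lemma pair_eq (t t' : SignType) {x x' : X} (y : X) (h : M.g x x' ≠ 0) :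
    V M t x y * V M t' x' y * ((t : ℝ) * t') * (M.σ x y * M.σ x' y)
    = V M t x y * V M t' x' y * ((t : ℝ) * t') * M.g x x' := by
  by_cases h1 : t = 0
  · simp [h1]
  by_cases h2 : t' = 0
  · simp [h2]
  by_cases h3 : M.W x y = 0
  · simp [V, h1, h3]
  by_cases h4 : M.W x' y = 0
  · simp [V, h2, h4]
  rw [M.sign x x' y h h3 h4]

lemma Ph_eq (t : Fin 3 → SignType) (p : Fin 3 → X × Bool)
    (hg : ∀ k, M.g (p (lo k)).1 (p (hi k)).1 ≠ 0) :
    Ph M t p = Fa M (act t) (fun i => (p i).1) * (1 + ∑ k, aa M t p k) := by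
  unfold Ph
  rw [Fa_act, expect_prod', expect_mul]
  refine expect_congr rfl fun y _ => ?_
  have h0 := pair_eq M (t 1) (t 2) y (hg 0)
  have h1 := pair_eq M (t 0) (t 2) y (hg 1)
  have h2 := pair_eq M (t 0) (t 1) y (hg 2)
  simp only [lo, hi, Matrix.cons_val_zero, Matrix.cons_val_one, Matrix.cons_val] at h0 h1 h2
  rw [expect_bool]
  simp only [k_eq, Fin.prod_univ_three, Fin.sum_univ_three, aa, G, lo, hi,
    Matrix.cons_val_zero, Matrix.cons_val_one, Matrix.cons_val]
  generalize V M (t 0) (p 0).1 y = V0 at *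
  generalize V M (t 1) (p 1).1 y = V1 at *
  generalize V M (t 2) (p 2).1 y = V2 at *
  have e1 : sgn true = 1 := rfl
  have e2 : sgn false = -1 := rfl
  simp only [e1, e2]
  linear_combination (V0 * sgn (p 1).2 * sgn (p 2).2) * h0 + (V1 * sgn (p 0).2 * sgn (p 2).2) * h1
    + (V2 * sgn (p 0).2 * sgn (p 1).2) * h2

lemma prod_aa (t : Fin 3 → SignType) (p : Fin 3 → X × Bool)
    (hg : ∀ k, M.g (p (lo k)).1 (p (hi k)).1 ≠ 0) :
    ∏ k, (1 + aa M t p k) = RR M t p * (1 + ∑ k, aa M t p k) := by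
  have h0 := G_sq M (hg 0)
  have h1 := G_sq M (hg 1)
  have h2 := G_sq M (hg 2)
  simp only [Fin.prod_univ_three, Fin.sum_univ_three, aa, RR, lo, hi,
    Matrix.cons_val_zero, Matrix.cons_val_one, Matrix.cons_val] at *
  generalize G M (p 1) (p 2) = g0 at *
  generalize G M (p 0) (p 2) = g1 at *
  generalize G M (p 0) (p 1) = g2 at *
  rcases sq_eq_one_iff.1 h0 with rfl | rfl <;>
  rcases sq_eq_one_iff.1 h1 with rfl | rfl <;>
  rcases sq_eq_one_iff.1 h2 with rfl | rfl <;>
  cases t 0 <;> cases t 1 <;> cases t 2 <;> norm_num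

lemma RR_nonneg (t : Fin 3 → SignType) (p : Fin 3 → X × Bool) : 0 ≤ RR M t p ∧ RR M t p ≤ 2 := by
  have h1 : |((t 0 : ℝ) * t 1 * t 2) ^ 2 * ∏ k, G M (p (lo k)) (p (hi k))| ≤ 1 := by
    rw [abs_mul, abs_prod, abs_pow, abs_mul, abs_mul]
    refine mul_le_one₀ (pow_le_one₀ (by positivity) ?_) (prod_nonneg fun _ _ => abs_nonneg _)
      (prod_le_one (fun _ _ => abs_nonneg _) fun _ _ => abs_G_le M _ _)
    exact mul_le_one₀ (mul_le_one₀ (abs_sign_le _) (abs_nonneg _) (abs_sign_le _)) (abs_nonneg _)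
      (abs_sign_le _)
  unfold RR
  constructor <;> linarith [(abs_le.1 h1).1, (abs_le.1 h1).2]

lemma prod_G (p : Fin 3 → X × Bool) : ∏ k, G M (p (lo k)) (p (hi k))
    = M.g (p 0).1 (p 1).1 * M.g (p 0).1 (p 2).1 * M.g (p 1).1 (p 2).1 := by
  simp only [Fin.prod_univ_three, G, lo, hi, Matrix.cons_val_zero, Matrix.cons_val_one,
    Matrix.cons_val]
  have h0 := sgn_sq (p 0).2
  have h1 := sgn_sq (p 1).2
  have h2 := sgn_sq (p 2).2
  calc _ = sgn (p 0).2 ^ 2 * sgn (p 1).2 ^ 2 * sgn (p 2).2 ^ 2 *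
      (M.g (p 0).1 (p 1).1 * M.g (p 0).1 (p 2).1 * M.g (p 1).1 (p 2).1) := by ring
    _ = _ := by rw [h0, h1, h2]; ring

lemma Fa_le [Nonempty X] (hε : 0 ≤ ε) (t : Fin 3 → SignType) (p : Fin 3 → X × Bool)
    (hg : ∀ k, M.g (p (lo k)).1 (p (hi k)).1 ≠ 0) :
    Fa M (act t) (fun i => (p i).1) ≤ RR M t p + ε := by
  have g12 : M.g (p 1).1 (p 2).1 ≠ 0 := hg 0
  have g02 : M.g (p 0).1 (p 2).1 ≠ 0 := hg 1
  have g01 : M.g (p 0).1 (p 1).1 ≠ 0 := hg 2
  rw [Fa_act, RR, prod_G]
  simp only [Fin.prod_univ_three, V]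
  by_cases h0 : t 0 = 0 <;> by_cases h1 : t 1 = 0 <;> by_cases h2 : t 2 = 0
  · simp [h0, h1, h2, hε]
  · simp [h0, h1, h2, hε, M.W_mean]
  · simp [h0, h1, h2, hε, M.W_mean]
  · simpa [h0, h1, h2] using M.two _ _ g12
  · simp [h0, h1, h2, hε, M.W_mean]
  · simpa [h0, h1, h2] using M.two _ _ g02
  · simpa [h0, h1, h2] using M.two _ _ g01
  · simp only [h0, h1, h2, ne_eq, not_false_eq_true, decide_true, if_true, mul_pow,
      sign_sq _ h0, sign_sq _ h1, sign_sq _ h2, one_mul]
    have hχ : (M.g (p 0).1 (p 1).1 * M.g (p 0).1 (p 2).1 * M.g (p 1).1 (p 2).1) ^ 2 = 1 := by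
      simp only [mul_pow, g_sq M g01, g_sq M g02, g_sq M g12, one_mul]
    rcases sq_eq_one_iff.1 hχ with h | h
    · rw [h]
      have := M.three _ _ _ g01 g02 g12
      linarith
    · rw [h, expect_eq_zero]
      · linarith
      intro y _
      by_contra hne
      have a0 : M.W (p 0).1 y ≠ 0 := fun h => hne (by simp [h])
      have a1 : M.W (p 1).1 y ≠ 0 := fun h => hne (by simp [h])
      have a2 : M.W (p 2).1 y ≠ 0 := fun h => hne (by simp [h])
      rw [← M.sign _ _ y g01 a0 a1, ← M.sign _ _ y g02 a0 a2, ← M.sign _ _ y g12 a1 a2] at h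
      nlinarith [sq_nonneg (M.σ (p 0).1 y * M.σ (p 1).1 y * M.σ (p 2).1 y)]

lemma expect_Fa [Nonempty X] (a : Fin 3 → Bool) : 𝔼 x : Fin 3 → X, Fa M a x = 1 := by
  unfold Fa
  rw [expect_comm]
  have : ∀ y, 𝔼 x : Fin 3 → X, ∏ i, (if a i then M.W (x i) y else 1) = 1 := by
    intro y
    rw [expect_pi_prod (fun i s => if a i then M.W s y else 1)]
    refine prod_eq_one fun i _ => ?_
    split_ifs
    · simp only [M.W_symm _ y, M.W_mean]
    · simp
  simp [this]

lemma cut_prod [Nonempty X] (u v : X × Bool → ℝ) (hu : ∀ p, |u p| ≤ 1) (hv : ∀ p, |v p| ≤ 1) :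
    |𝔼 p : X × Bool, 𝔼 p' : X × Bool, M.g p.1 p'.1 * u p * v p'| ≤ ε := by
  have h := M.cut (fun x => 𝔼 s : Bool, u (x, s)) (fun x => 𝔼 s : Bool, v (x, s))
    (fun x => abs_expect_le' fun s => hu _) (fun x => abs_expect_le' fun s => hv _)
  refine le_of_eq_of_le ?_ h
  congr 1
  rw [expect_prod']
  refine expect_congr rfl fun x _ => ?_
  rw [expect_comm, expect_prod']
  refine expect_congr rfl fun x' _ => ?_
  simp only [expect_bool]
  ring

lemma cut_family [Nonempty X] {J : Type} (S : Finset J) (hS : S.Nonempty) (en : J → A × A)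
    (hinj : Function.Injective en) (hlt : ∀ j, (en j).1 < (en j).2) :
    |𝔼 z : A → X × Bool, ∏ j ∈ S, G M (z (en j).1) (z (en j).2)| ≤ ε := by
  classical
  obtain ⟨j0, hj0⟩ := hS
  set a := (en j0).1 with ha
  set b := (en j0).2 with hb
  have hab : a ≠ b := (hlt j0).ne
  set h : (A → X × Bool) → ℝ := fun z => ∏ j ∈ S, G M (z (en j).1) (z (en j).2) with hh
  have h1 : 𝔼 z, h z = 𝔼 z, 𝔼 p : X × Bool, 𝔼 p' : X × Bool,
      h (Function.update (Function.update z a p) b p') := by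
    rw [expect_update h b,
      expect_update (fun z => 𝔼 p' : X × Bool, h (Function.update z b p')) a]
  change |𝔼 z, h z| ≤ ε
  rw [h1]
  refine abs_expect_le' fun z => ?_
  set S' := S.erase j0 with hS'
  set c : J → Prop := fun j => (en j).1 = b ∨ (en j).2 = b with hc
  have h2 := cut_prod M
    (fun p => sgn p.2 * ∏ j ∈ S'.filter (fun j => ¬ c j),
      G M (Function.update z a p (en j).1) (Function.update z a p (en j).2))
    (fun p' => sgn p'.2 * ∏ j ∈ S'.filter c,
      G M (Function.update z b p' (en j).1) (Function.update z b p' (en j).2))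
    (fun p => by
      rw [abs_mul, abs_sgn, one_mul, abs_prod]
      exact prod_le_one (fun _ _ => abs_nonneg _) fun _ _ => abs_G_le M _ _)
    (fun p => by
      rw [abs_mul, abs_sgn, one_mul, abs_prod]
      exact prod_le_one (fun _ _ => abs_nonneg _) fun _ _ => abs_G_le M _ _)
  refine le_of_eq_of_le ?_ h2
  congr 1
  refine expect_congr rfl fun p _ => expect_congr rfl fun p' _ => ?_
  simp only [hh]
  rw [← mul_prod_erase S _ hj0, ← hS', ← prod_filter_mul_prod_filter_not S' c, ← ha, ← hb,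
    Function.update_of_ne hab, Function.update_self, Function.update_self]
  have e1 : ∏ j ∈ S'.filter (fun j => ¬ c j),
      G M (Function.update (Function.update z a p) b p' (en j).1)
        (Function.update (Function.update z a p) b p' (en j).2)
      = ∏ j ∈ S'.filter (fun j => ¬ c j),
      G M (Function.update z a p (en j).1) (Function.update z a p (en j).2) := by
    refine prod_congr rfl fun j hj => ?_
    have := not_or.1 (mem_filter.1 hj).2
    rw [Function.update_of_ne this.1, Function.update_of_ne this.2]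
  have e2 : ∏ j ∈ S'.filter c,
      G M (Function.update (Function.update z a p) b p' (en j).1)
        (Function.update (Function.update z a p) b p' (en j).2)
      = ∏ j ∈ S'.filter c,
      G M (Function.update z b p' (en j).1) (Function.update z b p' (en j).2) := by
    refine prod_congr rfl fun j hj => ?_
    obtain ⟨hj1, hj2⟩ := mem_filter.1 hj
    have hne : j ≠ j0 := ne_of_mem_erase hj1
    have hl := hlt j
    have hl0 : a < b := hlt j0
    have n1 : (en j).1 ≠ a := by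
      intro h
      rcases hj2 with h' | h'
      · exact hab (h.symm.trans h')
      · exact hne (hinj (Prod.ext h h'))
    have n2 : (en j).2 ≠ a := by
      intro h
      rcases hj2 with h' | h'
      · rw [h, h'] at hl; exact lt_asymm hl hl0
      · exact hab (h.symm.trans h')
    rw [Function.update_comm hab, Function.update_of_ne n1, Function.update_of_ne n2]
  rw [e1, e2]
  simp only [G]
  ring

end Key

end Vale.Agent.P050
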