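import Vale.Agent.P050.Sympl

namespace Vale.Agent.P050

open Finset Module
open scoped BigOperators

variable {F : Type} [Field F] {V : Type} [AddCommGroup V] [Module F V]

/-- Pairs `(u₁,u₂) ∈ a × b` with `u₁ + u₂ ∈ c`. -/
def Ksp (a b c : Submodule F V) : Submodule F (V × V) :=
  a.prod b ⊓ c.comap (LinearMap.fst F V V + LinearMap.snd F V V)

/-- The Maslov form `((u₁,u₂),(v₁,v₂)) ↦ ω u₁ v₂`. -/
def mas (ω : LinearMap.BilinForm F V) : LinearMap.BilinForm F (V × V) :=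
  ω.compl₁₂ (LinearMap.fst F V V) (LinearMap.snd F V V)

/-- The span of the trivial relations `(p + q, -p + r)`, `p ∈ P`, `q ∈ Q`, `r ∈ R`. -/
def Triv (P Q R : Submodule F V) : Submodule F (V × V) :=
  P.map ((LinearMap.id : V →ₗ[F] V).prod (-LinearMap.id)) ⊔ Q.map (LinearMap.inl F V V) ⊔
    R.map (LinearMap.inr F V V)

theorem mem_Ksp {a b c : Submodule F V} {u : V × V} :
    u ∈ Ksp a b c ↔ u.1 ∈ a ∧ u.2 ∈ b ∧ u.1 + u.2 ∈ c := by
  simp [Ksp, and_assoc]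

theorem mas_apply (ω : LinearMap.BilinForm F V) (u v : V × V) : mas ω u v = ω u.1 v.2 := rfl

theorem mem_Triv {P Q R : Submodule F V} {u : V × V} :
    u ∈ Triv P Q R ↔ ∃ p ∈ P, ∃ q ∈ Q, ∃ r ∈ R, u = (p + q, -p + r) := by
  simp only [Triv, Submodule.mem_sup, Submodule.mem_map]
  constructor
  · rintro ⟨_, ⟨_, ⟨p, hp, rfl⟩, _, ⟨q, hq, rfl⟩, rfl⟩, _, ⟨r, hr, rfl⟩, rfl⟩
    exact ⟨p, hp, q, hq, r, hr, by simp⟩
  · rintro ⟨p, hp, q, hq, r, hr, rfl⟩
    exact ⟨_, ⟨_, ⟨p, hp, rfl⟩, _, ⟨q, hq, rfl⟩, rfl⟩, _, ⟨r, hr, rfl⟩, by simp⟩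

theorem KspAux.finrank_map_ker {W : Type} [AddCommGroup W] [Module F W] [FiniteDimensional F W]
    (f : W →ₗ[F] V) (Q : Submodule F W) :
    finrank F (Q.map f) + finrank F ↥(Q ⊓ LinearMap.ker f) = finrank F Q := by
  have h := LinearMap.finrank_range_add_finrank_ker (f.domRestrict Q)
  rw [LinearMap.range_domRestrict, LinearMap.ker_domRestrict,
    ← Submodule.finrank_map_subtype_eq Q, Submodule.map_comap_subtype] at h
  exact h

theorem KspAux.finrank_prod [FiniteDimensional F V] (a b : Submodule F V) :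
    finrank F (a.prod b) = finrank F a + finrank F b := by
  rw [← Module.finrank_prod]
  exact LinearEquiv.finrank_eq
    { toFun := fun u => (⟨u.1.1, u.2.1⟩, ⟨u.1.2, u.2.2⟩)
      invFun := fun u => ⟨(u.1.1, u.2.1), u.1.2, u.2.2⟩
      map_add' := fun _ _ => rfl
      map_smul' := fun _ _ => rfl
      left_inv := fun _ => rfl
      right_inv := fun _ => rfl }

theorem KspAux.orth_sup (ω : LinearMap.BilinForm F V) (A B : Submodule F V) :
    ω.orthogonal (A ⊔ B) = ω.orthogonal A ⊓ ω.orthogonal B := by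
  refine le_antisymm (le_inf (LinearMap.BilinForm.orthogonal_le le_sup_left)
    (LinearMap.BilinForm.orthogonal_le le_sup_right)) ?_
  rintro v ⟨h1, h2⟩ u hu
  obtain ⟨a, ha, b, hb, rfl⟩ := Submodule.mem_sup.1 hu
  have e1 : ω a v = 0 := h1 a ha
  have e2 : ω b v = 0 := h2 b hb
  rw [map_add, LinearMap.add_apply, e1, e2, add_zero]

variable [FiniteDimensional F V] {ω : LinearMap.BilinForm F V} {n : ℕ}

theorem KspAux.orth_inf (h : Symp ω n) (A B : Submodule F V) :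
    ω.orthogonal (A ⊓ B) = ω.orthogonal A ⊔ ω.orthogonal B := by
  have oo := LinearMap.BilinForm.orthogonal_orthogonal h.nondeg h.alt.isRefl
  rw [← oo (ω.orthogonal A ⊔ ω.orthogonal B), KspAux.orth_sup, oo, oo]

theorem KspAux.lag_orth (h : Symp ω n) {L : Submodule F V} (hL : IsLag ω n L) :
    ω.orthogonal L = L := by
  have hle : L ≤ ω.orthogonal L := fun v hv u hu => hL.1 u hu v hv
  refine (Submodule.eq_of_le_of_finrank_le hle ?_).symm
  rw [LinearMap.BilinForm.finrank_orthogonal h.nondeg, h.dim, hL.2]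
  omega

theorem finrank_Ksp (a b c : Submodule F V) :
    finrank F (Ksp a b c) + finrank F ↥(a ⊔ b ⊔ c) = finrank F a + finrank F b + finrank F c := by
  set f := LinearMap.fst F V V + LinearMap.snd F V V with hf
  have e1 : (a.prod b).map f = a ⊔ b := by
    ext v
    simp only [Submodule.mem_map, Submodule.mem_sup, Submodule.mem_prod]
    constructor
    · rintro ⟨u, ⟨h1, h2⟩, rfl⟩
      exact ⟨u.1, h1, u.2, h2, rfl⟩
    · rintro ⟨x, hx, y, hy, rfl⟩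
      exact ⟨(x, y), ⟨hx, hy⟩, rfl⟩
  have e2 : (Ksp a b c).map f = (a ⊔ b) ⊓ c := by
    rw [Ksp, ← Submodule.map_inf_eq_map_inf_comap, e1]
  have e3 : Ksp a b c ⊓ LinearMap.ker f = a.prod b ⊓ LinearMap.ker f := by
    rw [Ksp, inf_assoc, inf_eq_right.2 (LinearMap.ker_le_comap f)]
  have h1 := KspAux.finrank_map_ker f (a.prod b)
  have h2 := KspAux.finrank_map_ker f (Ksp a b c)
  have h3 := Submodule.finrank_sup_add_finrank_inf_eq (a ⊔ b) c
  rw [e1, KspAux.finrank_prod] at h1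
  rw [e2, e3] at h2
  omega

theorem finrank_Triv (P Q R : Submodule F V) :
    finrank F (Triv P Q R) + finrank F ↥(P ⊓ Q ⊓ R) =
      finrank F P + finrank F Q + finrank F R := by
  set δ : V →ₗ[F] V × V := (LinearMap.id : V →ₗ[F] V).prod (-LinearMap.id) with hδ
  have hinj : Function.Injective δ := fun u v h => congrArg Prod.fst h
  have e1 : Triv P Q R = P.map δ ⊔ Q.prod R := by
    rw [Triv, sup_assoc, LinearMap.prod_eq_sup_map]
  have e2 : P.map δ ⊓ Q.prod R = (P ⊓ Q ⊓ R).map δ := by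
    rw [Submodule.map_inf_eq_map_inf_comap]
    congr 1
    ext v
    simp [hδ, and_assoc]
  have h1 := Submodule.finrank_sup_add_finrank_inf_eq (P.map δ) (Q.prod R)
  rw [e2, ← e1, KspAux.finrank_prod, ← (Submodule.equivMapOfInjective δ hinj P).finrank_eq,
    ← (Submodule.equivMapOfInjective δ hinj (P ⊓ Q ⊓ R)).finrank_eq] at h1
  omega

theorem Triv_le_Ksp (a b c : Submodule F V) : Triv (a ⊓ b) (a ⊓ c) (b ⊓ c) ≤ Ksp a b c := by
  intro u hu
  obtain ⟨p, hp, q, hq, r, hr, rfl⟩ := mem_Triv.1 hu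
  refine mem_Ksp.2 ⟨a.add_mem hp.1 hq.1, b.add_mem (b.neg_mem hp.2) hr.1, ?_⟩
  have : p + q + (-p + r) = q + r := by abel
  simp only [this]
  exact c.add_mem hq.2 hr.2

theorem Triv_mono {P Q R P' Q' R' : Submodule F V} (hP : P ≤ P') (hQ : Q ≤ Q') (hR : R ≤ R') :
    Triv P Q R ≤ Triv P' Q' R' := by
  exact sup_le_sup (sup_le_sup (Submodule.map_mono hP) (Submodule.map_mono hQ))
    (Submodule.map_mono hR)

theorem Ksp_mono {a b c a' b' c' : Submodule F V} (ha : a ≤ a') (hb : b ≤ b') (hc : c ≤ c') :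
    Ksp a b c ≤ Ksp a' b' c' := by
  intro u hu
  rw [mem_Ksp] at hu ⊢
  exact ⟨ha hu.1, hb hu.2.1, hc hu.2.2⟩

theorem map_fst_Ksp (a b c : Submodule F V) :
    (Ksp a b c).map (LinearMap.fst F V V) = a ⊓ (b ⊔ c) := by
  ext v
  simp only [Submodule.mem_map, mem_Ksp, Submodule.mem_inf, Submodule.mem_sup]
  constructor
  · rintro ⟨u, ⟨h1, h2, h3⟩, rfl⟩
    exact ⟨h1, -u.2, b.neg_mem h2, _, h3, by simp⟩
  · rintro ⟨h1, y, hy, z, hz, rfl⟩
    exact ⟨(y + z, -y), ⟨h1, b.neg_mem hy, by simpa using hz⟩, rfl⟩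

theorem map_snd_Ksp (a b c : Submodule F V) :
    (Ksp a b c).map (LinearMap.snd F V V) = b ⊓ (a ⊔ c) := by
  ext v
  simp only [Submodule.mem_map, mem_Ksp, Submodule.mem_inf, Submodule.mem_sup]
  constructor
  · rintro ⟨u, ⟨h1, h2, h3⟩, rfl⟩
    exact ⟨h2, -u.1, a.neg_mem h1, _, h3, by simp⟩
  · rintro ⟨h1, y, hy, z, hz, rfl⟩
    exact ⟨(-y, y + z), ⟨a.neg_mem hy, h1, by simpa using hz⟩, rfl⟩

theorem map_add_Ksp (a b c : Submodule F V) :
    (Ksp a b c).map (LinearMap.fst F V V + LinearMap.snd F V V) = c ⊓ (a ⊔ b) := by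
  ext v
  simp only [Submodule.mem_map, mem_Ksp, Submodule.mem_inf, Submodule.mem_sup]
  constructor
  · rintro ⟨u, ⟨h1, h2, h3⟩, rfl⟩
    exact ⟨h3, u.1, h1, u.2, h2, rfl⟩
  · rintro ⟨h1, y, hy, z, hz, rfl⟩
    exact ⟨(y, z), ⟨hy, hz, h1⟩, rfl⟩

theorem mas_symm (h : Symp ω n) {a b c : Submodule F V} (ha : Isot ω a) (hb : Isot ω b)
    (hc : Isot ω c) : ∀ u ∈ Ksp a b c, ∀ v ∈ Ksp a b c, mas ω u v = mas ω v u := by
  intro u hu v hv
  rw [mem_Ksp] at hu hv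
  have h1 := hc _ hu.2.2 _ hv.2.2
  have h2 := ha _ hu.1 _ hv.1
  have h3 := hb _ hu.2.1 _ hv.2.1
  have h4 := h.alt.neg_eq u.2 v.1
  simp only [map_add, LinearMap.add_apply, h2, h3, zero_add, add_zero] at h1
  rw [mas_apply, mas_apply, ← h4]
  exact eq_neg_of_add_eq_zero_left (by rw [← h1, add_comm])

theorem isot_Ksp {M a b c : Submodule F V} (hM : Isot ω M) (ha : a ≤ M) (hb : b ≤ M) :
    Isot (mas ω) (Ksp a b c) := by
  intro u hu v hv
  rw [mem_Ksp] at hu hv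
  exact hM _ (ha hu.1) _ (hb hv.2.1)

theorem finrank_Ksp_lag (h : Symp ω n) {x₁ x₂ x₃ : Submodule F V} (h₁ : IsLag ω n x₁)
    (h₂ : IsLag ω n x₂) (h₃ : IsLag ω n x₃) :
    finrank F (Ksp x₁ x₂ x₃) = n + finrank F ↥(x₁ ⊓ x₂ ⊓ x₃) := by
  have e1 := finrank_Ksp x₁ x₂ x₃
  have e2 := LinearMap.BilinForm.finrank_orthogonal h.nondeg (x₁ ⊔ x₂ ⊔ x₃)
  have e3 := Submodule.finrank_le (x₁ ⊔ x₂ ⊔ x₃)
  rw [KspAux.orth_sup, KspAux.orth_sup, KspAux.lag_orth h h₁, KspAux.lag_orth h h₂,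
    KspAux.lag_orth h h₃] at e2
  rw [h₁.2, h₂.2, h₃.2] at e1
  rw [h.dim] at e2 e3
  omega

/-- The radical of the Maslov form. -/
theorem rad_Ksp (h : Symp ω n) {x₁ x₂ x₃ : Submodule F V} (h₁ : IsLag ω n x₁)
    (h₂ : IsLag ω n x₂) (h₃ : IsLag ω n x₃) :
    Ksp x₁ x₂ x₃ ⊓ (mas ω).orthogonal (Ksp x₁ x₂ x₃) = Triv (x₁ ⊓ x₂) (x₁ ⊓ x₃) (x₂ ⊓ x₃) := by
  apply le_antisymm
  · rintro u ⟨hu, hrad⟩
    have hu' := mem_Ksp.1 hu
    have hs := mas_symm h h₁.1 h₂.1 h₃.1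
    have a1 : u.1 ∈ ω.orthogonal (x₂ ⊓ (x₁ ⊔ x₃)) := by
      rw [← map_snd_Ksp]
      rintro _ ⟨v, hv, rfl⟩
      have e : mas ω v u = 0 := hrad v hv
      rw [hs v hv u hu, mas_apply] at e
      exact h.alt.isRefl _ _ e
    have a2 : u.2 ∈ ω.orthogonal (x₁ ⊓ (x₂ ⊔ x₃)) := by
      rw [← map_fst_Ksp]
      rintro _ ⟨v, hv, rfl⟩
      exact hrad v hv
    rw [KspAux.orth_inf h, KspAux.orth_sup, KspAux.lag_orth h h₁, KspAux.lag_orth h h₂,
      KspAux.lag_orth h h₃] at a1 a2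
    obtain ⟨p, hp, q, hq, e1⟩ := Submodule.mem_sup.1 a1
    obtain ⟨p', hp', r, hr, e2⟩ := Submodule.mem_sup.1 a2
    have b1 : p ∈ x₁ := by
      have : p = u.1 - q := by rw [← e1]; abel
      rw [this]; exact x₁.sub_mem hu'.1 hq.1
    have b2 : p' ∈ x₂ := by
      have : p' = u.2 - r := by rw [← e2]; abel
      rw [this]; exact x₂.sub_mem hu'.2.1 hr.1
    have b3 : p + p' ∈ x₃ := by
      have : p + p' = u.1 + u.2 - q - r := by rw [← e1, ← e2]; abel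
      rw [this]; exact x₃.sub_mem (x₃.sub_mem hu'.2.2 hq.2) hr.2
    refine mem_Triv.2 ⟨p, ⟨b1, hp⟩, q, hq, r + (p + p'),
      ⟨x₂.add_mem hr.1 (x₂.add_mem hp b2), x₃.add_mem hr.2 b3⟩, ?_⟩
    refine Prod.ext e1.symm ?_
    rw [← e2]
    simp only
    abel
  · refine le_inf (Triv_le_Ksp _ _ _) fun u hu v hv => ?_
    obtain ⟨p, hp, q, hq, r, hr, rfl⟩ := mem_Triv.1 hu
    have hv' := mem_Ksp.1 hv
    have c1 := h₁.1 _ hv'.1 _ hp.1
    have c2 := h₃.1 _ hv'.2.2 _ hr.2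
    have c3 := h₂.1 _ hv'.2.1 _ hr.1
    simp only [map_add, LinearMap.add_apply, c3, add_zero] at c2
    rw [mas_apply]
    simp only [map_add, map_neg, c1, c2, neg_zero, add_zero]

end Vale.Agent.P050
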