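import Mathlib

namespace Vale.Agent.P050

open Finset Module
open scoped BigOperators

namespace Sample

lemma marg_prod {ι κ Ω : Type} [Fintype ι] [DecidableEq ι] [Fintype κ] [Fintype Ω]
    (w : ι → Ω → ℝ) (hw : ∀ i, ∑ ω, w i ω = 1) (φ : κ → ι) (hφ : Function.Injective φ)
    (f : κ → Ω → ℝ) :
    ∑ x : ι → Ω, (∏ i, w i (x i)) * ∏ k, f k (x (φ k)) = ∏ k, ∑ ω, w (φ k) ω * f k ω := by
  set g : ι → Ω → ℝ := Function.extend φ f (fun _ _ => 1) with hg
  have hg1 : ∀ k, g (φ k) = f k := fun k => hφ.extend_apply _ _ k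
  have hg2 : ∀ i, i ∉ Set.range φ → g i = fun _ => 1 := fun i hi =>
    Function.extend_apply' _ _ i (by simpa using hi)
  have h1 : ∀ x : ι → Ω, ∏ k, f k (x (φ k)) = ∏ i, g i (x i) := fun x =>
    Fintype.prod_of_injective φ hφ _ _ (fun i hi => by rw [hg2 i hi]) (fun k => by rw [hg1])
  simp only [h1, ← prod_mul_distrib]
  rw [← Fintype.piFinset_univ, ← prod_univ_sum (fun _ => univ) (fun i ω => w i ω * g i ω)]
  symm
  exact Fintype.prod_of_injective φ hφ _ _ (fun i hi => by simp [hg2 i hi, hw])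
    (fun k => by rw [hg1])

lemma marg {ι κ Ω : Type} [Fintype ι] [DecidableEq ι] [Fintype κ] [DecidableEq κ] [Fintype Ω]
    (wt : Ω → ℝ) (hw : ∑ ω, wt ω = 1) (φ : κ → ι) (hφ : Function.Injective φ)
    (h : (κ → Ω) → ℝ) :
    ∑ x : ι → Ω, (∏ i, wt (x i)) * h (fun k => x (φ k))
      = ∑ y : κ → Ω, (∏ k, wt (y k)) * h y := by
  classical
  have h1 : ∀ x : ι → Ω, h (fun k => x (φ k))
      = ∑ y : κ → Ω, (∏ k, if x (φ k) = y k then (1 : ℝ) else 0) * h y := by
    intro x
    rw [Finset.sum_eq_single (fun k => x (φ k))]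
    · simp
    · intro y _ hy
      have : ∃ k, x (φ k) ≠ y k := by
        by_contra hcon; push Not at hcon; exact hy (funext fun k => (hcon k).symm)
      obtain ⟨k, hk⟩ := this
      rw [prod_eq_zero (mem_univ k) (by simp [hk]), zero_mul]
    · simp
  simp only [h1, mul_sum]
  rw [sum_comm]
  refine sum_congr rfl fun y _ => ?_
  simp only [← mul_assoc]
  rw [← sum_mul, marg_prod (fun _ => wt) (fun _ => hw) φ hφ
    (fun k ω => if ω = y k then (1 : ℝ) else 0)]
  simp

lemma exists_lt {S : Type} [Fintype S] (P : S → ℝ) (hP0 : ∀ s, 0 ≤ P s) (hP1 : ∑ s, P s = 1)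
    (f : S → ℝ) (c : ℝ) (h : ∑ s, P s * f s < c) : ∃ s, f s < c := by
  by_contra hcon
  push Not at hcon
  have : ∑ s, P s * c ≤ ∑ s, P s * f s :=
    sum_le_sum fun s _ => mul_le_mul_of_nonneg_left (hcon s) (hP0 s)
  rw [← sum_mul, hP1, one_mul] at this
  linarith

lemma sum_prod_one {ι Ω : Type} [Fintype ι] [DecidableEq ι] [Fintype Ω]
    (w : ι → Ω → ℝ) (hw : ∀ i, ∑ ω, w i ω = 1) : ∑ x : ι → Ω, ∏ i, w i (x i) = 1 := by
  rw [← Fintype.piFinset_univ, ← prod_univ_sum (fun _ => univ) (fun i ω => w i ω)]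
  simp [hw]

open Classical in
lemma noninj_le (VH : Type) [Fintype VH] [DecidableEq VH] (N : ℕ) (hN : Fintype.card VH ≤ N)
    (hN0 : 0 < N) :
    (∑ φ : VH → Fin N, if Function.Injective φ then (0 : ℝ) else 1) / (N : ℝ) ^ Fintype.card VH
      ≤ (Fintype.card VH : ℝ) ^ 2 / N := by
  set v := Fintype.card VH with hv
  have hN' : (0 : ℝ) < N := by exact_mod_cast hN0
  have h1 : (∑ φ : VH → Fin N, if Function.Injective φ then (1 : ℝ) else 0)
      = (N.descFactorial v : ℝ) := by
    rw [sum_boole]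
    congr 1
    have := Fintype.card_embedding_eq (α := VH) (β := Fin N)
    rw [Fintype.card_fin] at this
    rw [← this, ← Fintype.card_subtype]
    exact Fintype.card_congr (Equiv.subtypeInjectiveEquivEmbedding VH (Fin N))
  have h2 : (∑ φ : VH → Fin N, if Function.Injective φ then (0 : ℝ) else 1)
      = (N : ℝ) ^ v - (N.descFactorial v : ℝ) := by
    rw [← h1, eq_sub_iff_add_eq, ← sum_add_distrib]
    have : ∀ φ : VH → Fin N, ((if Function.Injective φ then (0 : ℝ) else 1)
        + if Function.Injective φ then (1 : ℝ) else 0) = 1 := by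
      intro φ; split_ifs <;> simp
    simp [this, hv]
  have h3 : ((N : ℝ) - v) ^ v ≤ (N.descFactorial v : ℝ) := by
    have h4 := Nat.pow_sub_le_descFactorial N v
    have h5 : (N - v) ^ v ≤ (N + 1 - v) ^ v := Nat.pow_le_pow_left (by omega) _
    have h6 : (((N - v) ^ v : ℕ) : ℝ) ≤ (N.descFactorial v : ℝ) := by exact_mod_cast h5.trans h4
    rwa [Nat.cast_pow, Nat.cast_sub hN] at h6
  have hvN : (v : ℝ) ≤ N := by exact_mod_cast hN
  have h7 : 1 + (v : ℝ) * (-(v / N)) ≤ (1 + -((v : ℝ) / N)) ^ v := by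
    apply one_add_mul_le_pow
    have : (v : ℝ) / N ≤ 1 := (div_le_one hN').2 hvN
    linarith
  have h8 : ((N : ℝ) - v) ^ v = (N : ℝ) ^ v * (1 + -((v : ℝ) / N)) ^ v := by
    rw [← mul_pow]; congr 1; field_simp; ring
  rw [h2, div_le_iff₀ (by positivity)]
  have h9 : (0 : ℝ) < (N : ℝ) ^ v := by positivity
  have h10 := mul_le_mul_of_nonneg_left h7 h9.le
  have h11 : (v : ℝ) ^ 2 / N * (N : ℝ) ^ v = -((N : ℝ) ^ v * ((v : ℝ) * (-(v / N)))) := by ring
  rw [h11]
  nlinarith

lemma tangent_le {p ρ : ℝ} (hp : 0 < p) (hρ : 0 ≤ ρ) (e : ℕ) :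
    p ^ e - e * p ^ e + e * (p ^ e / p) * ρ ≤ ρ ^ e := by
  have h1 : 1 + (e : ℝ) * (ρ / p - 1) ≤ (1 + (ρ / p - 1)) ^ e := by
    apply one_add_mul_le_pow
    have : 0 ≤ ρ / p := by positivity
    linarith
  have h2 : ρ ^ e = p ^ e * (1 + (ρ / p - 1)) ^ e := by
    rw [← mul_pow]; congr 1; field_simp; ring
  rw [h2]
  have h3 := mul_le_mul_of_nonneg_left h1 (pow_pos hp e).le
  refine le_trans (le_of_eq ?_) h3
  field_simp
  ring

/-- the real indicator of a Boolean -/
def ind (b : Bool) : ℝ := if b then 1 else 0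

lemma ind_nonneg (b : Bool) : 0 ≤ ind b := by cases b <;> simp [ind]
lemma ind_le_one (b : Bool) : ind b ≤ 1 := by cases b <;> simp [ind]

lemma hom_le {VH C : Type} [Fintype VH] [DecidableEq VH] [Fintype C]
    (H : SimpleGraph VH) (l r : C → VH)
    (hadj : ∀ u v, H.Adj u v ↔ ∃ c, s(u, v) = s(l c, r c)) (N : ℕ) (b : Sym2 (Fin N) → Bool) :
    (Nat.card (H →g SimpleGraph.fromEdgeSet {s | b s = true}) : ℝ)
      ≤ ∑ φ : VH → Fin N, ∏ c, ind (b s(φ (l c), φ (r c))) := by
  classical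
  have h1 : ∑ φ : VH → Fin N, ∏ c, ind (b s(φ (l c), φ (r c)))
      = ((univ.filter fun φ : VH → Fin N => ∀ c, b s(φ (l c), φ (r c)) = true).card : ℝ) := by
    rw [← sum_boole]
    refine sum_congr rfl fun φ _ => ?_
    simp only [ind, prod_ite_zero, mem_univ, true_imp_iff, prod_const_one]
  rw [h1, ← Fintype.card_subtype, ← Nat.card_eq_fintype_card]
  norm_cast
  refine Nat.card_le_card_of_injective (fun f => ⟨f, fun c => ?_⟩) ?_
  · have := f.map_adj ((hadj (l c) (r c)).2 ⟨c, rfl⟩)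
    rw [SimpleGraph.fromEdgeSet_adj] at this
    exact this.1
  · intro f g hfg
    exact DFunLike.coe_injective (congrArg Subtype.val hfg)

lemma edge_eq (N : ℕ) (b : Sym2 (Fin N) → Bool) :
    2 * (Nat.card (SimpleGraph.fromEdgeSet {s | b s = true} : SimpleGraph (Fin N)).edgeSet : ℝ)
      = ∑ i : Fin N, ∑ j : Fin N, if i ≠ j then ind (b s(i, j)) else 0 := by
  classical
  set G : SimpleGraph (Fin N) := SimpleGraph.fromEdgeSet {s | b s = true} with hG
  have h0 : ∀ G' : SimpleGraph (Fin N),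
      2 * Nat.card G'.edgeSet = #(univ.filter fun q : Fin N × Fin N => G'.Adj q.1 q.2) := by
    intro G'
    have := G'.two_mul_card_edgeFinset
    rw [SimpleGraph.edgeFinset_card, ← Nat.card_eq_fintype_card] at this
    exact this
  have h1 := h0 G
  have h2 : (2 * (Nat.card G.edgeSet : ℝ)) = ((2 * Nat.card G.edgeSet : ℕ) : ℝ) := by
    push_cast; ring
  rw [h2, h1, ← sum_boole, Fintype.sum_prod_type]
  refine sum_congr rfl fun i _ => sum_congr rfl fun j _ => ?_
  simp only [hG, SimpleGraph.fromEdgeSet_adj, Set.mem_ofPred_eq, ind]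
  by_cases h3 : i = j <;> by_cases h4 : b s(i, j) = true <;> simp [h3, h4]

lemma sampling_le_one {VH C Ω : Type} [Fintype VH] [DecidableEq VH] [Fintype C] [Fintype Ω]
    (H : SimpleGraph VH) (l r : C → VH)
    (hadj : ∀ u v, H.Adj u v ↔ ∃ c, s(u, v) = s(l c, r c))
    (hinj : Function.Injective fun c => s(l c, r c))
    (wt : Ω → ℝ) (hw0 : ∀ ω, 0 ≤ wt ω) (hw1 : ∑ ω, wt ω = 1)
    (K : Ω → Ω → ℝ) (hKs : ∀ ω ω', K ω ω' = K ω' ω) (hK0 : ∀ ω ω', 0 ≤ K ω ω')
    (hK1 : ∀ ω ω', K ω ω' ≤ 1)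
    (hlt : ∑ ψ : VH → Ω, (∏ v, wt (ψ v)) * ∏ c, K (ψ (l c)) (ψ (r c)) <
      (∑ ω, ∑ ω', wt ω * wt ω' * K ω ω') ^ Fintype.card C) :
    ∃ N : ℕ, 0 < N ∧ ∃ G : SimpleGraph (Fin N),
      (Nat.card (H →g G) : ℝ) / (N : ℝ) ^ Fintype.card VH <
        (2 * (Nat.card G.edgeSet : ℝ) / (N : ℝ) ^ 2) ^ Fintype.card C := by
  classical
  set t := ∑ ψ : VH → Ω, (∏ v, wt (ψ v)) * ∏ c, K (ψ (l c)) (ψ (r c)) with ht
  set p := ∑ ω, ∑ ω', wt ω * wt ω' * K ω ω' with hp
  set e := Fintype.card C with he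
  set v := Fintype.card VH with hv
  have ht0 : 0 ≤ t := sum_nonneg fun ψ _ =>
    mul_nonneg (prod_nonneg fun _ _ => hw0 _) (prod_nonneg fun _ _ => hK0 _ _)
  have hp0 : 0 ≤ p := sum_nonneg fun _ _ => sum_nonneg fun _ _ =>
    mul_nonneg (mul_nonneg (hw0 _) (hw0 _)) (hK0 _ _)
  have hppos : 0 < p := by
    rcases hp0.eq_or_lt with h0 | h0
    · exfalso
      rcases Nat.eq_zero_or_pos e with h1 | h1
      · have : IsEmpty C := Fintype.card_eq_zero_iff.1 h1
        have h2 : t = 1 := by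
          simp only [ht, Fintype.prod_empty, mul_one]
          exact sum_prod_one (fun _ => wt) (fun _ => hw1)
        rw [h1, pow_zero, h2] at hlt
        exact lt_irrefl _ hlt
      · rw [← h0, zero_pow h1.ne'] at hlt
        linarith
    · exact h0
  have hgap : 0 < p ^ e - t := by linarith
  obtain ⟨N, hN⟩ := exists_nat_gt (((v : ℝ) ^ 2 + e * p ^ e) / (p ^ e - t) + v)
  have hq0 : 0 ≤ ((v : ℝ) ^ 2 + e * p ^ e) / (p ^ e - t) := by positivity
  have hvN : v ≤ N := by
    have : (v : ℝ) ≤ N := by linarith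
    exact_mod_cast this
  have hN' : (0 : ℝ) < N := by
    have : (0 : ℝ) ≤ v := Nat.cast_nonneg _
    linarith
  have hN0 : 0 < N := by exact_mod_cast hN'
  have hsmall : ((v : ℝ) ^ 2 + e * p ^ e) / N < p ^ e - t := by
    rw [div_lt_iff₀ hN']
    have h1 : ((v : ℝ) ^ 2 + e * p ^ e) / (p ^ e - t) < N := by
      have : (0 : ℝ) ≤ v := Nat.cast_nonneg _
      linarith
    rw [div_lt_iff₀ hgap] at h1
    linarith
  set a : ℝ := e * (p ^ e / p) with ha
  -- first stage: the points
  obtain ⟨x, hx⟩ := exists_lt (fun x : Fin N → Ω => ∏ i, wt (x i))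
    (fun x => prod_nonneg fun _ _ => hw0 _) (sum_prod_one (fun _ => wt) (fun _ => hw1))
    (fun x => (∑ φ : VH → Fin N, if Function.Injective φ
        then ∏ c, K (x (φ (l c))) (x (φ (r c))) else 1) / (N : ℝ) ^ v
      - a * ((∑ i : Fin N, ∑ j : Fin N, if i ≠ j then K (x i) (x j) else 0) / (N : ℝ) ^ 2))
    (p ^ e - e * p ^ e) (by
      have hA : ∑ x : Fin N → Ω, (∏ i, wt (x i)) * (∑ φ : VH → Fin N, if Function.Injective φ
          then ∏ c, K (x (φ (l c))) (x (φ (r c))) else 1)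
          ≤ (N : ℝ) ^ v * t + ∑ φ : VH → Fin N, if Function.Injective φ then (0 : ℝ) else 1 := by
        simp only [mul_sum]
        rw [sum_comm]
        have h1 : (N : ℝ) ^ v * t = ∑ _φ : VH → Fin N, t := by simp [hv]
        rw [h1, ← sum_add_distrib]
        refine sum_le_sum fun φ _ => ?_
        split_ifs with hφ
        · rw [marg wt hw1 φ hφ (fun ψ => ∏ c, K (ψ (l c)) (ψ (r c)))]; simp [ht]
        · simp only [mul_one]
          rw [sum_prod_one (fun _ => wt) (fun _ => hw1)]; linarith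
      have hB : ∑ x : Fin N → Ω, (∏ i, wt (x i)) *
          (∑ i : Fin N, ∑ j : Fin N, if i ≠ j then K (x i) (x j) else 0) = N * (N - 1) * p := by
        simp only [mul_sum]
        rw [sum_comm]
        have h1 : ∀ i : Fin N, ∑ x : Fin N → Ω, ∑ j : Fin N,
            (∏ i, wt (x i)) * (if i ≠ j then K (x i) (x j) else 0) = (N - 1) * p := by
          intro i
          rw [sum_comm]
          have h2 : ∀ j : Fin N, ∑ x : Fin N → Ω,
              (∏ i, wt (x i)) * (if i ≠ j then K (x i) (x j) else 0) = if i ≠ j then p else 0 := by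
            intro j
            split_ifs with hij
            · have hφ : Function.Injective (![i, j] : Fin 2 → Fin N) := by
                intro a b hab
                fin_cases a <;> fin_cases b <;> simp_all [eq_comm]
              have h3 := marg wt hw1 ![i, j] hφ (fun y => K (y 0) (y 1))
              simp only [Matrix.cons_val_zero, Matrix.cons_val_one] at h3
              rw [h3, hp, ← (piFinTwoEquiv fun _ => Ω).symm.sum_comp, Fintype.sum_prod_type]
              simp [Fin.prod_univ_two]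
            · simp
          simp only [h2]
          rw [← sum_filter, sum_const, filter_ne, card_erase_of_mem (mem_univ _), card_univ,
            Fintype.card_fin, nsmul_eq_mul, Nat.cast_sub hN0]
          simp
        simp only [h1]
        simp [mul_assoc]
      simp only [mul_sub, sum_sub_distrib, mul_div_assoc', mul_left_comm _ a]
      rw [← sum_div, ← sum_div, ← mul_sum, hB]
      have h4 := noninj_le VH N hvN hN0
      have h5 := div_le_div_of_nonneg_right hA (show (0 : ℝ) ≤ (N : ℝ) ^ v by positivity)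
      rw [add_div, mul_div_cancel_left₀ _ (by positivity)] at h5
      have h6 : a * (N * (N - 1) * p) / (N : ℝ) ^ 2 = e * p ^ e - e * p ^ e / N := by
        rw [ha]; field_simp
      rw [h6]
      rw [add_div] at hsmall
      linarith)
  -- second stage: the edges
  set Ks : Sym2 (Fin N) → ℝ := Sym2.lift ⟨fun i j => K (x i) (x j), fun i j => hKs _ _⟩ with hKsd
  have hKs1 : ∀ i j, Ks s(i, j) = K (x i) (x j) := fun i j => by simp [hKsd]
  set w : Sym2 (Fin N) → Bool → ℝ := fun s b => if b then Ks s else 1 - Ks s with hw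
  have hw1' : ∀ s, ∑ b, w s b = 1 := fun s => by simp [hw]
  have hw0' : ∀ s b, 0 ≤ w s b := by
    intro s b
    induction s using Sym2.ind with
    | _ i j => cases b <;> simp [hw, hKs1, hK0, hK1]
  have hwi : ∀ s, ∑ b, w s b * ind b = Ks s := fun s => by simp [hw, ind]
  obtain ⟨b, hb⟩ := exists_lt (fun b : Sym2 (Fin N) → Bool => ∏ s, w s (b s))
    (fun b => prod_nonneg fun _ _ => hw0' _ _) (sum_prod_one w hw1')
    (fun b => (∑ φ : VH → Fin N, ∏ c, ind (b s(φ (l c), φ (r c)))) / (N : ℝ) ^ v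
      - a * ((∑ i : Fin N, ∑ j : Fin N, if i ≠ j then ind (b s(i, j)) else 0) / (N : ℝ) ^ 2))
    (p ^ e - e * p ^ e) (by
      refine lt_of_le_of_lt ?_ hx
      have hA : ∑ b : Sym2 (Fin N) → Bool, (∏ s, w s (b s)) *
          (∑ φ : VH → Fin N, ∏ c, ind (b s(φ (l c), φ (r c))))
          ≤ ∑ φ : VH → Fin N, if Function.Injective φ
            then ∏ c, K (x (φ (l c))) (x (φ (r c))) else 1 := by
        simp only [mul_sum]
        rw [sum_comm]
        refine sum_le_sum fun φ _ => ?_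
        split_ifs with hφ
        · have hi : Function.Injective fun c => s(φ (l c), φ (r c)) := by
            intro c c' hcc
            apply hinj
            have := Sym2.map.injective hφ (a₁ := s(l c, r c)) (a₂ := s(l c', r c'))
              (by simpa using hcc)
            exact this
          rw [marg_prod w hw1' _ hi (fun _ => ind)]
          simp only [hwi, hKs1, le_refl]
        · rw [← sum_prod_one w hw1']
          refine sum_le_sum fun b _ => ?_
          exact mul_le_of_le_one_right (prod_nonneg fun _ _ => hw0' _ _)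
            (prod_le_one (fun _ _ => ind_nonneg _) fun _ _ => ind_le_one _)
      have hB : ∑ b : Sym2 (Fin N) → Bool, (∏ s, w s (b s)) *
          (∑ i : Fin N, ∑ j : Fin N, if i ≠ j then ind (b s(i, j)) else 0)
          = ∑ i : Fin N, ∑ j : Fin N, if i ≠ j then K (x i) (x j) else 0 := by
        simp only [mul_sum]
        rw [sum_comm]
        refine sum_congr rfl fun i _ => ?_
        rw [sum_comm]
        refine sum_congr rfl fun j _ => ?_
        split_ifs with hij
        · have := marg_prod w hw1' (fun _ : Unit => s(i, j))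
            (fun _ _ _ => Subsingleton.elim _ _) (fun _ => ind)
          simp only [hwi, hKs1, Fintype.prod_unique] at this
          exact this
        · simp
      simp only [mul_sub, sum_sub_distrib, mul_div_assoc', mul_left_comm _ a]
      rw [← sum_div, ← sum_div, ← mul_sum, hB]
      have h5 := div_le_div_of_nonneg_right hA (show (0 : ℝ) ≤ (N : ℝ) ^ v by positivity)
      linarith)
  refine ⟨N, hN0, SimpleGraph.fromEdgeSet {s | b s = true}, ?_⟩
  rw [edge_eq]
  have h1 := div_le_div_of_nonneg_right (hom_le H l r hadj N b)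
    (show (0 : ℝ) ≤ (N : ℝ) ^ v by positivity)
  have h2 := tangent_le hppos (ρ := (∑ i : Fin N, ∑ j : Fin N,
    if i ≠ j then ind (b s(i, j)) else 0) / (N : ℝ) ^ 2) (by
      refine div_nonneg (sum_nonneg fun i _ => sum_nonneg fun j _ => ?_) (by positivity)
      split_ifs
      · exact ind_nonneg _
      · exact le_rfl) e
  linarith

end Sample

/-- From a weighted kernel violating the inequality to a simple graph violating it. -/
theorem sampling {VH C Ω : Type} [Fintype VH] [DecidableEq VH] [Fintype C] [Fintype Ω]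
    (H : SimpleGraph VH) (l r : C → VH)
    (hadj : ∀ u v, H.Adj u v ↔ ∃ c, s(u, v) = s(l c, r c))
    (hinj : Function.Injective fun c => s(l c, r c))
    (wt : Ω → ℝ) (hw0 : ∀ ω, 0 ≤ wt ω) (hw1 : ∑ ω, wt ω = 1)
    (K : Ω → Ω → ℝ) (hKs : ∀ ω ω', K ω ω' = K ω' ω) (hK0 : ∀ ω ω', 0 ≤ K ω ω')
    (hlt : ∑ ψ : VH → Ω, (∏ v, wt (ψ v)) * ∏ c, K (ψ (l c)) (ψ (r c)) <
      (∑ ω, ∑ ω', wt ω * wt ω' * K ω ω') ^ Fintype.card C) :
    ∃ N : ℕ, 0 < N ∧ ∃ G : SimpleGraph (Fin N),
      (Nat.card (H →g G) : ℝ) / (N : ℝ) ^ Fintype.card VH <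
        (2 * (Nat.card G.edgeSet : ℝ) / (N : ℝ) ^ 2) ^ Fintype.card C := by
  set B : ℝ := 1 + ∑ ω, ∑ ω', K ω ω' with hB
  have hS : 0 ≤ ∑ ω, ∑ ω', K ω ω' := sum_nonneg fun _ _ => sum_nonneg fun _ _ => hK0 _ _
  have hB0 : 0 < B := by linarith
  refine Sample.sampling_le_one H l r hadj hinj wt hw0 hw1 (fun ω ω' => K ω ω' / B)
    (fun ω ω' => by rw [hKs]) (fun ω ω' => div_nonneg (hK0 _ _) hB0.le) (fun ω ω' => ?_) ?_
  · rw [div_le_one hB0]
    have h1 : K ω ω' ≤ ∑ ω', K ω ω' := 
      single_le_sum (f := fun ω' => K ω ω') (fun _ _ => hK0 _ _) (mem_univ ω')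
    have h2 : ∑ ω', K ω ω' ≤ ∑ ω, ∑ ω', K ω ω' :=
      single_le_sum (f := fun ω => ∑ ω', K ω ω') (fun _ _ => sum_nonneg fun _ _ => hK0 _ _)
        (mem_univ ω)
    linarith
  · simp only [prod_div_distrib, prod_const, card_univ, mul_div_assoc', ← sum_div, div_pow]
    exact div_lt_div_of_pos_right hlt (by positivity)

end Vale.Agent.P050
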