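import Vale.Agent.P050.Deg
import Vale.Agent.P050.Key
import Vale.Agent.P050.Finite
import Vale.Agent.P050.Expand
import Vale.Agent.P050.Sample

namespace Vale.Agent.P050

open Finset Module
open scoped BigOperators

/-- The vertex-face incidence graph of the 11-vertex sphere. -/
def H0 : SimpleGraph (Fin 11 ⊕ Fin 18) where
  Adj u v := ∃ c, s(u, v) = s(T0.lft c, T0.rgt c)
  symm := ⟨by
    rintro u v ⟨c, hc⟩
    exact ⟨c, by rw [← hc, Sym2.eq_swap]⟩⟩
  loopless := ⟨by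
    rintro u ⟨c, hc⟩
    simp only [Surf.lft, Surf.rgt, Sym2.eq_iff] at hc
    rcases hc with ⟨h1, h2⟩ | ⟨h1, h2⟩ <;> simp_all⟩

theorem corner_inj : Function.Injective fun c : Fin 18 × Fin 3 => s(T0.lft c, T0.rgt c) := by
  rintro ⟨f, i⟩ ⟨f', i'⟩ h
  simp only [Surf.lft, Surf.rgt, Sym2.eq_iff] at h
  rcases h with ⟨h1, h2⟩ | ⟨h1, h2⟩
  · have hf : f = f' := Sum.inr_injective h2
    subst hf
    have := (T0.mono f).injective (Sum.inl_injective h1)
    simp [this]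
  · simp at h1

theorem H0_bipartite : H0.IsBipartite := by
  refine ⟨SimpleGraph.Coloring.mk (fun v => Sum.elim (fun _ => 0) (fun _ => 1) v) ?_⟩
  rintro u v ⟨c, hc⟩
  simp only [Surf.lft, Surf.rgt, Sym2.eq_iff] at hc
  rcases hc with ⟨h1, h2⟩ | ⟨h1, h2⟩ <;> subst h1 <;> subst h2 <;> simp

theorem H0_card_edges : Nat.card H0.edgeSet = Fintype.card (Fin 18 × Fin 3) := by
  have : H0.edgeSet = Set.range fun c : Fin 18 × Fin 3 => s(T0.lft c, T0.rgt c) := by
    ext e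
    induction e using Sym2.ind with
    | h u v =>
      simp only [SimpleGraph.mem_edgeSet, Set.mem_range]
      exact ⟨fun ⟨c, hc⟩ => ⟨c, hc.symm⟩, fun ⟨c, hc⟩ => ⟨c, hc.symm⟩⟩
  rw [this, Nat.card_range_of_injective corner_inj, Nat.card_eq_fintype_card]

theorem abs_Lam_le {A Fc Ed : Type} [LinearOrder A] [Fintype A] [Fintype Fc] [Fintype Ed]
    (T : Surf A Fc Ed) (τ : Fc × Fin 3 → SignType) : |T.Lam τ| ≤ 2 ^ Fintype.card Ed := by
  unfold Surf.Lam
  rw [Finset.abs_prod]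
  have hc : ∀ s, |cc τ s| ≤ 1 := by
    intro s
    unfold cc
    rw [abs_mul]
    have h : ∀ x : SignType, |(x : ℝ)| ≤ 1 := by
      intro x; cases x <;> simp
    exact mul_le_one₀ (h _) (abs_nonneg _) (h _)
  calc ∏ e, |1 + cc τ (T.slot (e, false)) * cc τ (T.slot (e, true))| ≤ ∏ _e : Ed, (2 : ℝ) := by
        apply Finset.prod_le_prod (fun _ _ => abs_nonneg _)
        intro e _
        have h1 := abs_add_le (1 : ℝ) (cc τ (T.slot (e, false)) * cc τ (T.slot (e, true)))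
        have h2 : |cc τ (T.slot (e, false)) * cc τ (T.slot (e, true))| ≤ 1 := by
          rw [abs_mul]; exact mul_le_one₀ (hc _) (abs_nonneg _) (hc _)
        rw [abs_one] at h1; linarith
    _ = 2 ^ Fintype.card Ed := by simp

theorem exists_kernel : ∃ (X : Type) (_ : Fintype X) (_ : Nonempty X) (ε : ℝ)
    (M : Model T0 X ε) (w : Weights (Fin 11 ⊕ Fin 18)),
    ∑ φ : Fin 11 ⊕ Fin 18 → Fin 11 ⊕ Fin 18, (∏ v, w.π (φ v)) *
        ∑ τ : Fin 18 × Fin 3 → SignType × SignType,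
          (∏ c, w.μ (φ (T0.lft c)) (φ (T0.rgt c)) (τ c)) *
            (M.tFace (fun c => (τ c).1) * M.tFace (fun c => (τ c).2)) < 1 := by
  obtain ⟨w, hw⟩ := zlim_lt_one
  obtain ⟨C, hC, hkey⟩ := key_lemma T0
  set B : ℝ := 2 ^ Fintype.card (Fin 27) with hB
  have hB0 : 0 < B := by positivity
  set D : ℝ := C * (2 * B + C) with hD
  have hD0 : 0 < D := by positivity
  set ε : ℝ := min 1 ((1 - T0.Zlim w) / (2 * D)) with hε
  have hε0 : 0 < ε := lt_min one_pos (div_pos (by linarith) (by positivity))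
  have hε1 : ε ≤ 1 := min_le_left _ _
  have hεD : D * ε < 1 - T0.Zlim w := by
    have h1 : ε ≤ (1 - T0.Zlim w) / (2 * D) := min_le_right _ _
    have h2 : D * ε ≤ D * ((1 - T0.Zlim w) / (2 * D)) := mul_le_mul_of_nonneg_left h1 hD0.le
    have h3 : D * ((1 - T0.Zlim w) / (2 * D)) = (1 - T0.Zlim w) / 2 := by field_simp
    linarith
  obtain ⟨X, iX, nX, ⟨M⟩⟩ := model_exists ε hε0
  refine ⟨X, iX, nX, ε, M, w, ?_⟩
  have hpt : ∀ τ₁ τ₂ : Fin 18 × Fin 3 → SignType,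
      M.tFace τ₁ * M.tFace τ₂ ≤ T0.Lam τ₁ * T0.Lam τ₂ + D * ε := by
    intro τ₁ τ₂
    have h1 := hkey X ε hε0.le hε1 M τ₁
    have h2 := hkey X ε hε0.le hε1 M τ₂
    have h3 : |T0.Lam τ₁| ≤ B := abs_Lam_le T0 τ₁
    have h4 : |T0.Lam τ₂| ≤ B := abs_Lam_le T0 τ₂
    have hCε : 0 ≤ C * ε := by positivity
    have hCε' : C * ε ≤ C := by nlinarith
    have e : M.tFace τ₁ * M.tFace τ₂ - T0.Lam τ₁ * T0.Lam τ₂ =
        (M.tFace τ₁ - T0.Lam τ₁) * T0.Lam τ₂ + T0.Lam τ₁ * (M.tFace τ₂ - T0.Lam τ₂) +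
          (M.tFace τ₁ - T0.Lam τ₁) * (M.tFace τ₂ - T0.Lam τ₂) := by ring
    have a1 : (M.tFace τ₁ - T0.Lam τ₁) * T0.Lam τ₂ ≤ C * ε * B := by
      refine (le_abs_self _).trans ?_
      rw [abs_mul]; exact mul_le_mul h1 h4 (abs_nonneg _) hCε
    have a2 : T0.Lam τ₁ * (M.tFace τ₂ - T0.Lam τ₂) ≤ B * (C * ε) := by
      refine (le_abs_self _).trans ?_
      rw [abs_mul]; exact mul_le_mul h3 h2 (abs_nonneg _) hB0.le
    have a3 : (M.tFace τ₁ - T0.Lam τ₁) * (M.tFace τ₂ - T0.Lam τ₂) ≤ C * ε * C := by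
      refine (le_abs_self _).trans ?_
      rw [abs_mul]; exact mul_le_mul h1 (h2.trans hCε') (abs_nonneg _) hCε
    have : D * ε = C * ε * B + B * (C * ε) + C * ε * C := by rw [hD]; ring
    linarith
  have hμ : ∀ φ : Fin 11 ⊕ Fin 18 → Fin 11 ⊕ Fin 18,
      ∑ τ : Fin 18 × Fin 3 → SignType × SignType,
        ∏ c, w.μ (φ (T0.lft c)) (φ (T0.rgt c)) (τ c) = 1 := by
    intro φ
    have := Finset.prod_univ_sum (fun _ : Fin 18 × Fin 3 => (Finset.univ : Finset (SignType × SignType)))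
      (fun c τ => w.μ (φ (T0.lft c)) (φ (T0.rgt c)) τ)
    rw [Fintype.piFinset_univ] at this
    rw [← this]
    exact Finset.prod_eq_one fun c _ => w.μ_sum _ _
  have hπ : ∑ φ : Fin 11 ⊕ Fin 18 → Fin 11 ⊕ Fin 18, ∏ v, w.π (φ v) = 1 := by
    have := Finset.prod_univ_sum
      (fun _ : Fin 11 ⊕ Fin 18 => (Finset.univ : Finset (Fin 11 ⊕ Fin 18))) (fun _ t => w.π t)
    rw [Fintype.piFinset_univ] at this
    rw [← this]
    exact Finset.prod_eq_one fun c _ => w.π_sum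
  calc _ ≤ ∑ φ : Fin 11 ⊕ Fin 18 → Fin 11 ⊕ Fin 18, (∏ v, w.π (φ v)) *
        (∑ τ : Fin 18 × Fin 3 → SignType × SignType,
          (∏ c, w.μ (φ (T0.lft c)) (φ (T0.rgt c)) (τ c)) *
            (T0.Lam (fun c => (τ c).1) * T0.Lam (fun c => (τ c).2)) + D * ε) := by
        apply Finset.sum_le_sum
        intro φ _
        apply mul_le_mul_of_nonneg_left _ (Finset.prod_nonneg fun v _ => w.π_nonneg _)
        calc _ ≤ ∑ τ : Fin 18 × Fin 3 → SignType × SignType,
              (∏ c, w.μ (φ (T0.lft c)) (φ (T0.rgt c)) (τ c)) *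
                (T0.Lam (fun c => (τ c).1) * T0.Lam (fun c => (τ c).2) + D * ε) := by
              apply Finset.sum_le_sum
              intro τ _
              exact mul_le_mul_of_nonneg_left (hpt _ _)
                (Finset.prod_nonneg fun c _ => w.μ_nonneg _ _ _)
          _ = _ := by
              simp only [mul_add, Finset.sum_add_distrib]
              rw [← Finset.sum_mul, hμ φ, one_mul]
    _ = T0.Zlim w + D * ε := by
        simp only [mul_add, Finset.sum_add_distrib]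
        rw [← Finset.sum_mul, hπ, one_mul]
        rfl
    _ < 1 := by linarith

theorem not_sidorenko : ∃ N : ℕ, 0 < N ∧ ∃ G : SimpleGraph (Fin N),
    (Nat.card (H0 →g G) : ℝ) / (N : ℝ) ^ Fintype.card (Fin 11 ⊕ Fin 18) <
      (2 * (Nat.card G.edgeSet : ℝ) / (N : ℝ) ^ 2) ^ Nat.card H0.edgeSet := by
  classical
  obtain ⟨X, iX, nX, ε, M, w, h⟩ := exists_kernel
  rw [H0_card_edges]
  refine sampling H0 T0.lft T0.rgt (fun u v => Iff.rfl) corner_inj (wt w X) (wt_nonneg w)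
    (wt_sum w) (Kern M w) (Kern_symm M w) (Kern_nonneg M w) ?_
  rw [Kern_mean M w, one_pow]
  have := expand M w
  convert h using 1

end Vale.Agent.P050
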