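import Vale.Agent.P050.ThreeMainAux

namespace Vale.Agent.P050

open Finset Module
open scoped BigOperators

section

variable {F : Type} [Field F] [Fintype F] {V : Type} [AddCommGroup V] [Module F V] [Finite V]

/-- The Maslov space of the traces of `M`. -/
def KU (x₁ x₂ x₃ M : Submodule F V) : Submodule F (V × V) := Ksp (M ⊓ x₁) (M ⊓ x₂) (M ⊓ x₃)

/-- The radical of the Maslov form. -/
def Rad (x₁ x₂ x₃ : Submodule F V) : Submodule F (V × V) := Triv (x₁ ⊓ x₂) (x₁ ⊓ x₃) (x₂ ⊓ x₃)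

/-- Lagrangians with all dimension parameters prescribed. -/
structure Cls (ω : LinearMap.BilinForm F V) (n : ℕ) (x₁ x₂ x₃ : Submodule F V)
    (κ u₁₂ u₁₃ u₂₃ r k : ℕ) (M : Submodule F V) : Prop where
  lag : IsLag ω n M
  le : x₁ ⊓ x₂ ⊓ x₃ ≤ M
  k1 : finrank F ↥(M ⊓ x₁) = κ
  k2 : finrank F ↥(M ⊓ x₂) = κ
  k3 : finrank F ↥(M ⊓ x₃) = κ
  e12 : finrank F ↥(M ⊓ (x₁ ⊓ x₂)) = u₁₂
  e13 : finrank F ↥(M ⊓ (x₁ ⊓ x₃)) = u₁₃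
  e23 : finrank F ↥(M ⊓ (x₂ ⊓ x₃)) = u₂₃
  er : finrank F ↥(KU x₁ x₂ x₃ M ⊓ Rad x₁ x₂ x₃) = r
  ek : finrank F ↥(KU x₁ x₂ x₃ M) = k

variable {ω : LinearMap.BilinForm F V} {n : ℕ} {x₁ x₂ x₃ : Submodule F V}
  {κ u₁₂ u₁₃ u₂₃ r k : ℕ} {M : Submodule F V}

omit [Fintype F] [Finite V] in
theorem inf_inf_inf (M x y : Submodule F V) : M ⊓ x ⊓ (M ⊓ y) = M ⊓ (x ⊓ y) :=
  (inf_inf_distrib_left M x y).symm

omit [Fintype F] in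
theorem Cls.dimTU (h : Cls ω n x₁ x₂ x₃ κ u₁₂ u₁₃ u₂₃ r k M) :
    finrank F (Triv (M ⊓ (x₁ ⊓ x₂)) (M ⊓ (x₁ ⊓ x₃)) (M ⊓ (x₂ ⊓ x₃))) +
      finrank F ↥(x₁ ⊓ x₂ ⊓ x₃) = u₁₂ + u₁₃ + u₂₃ := by
  have h1 := finrank_Triv (M ⊓ (x₁ ⊓ x₂)) (M ⊓ (x₁ ⊓ x₃)) (M ⊓ (x₂ ⊓ x₃))
  have h2 : M ⊓ (x₁ ⊓ x₂) ⊓ (M ⊓ (x₁ ⊓ x₃)) ⊓ (M ⊓ (x₂ ⊓ x₃)) = x₁ ⊓ x₂ ⊓ x₃ := by
    apply le_antisymm
    · rintro v ⟨⟨⟨_, h1, h2⟩, _, _, h3⟩, _⟩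
      exact ⟨⟨h1, h2⟩, h3⟩
    · intro v hv
      have hM := h.le hv
      obtain ⟨⟨h1, h2⟩, h3⟩ := hv
      exact ⟨⟨⟨hM, h1, h2⟩, hM, h1, h3⟩, hM, h2, h3⟩
  rw [h2, h.e12, h.e13, h.e23] at h1
  exact h1

omit [Fintype F] in
theorem TU_le (M : Submodule F V) :
    Triv (M ⊓ (x₁ ⊓ x₂)) (M ⊓ (x₁ ⊓ x₃)) (M ⊓ (x₂ ⊓ x₃)) ≤ KU x₁ x₂ x₃ M ⊓ Rad x₁ x₂ x₃ := by
  refine le_inf ?_ (Triv_mono inf_le_right inf_le_right inf_le_right)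
  have := Triv_le_Ksp (M ⊓ x₁) (M ⊓ x₂) (M ⊓ x₃)
  simp only [inf_inf_inf] at this
  exact this

omit [Fintype F] in
theorem Cls.dimSup (h : Cls ω n x₁ x₂ x₃ κ u₁₂ u₁₃ u₂₃ r k M) :
    k + finrank F ↥(M ⊓ x₁ ⊔ M ⊓ x₂ ⊔ M ⊓ x₃) = 3 * κ := by
  have h1 := finrank_Ksp (M ⊓ x₁) (M ⊓ x₂) (M ⊓ x₃)
  have h2 := h.ek
  unfold KU at h2
  rw [h.k1, h.k2, h.k3, h2] at h1
  omega

omit [Fintype F] in
theorem Cls.dimH1 (h : Cls ω n x₁ x₂ x₃ κ u₁₂ u₁₃ u₂₃ r k M) :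
    finrank F ↥((KU x₁ x₂ x₃ M).map (LinearMap.fst F V V)) + u₂₃ = k := by
  have h1 := finrank_fst_Ksp (M ⊓ x₁) (M ⊓ x₂) (M ⊓ x₃)
  have h2 := h.ek
  unfold KU at h2 ⊢
  rw [inf_inf_inf M x₂ x₃, h.e23, h2] at h1
  rw [map_fst_Ksp]; exact h1

omit [Fintype F] in
theorem Cls.dimH2 (h : Cls ω n x₁ x₂ x₃ κ u₁₂ u₁₃ u₂₃ r k M) :
    finrank F ↥((KU x₁ x₂ x₃ M).map (LinearMap.snd F V V)) + u₁₃ = k := by
  have h1 := finrank_snd_Ksp (M ⊓ x₁) (M ⊓ x₂) (M ⊓ x₃)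
  have h2 := h.ek
  unfold KU at h2 ⊢
  rw [inf_inf_inf M x₁ x₃, h.e13, h2] at h1
  rw [map_snd_Ksp]; exact h1

omit [Fintype F] in
theorem Cls.dimH3 (h : Cls ω n x₁ x₂ x₃ κ u₁₂ u₁₃ u₂₃ r k M) :
    finrank F ↥((KU x₁ x₂ x₃ M).map (LinearMap.fst F V V + LinearMap.snd F V V)) + u₁₂ = k := by
  have h1 := finrank_add_Ksp (M ⊓ x₁) (M ⊓ x₂) (M ⊓ x₃)
  have h2 := h.ek
  unfold KU at h2 ⊢
  rw [inf_inf_inf M x₁ x₂, h.e12, h2] at h1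
  rw [map_add_Ksp]; exact h1

theorem class_bound (hω : Symp ω n) (h2 : (2 : F) ≠ 0) (h₁ : IsLag ω n x₁) (h₂ : IsLag ω n x₂)
    (h₃ : IsLag ω n x₃) {a d₁₂ d₁₃ d₂₃ : ℕ} (ha : finrank F ↥(x₁ ⊓ x₂ ⊓ x₃) = a)
    (hd₁₂ : finrank F ↥(x₁ ⊓ x₂) = d₁₂) (hd₁₃ : finrank F ↥(x₁ ⊓ x₃) = d₁₃)
    (hd₂₃ : finrank F ↥(x₂ ⊓ x₃) = d₂₃) (hM : Cls ω n x₁ x₂ x₃ κ u₁₂ u₁₃ u₂₃ r k M) :
    (({M | Cls ω n x₁ x₂ x₃ κ u₁₂ u₁₃ u₂₃ r k M} : Set (Submodule F V)).ncard : ℝ) ≤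
      (4 ^ (4 * n)) ^ 9 * (Fintype.card F : ℝ) ^
        (nu ((n : ℝ) - a) - 3 * nu ((κ : ℝ) - a) +
          Bq ((u₁₂ : ℝ) - a) ((d₁₂ : ℝ) + 2 * κ - n - 2 * a) +
          Bq ((u₁₃ : ℝ) - a) ((d₁₃ : ℝ) + 2 * κ - n - 2 * a) +
          Bq ((u₂₃ : ℝ) - a) ((d₂₃ : ℝ) + 2 * κ - n - 2 * a)) := by
  set S : Set (Submodule F V) := {M | Cls ω n x₁ x₂ x₃ κ u₁₂ u₁₃ u₂₃ r k M} with hS
  set q : ℝ := (Fintype.card F : ℝ) with hq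
  have hq1 : 1 ≤ q := by
    rw [hq]; exact_mod_cast Fintype.card_pos
  have hq0 : 0 < q := by linarith
  have hV : ∀ W : Submodule F V, finrank F W ≤ 4 * n := fun W => by
    have := Submodule.finrank_le W
    rw [hω.dim] at this; omega
  have hVV : ∀ W : Submodule F (V × V), finrank F W ≤ 4 * n := fun W => by
    have := Submodule.finrank_le W
    rw [Module.finrank_prod, hω.dim] at this; omega
  have hK : finrank F (Ksp x₁ x₂ x₃) = n + a := by rw [finrank_Ksp_lag hω h₁ h₂ h₃, ha]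
  have hRad : finrank F (Rad x₁ x₂ x₃) + a = d₁₂ + d₁₃ + d₂₃ := by
    have h1 := finrank_Triv (x₁ ⊓ x₂) (x₁ ⊓ x₃) (x₂ ⊓ x₃)
    have h2 : x₁ ⊓ x₂ ⊓ (x₁ ⊓ x₃) ⊓ (x₂ ⊓ x₃) = x₁ ⊓ x₂ ⊓ x₃ := by
      apply le_antisymm
      · rintro v ⟨⟨⟨h1, h2⟩, _, h3⟩, _⟩
        exact ⟨⟨h1, h2⟩, h3⟩
      · rintro v ⟨⟨h1, h2⟩, h3⟩
        exact ⟨⟨⟨h1, h2⟩, h1, h3⟩, h2, h3⟩
    rw [h2, ha, hd₁₂, hd₁₃, hd₂₃] at h1
    exact h1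
  have hrk : r ≤ k := by
    rw [← hM.er, ← hM.ek]; exact Submodule.finrank_mono inf_le_left
  set c : ℝ := 4 ^ (4 * n) with hc
  have hc0 : 0 < c := by positivity
  -- the last step
  have s9 : ∀ M₀ ∈ S, (({M | M ∈ S ∧ ((((((((((), M ⊓ (x₁ ⊓ x₂)), M ⊓ (x₁ ⊓ x₃)), M ⊓ (x₂ ⊓ x₃)),
      KU x₁ x₂ x₃ M ⊓ Rad x₁ x₂ x₃), KU x₁ x₂ x₃ M), M ⊓ x₁), M ⊓ x₂), M ⊓ x₃)) =
      ((((((((((), M₀ ⊓ (x₁ ⊓ x₂)), M₀ ⊓ (x₁ ⊓ x₃)), M₀ ⊓ (x₂ ⊓ x₃)),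
      KU x₁ x₂ x₃ M₀ ⊓ Rad x₁ x₂ x₃), KU x₁ x₂ x₃ M₀), M₀ ⊓ x₁), M₀ ⊓ x₂), M₀ ⊓ x₃))} :
      Set (Submodule F V)).ncard : ℝ) ≤ c * q ^ nu ((n : ℝ) - (3 * κ - k)) := by
    intro M₀ hM₀
    have hW : Isot ω (M₀ ⊓ x₁ ⊔ M₀ ⊓ x₂ ⊔ M₀ ⊓ x₃) := by
      have hle : M₀ ⊓ x₁ ⊔ M₀ ⊓ x₂ ⊔ M₀ ⊓ x₃ ≤ M₀ :=
        sup_le (sup_le inf_le_left inf_le_left) inf_le_left
      exact fun u hu v hv => hM₀.lag.1 u (hle hu) v (hle hv)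
    have hb := lag_ext' hω hW (4 * n) (by omega)
    have hd : (finrank F ↥(M₀ ⊓ x₁ ⊔ M₀ ⊓ x₂ ⊔ M₀ ⊓ x₃) : ℝ) = 3 * κ - k := by
      have : (k : ℝ) + finrank F ↥(M₀ ⊓ x₁ ⊔ M₀ ⊓ x₂ ⊔ M₀ ⊓ x₃) = 3 * κ := by
        exact_mod_cast hM₀.dimSup
      linarith
    rw [hd] at hb
    refine le_trans (Nat.cast_le.2 (Set.ncard_le_ncard ?_)) hb
    rintro M ⟨hM, hE⟩
    simp only [Prod.mk.injEq] at hE
    obtain ⟨⟨⟨_, e1⟩, e2⟩, e3⟩ := hE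
    refine ⟨hM.lag, ?_⟩
    rw [← e1, ← e2, ← e3]
    exact sup_le (sup_le inf_le_left inf_le_left) inf_le_left
  have s8 := chain_step S _ (fun M => M ⊓ x₃)
    (c * q ^ (((κ : ℝ) - (k - u₁₂)) * (((n : ℝ) + k - 2 * κ) - κ))) _ (by positivity) (by
      intro M₀ hM₀
      refine ⟨{U | (KU x₁ x₂ x₃ M₀).map (LinearMap.fst F V V + LinearMap.snd F V V) ≤ U ∧
        U ≤ x₃ ⊓ ω.orthogonal (M₀ ⊓ x₁ ⊔ M₀ ⊓ x₂) ∧ finrank F U = κ}, ?_, ?_⟩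
      · intro M hM hE
        simp only [Prod.mk.injEq] at hE
        obtain ⟨⟨⟨_, e0⟩, e1⟩, e2⟩ := hE
        refine ⟨?_, le_inf inf_le_right ?_, hM.k3⟩
        · rw [← e0]; unfold KU; rw [map_add_Ksp]; exact inf_le_left
        · rw [← e1, ← e2]
          exact hM.lag.1.le_orth inf_le_left (sup_le inf_le_left inf_le_left)
      · have hb := grass_bound' ((KU x₁ x₂ x₃ M₀).map (LinearMap.fst F V V + LinearMap.snd F V V))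
          (x₃ ⊓ ω.orthogonal (M₀ ⊓ x₁ ⊔ M₀ ⊓ x₂)) κ (4 * n) (hM₀.k1 ▸ hV _)
        have d1 := hM₀.dimH3
        have d2 := perp_dim hω h₃ (M₀ ⊓ x₁ ⊔ M₀ ⊓ x₂)
        have d3 := Submodule.finrank_sup_add_finrank_inf_eq (M₀ ⊓ x₁) (M₀ ⊓ x₂)
        have d4 : (M₀ ⊓ x₁ ⊔ M₀ ⊓ x₂) ⊓ x₃ =
            (KU x₁ x₂ x₃ M₀).map (LinearMap.fst F V V + LinearMap.snd F V V) := by
          unfold KU; rw [map_add_Ksp]
          apply le_antisymm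
          · exact le_inf (le_inf (inf_le_left.trans (sup_le inf_le_left inf_le_left))
              inf_le_right) inf_le_left
          · exact le_inf inf_le_right (inf_le_left.trans inf_le_right)
        rw [inf_inf_inf, hM₀.e12, hM₀.k1, hM₀.k2] at d3
        rw [d4] at d2
        have e1 : (finrank F ↥((KU x₁ x₂ x₃ M₀).map (LinearMap.fst F V V + LinearMap.snd F V V)) : ℝ)
            = k - u₁₂ := by
          have : (finrank F ↥((KU x₁ x₂ x₃ M₀).map (LinearMap.fst F V V + LinearMap.snd F V V)) : ℝ)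
            + u₁₂ = k := by exact_mod_cast d1
          linarith
        have e2 : (finrank F ↥(x₃ ⊓ ω.orthogonal (M₀ ⊓ x₁ ⊔ M₀ ⊓ x₂)) : ℝ) = n + k - 2 * κ := by
          have : finrank F ↥(x₃ ⊓ ω.orthogonal (M₀ ⊓ x₁ ⊔ M₀ ⊓ x₂)) + 2 * κ = n + k := by omega
          have : (finrank F ↥(x₃ ⊓ ω.orthogonal (M₀ ⊓ x₁ ⊔ M₀ ⊓ x₂)) : ℝ) + 2 * κ = n + k := by
            exact_mod_cast this
          linarith
        rw [e1, e2] at hb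
        exact hb) s9
  have s7 := chain_step S _ (fun M => M ⊓ x₂)
    (c * q ^ (((κ : ℝ) - (k - u₁₃)) * (((n : ℝ) + u₁₂ - κ) - κ))) _ (by positivity) (by
      intro M₀ hM₀
      refine ⟨{U | (KU x₁ x₂ x₃ M₀).map (LinearMap.snd F V V) ≤ U ∧
        U ≤ x₂ ⊓ ω.orthogonal (M₀ ⊓ x₁) ∧ finrank F U = κ}, ?_, ?_⟩
      · intro M hM hE
        simp only [Prod.mk.injEq] at hE
        obtain ⟨⟨_, e0⟩, e1⟩ := hE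
        refine ⟨?_, le_inf inf_le_right ?_, hM.k2⟩
        · rw [← e0]; unfold KU; rw [map_snd_Ksp]; exact inf_le_left
        · rw [← e1]
          exact hM.lag.1.le_orth inf_le_left inf_le_left
      · have hb := grass_bound' ((KU x₁ x₂ x₃ M₀).map (LinearMap.snd F V V))
          (x₂ ⊓ ω.orthogonal (M₀ ⊓ x₁)) κ (4 * n) (hM₀.k1 ▸ hV _)
        have d1 := hM₀.dimH2
        have d2 := perp_dim hω h₂ (M₀ ⊓ x₁)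
        rw [inf_assoc, hM₀.e12, hM₀.k1] at d2
        have e1 : (finrank F ↥((KU x₁ x₂ x₃ M₀).map (LinearMap.snd F V V)) : ℝ) = k - u₁₃ := by
          have : (finrank F ↥((KU x₁ x₂ x₃ M₀).map (LinearMap.snd F V V)) : ℝ) + u₁₃ = k := by
            exact_mod_cast d1
          linarith
        have e2 : (finrank F ↥(x₂ ⊓ ω.orthogonal (M₀ ⊓ x₁)) : ℝ) = n + u₁₂ - κ := by
          have : (finrank F ↥(x₂ ⊓ ω.orthogonal (M₀ ⊓ x₁)) : ℝ) + κ = n + u₁₂ := by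
            exact_mod_cast d2
          linarith
        rw [e1, e2] at hb
        exact hb) s8
  have s6 := chain_step S _ (fun M => M ⊓ x₁)
    (c * q ^ (((κ : ℝ) - (k - u₂₃)) * (((n : ℝ) + u₁₂ - (k - u₁₃)) - κ))) _ (by positivity) (by
      intro M₀ hM₀
      refine ⟨{U | (KU x₁ x₂ x₃ M₀).map (LinearMap.fst F V V) ≤ U ∧
        U ≤ x₁ ⊓ ω.orthogonal ((KU x₁ x₂ x₃ M₀).map (LinearMap.snd F V V)) ∧ finrank F U = κ},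
        ?_, ?_⟩
      · intro M hM hE
        simp only [Prod.mk.injEq] at hE
        obtain ⟨_, e0⟩ := hE
        refine ⟨?_, le_inf inf_le_right ?_, hM.k1⟩
        · rw [← e0]; unfold KU; rw [map_fst_Ksp]; exact inf_le_left
        · rw [← e0]; unfold KU; rw [map_snd_Ksp]
          exact hM.lag.1.le_orth inf_le_left (inf_le_left.trans inf_le_left)
      · have hb := grass_bound' ((KU x₁ x₂ x₃ M₀).map (LinearMap.fst F V V))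
          (x₁ ⊓ ω.orthogonal ((KU x₁ x₂ x₃ M₀).map (LinearMap.snd F V V))) κ (4 * n)
          (hM₀.k1 ▸ hV _)
        have d1 := hM₀.dimH1
        have d1' := hM₀.dimH2
        have d2 := perp_dim hω h₁ ((KU x₁ x₂ x₃ M₀).map (LinearMap.snd F V V))
        have d4 : (KU x₁ x₂ x₃ M₀).map (LinearMap.snd F V V) ⊓ x₁ = M₀ ⊓ (x₁ ⊓ x₂) := by
          unfold KU; rw [map_snd_Ksp]
          apply le_antisymm
          · rintro v ⟨⟨⟨h1, h2⟩, _⟩, h3⟩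
            exact ⟨h1, h3, h2⟩
          · rintro v ⟨h1, h2, h3⟩
            exact ⟨⟨⟨h1, h3⟩, Submodule.mem_sup_left ⟨h1, h2⟩⟩, h2⟩
        rw [d4, hM₀.e12] at d2
        have e1 : (finrank F ↥((KU x₁ x₂ x₃ M₀).map (LinearMap.fst F V V)) : ℝ) = k - u₂₃ := by
          have : (finrank F ↥((KU x₁ x₂ x₃ M₀).map (LinearMap.fst F V V)) : ℝ) + u₂₃ = k := by
            exact_mod_cast d1
          linarith
        have e2 : (finrank F ↥(x₁ ⊓ ω.orthogonal ((KU x₁ x₂ x₃ M₀).map (LinearMap.snd F V V))) : ℝ)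
            = n + u₁₂ - (k - u₁₃) := by
          have : finrank F ↥(x₁ ⊓ ω.orthogonal ((KU x₁ x₂ x₃ M₀).map (LinearMap.snd F V V))) + k
            = n + u₁₂ + u₁₃ := by omega
          have : (finrank F ↥(x₁ ⊓ ω.orthogonal ((KU x₁ x₂ x₃ M₀).map (LinearMap.snd F V V))) : ℝ)
            + k = n + u₁₂ + u₁₃ := by exact_mod_cast this
          linarith
        rw [e1, e2] at hb
        exact hb) s7
  have s5 := chain_step S _ (fun M => KU x₁ x₂ x₃ M)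
    (c * q ^ (((k : ℝ) - r) * (((n : ℝ) + a) - r) - (3 * ((k : ℝ) - r) ^ 2 + (k - r)) / 2)) _
    (by positivity) (by
      intro M₀ hM₀
      refine ⟨{W | W ≤ Ksp x₁ x₂ x₃ ∧ Isot (mas ω) W ∧
        W ⊓ (Ksp x₁ x₂ x₃ ⊓ (mas ω).orthogonal (Ksp x₁ x₂ x₃)) = KU x₁ x₂ x₃ M₀ ⊓ Rad x₁ x₂ x₃ ∧
        finrank F W = finrank F ↥(KU x₁ x₂ x₃ M₀ ⊓ Rad x₁ x₂ x₃) + (k - r)}, ?_, ?_⟩
      · intro M hM hE
        simp only [Prod.mk.injEq] at hE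
        obtain ⟨_, e0⟩ := hE
        refine ⟨Ksp_mono inf_le_right inf_le_right inf_le_right,
          isot_Ksp hM.lag.1 inf_le_left inf_le_left, ?_, ?_⟩
        · rw [rad_Ksp hω h₁ h₂ h₃]; exact e0
        · rw [hM₀.er, hM.ek]; omega
      · have hb := iso_count' h2 (mas ω) (Ksp x₁ x₂ x₃) (mas_symm hω h₁.1 h₂.1 h₃.1)
          (KU x₁ x₂ x₃ M₀ ⊓ Rad x₁ x₂ x₃) (k - r) (4 * n)
          (le_trans (Nat.sub_le _ _) (hM₀.ek ▸ hVV _))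
        refine hb.trans (le_of_eq ?_)
        rw [hK, hM₀.er, Nat.cast_sub hrk]
        push_cast
        rfl) s6
  have s4 := chain_step S _ (fun M => KU x₁ x₂ x₃ M ⊓ Rad x₁ x₂ x₃)
    (c * q ^ (((r : ℝ) - (u₁₂ + u₁₃ + u₂₃ - a)) * (((d₁₂ : ℝ) + d₁₃ + d₂₃ - a) - r))) _
    (by positivity) (by
      intro M₀ hM₀
      refine ⟨{U | Triv (M₀ ⊓ (x₁ ⊓ x₂)) (M₀ ⊓ (x₁ ⊓ x₃)) (M₀ ⊓ (x₂ ⊓ x₃)) ≤ U ∧
        U ≤ Rad x₁ x₂ x₃ ∧ finrank F U = r}, ?_, ?_⟩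
      · intro M hM hE
        simp only [Prod.mk.injEq] at hE
        obtain ⟨⟨⟨_, e1⟩, e2⟩, e3⟩ := hE
        refine ⟨?_, inf_le_right, hM.er⟩
        rw [← e1, ← e2, ← e3]
        exact TU_le M
      · have hb := grass_bound' (Triv (M₀ ⊓ (x₁ ⊓ x₂)) (M₀ ⊓ (x₁ ⊓ x₃)) (M₀ ⊓ (x₂ ⊓ x₃)))
          (Rad x₁ x₂ x₃) r (4 * n) (hM₀.er ▸ hVV _)
        have d1 := hM₀.dimTU
        rw [ha] at d1
        have e1 : (finrank F (Triv (M₀ ⊓ (x₁ ⊓ x₂)) (M₀ ⊓ (x₁ ⊓ x₃)) (M₀ ⊓ (x₂ ⊓ x₃))) : ℝ) =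
            u₁₂ + u₁₃ + u₂₃ - a := by
          have : (finrank F (Triv (M₀ ⊓ (x₁ ⊓ x₂)) (M₀ ⊓ (x₁ ⊓ x₃)) (M₀ ⊓ (x₂ ⊓ x₃))) : ℝ) + a =
            u₁₂ + u₁₃ + u₂₃ := by exact_mod_cast d1
          linarith
        have e2 : (finrank F (Rad x₁ x₂ x₃) : ℝ) = d₁₂ + d₁₃ + d₂₃ - a := by
          have : (finrank F (Rad x₁ x₂ x₃) : ℝ) + a = d₁₂ + d₁₃ + d₂₃ := by exact_mod_cast hRad
          linarith
        rw [e1, e2] at hb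
        exact hb) s5
  have s3 := chain_step S _ (fun M => M ⊓ (x₂ ⊓ x₃))
    (c * q ^ (((u₂₃ : ℝ) - a) * ((d₂₃ : ℝ) - u₂₃))) _ (by positivity) (by
      intro M₀ hM₀
      refine ⟨{U | x₁ ⊓ x₂ ⊓ x₃ ≤ U ∧ U ≤ x₂ ⊓ x₃ ∧ finrank F U = u₂₃}, ?_, ?_⟩
      · intro M hM _
        exact ⟨le_inf hM.le (le_inf (inf_le_left.trans inf_le_right) inf_le_right),
          inf_le_right, hM.e23⟩
      · have hb := grass_bound' (x₁ ⊓ x₂ ⊓ x₃) (x₂ ⊓ x₃) u₂₃ (4 * n) (hM₀.e23 ▸ hV _)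
        rw [ha, hd₂₃] at hb
        exact hb) s4
  have s2 := chain_step S _ (fun M => M ⊓ (x₁ ⊓ x₃))
    (c * q ^ (((u₁₃ : ℝ) - a) * ((d₁₃ : ℝ) - u₁₃))) _ (by positivity) (by
      intro M₀ hM₀
      refine ⟨{U | x₁ ⊓ x₂ ⊓ x₃ ≤ U ∧ U ≤ x₁ ⊓ x₃ ∧ finrank F U = u₁₃}, ?_, ?_⟩
      · intro M hM _
        exact ⟨le_inf hM.le (le_inf (inf_le_left.trans inf_le_left) inf_le_right),
          inf_le_right, hM.e13⟩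
      · have hb := grass_bound' (x₁ ⊓ x₂ ⊓ x₃) (x₁ ⊓ x₃) u₁₃ (4 * n) (hM₀.e13 ▸ hV _)
        rw [ha, hd₁₃] at hb
        exact hb) s3
  have s1 := chain_step S (fun _ => ()) (fun M => M ⊓ (x₁ ⊓ x₂))
    (c * q ^ (((u₁₂ : ℝ) - a) * ((d₁₂ : ℝ) - u₁₂))) _ (by positivity) (by
      intro M₀ hM₀
      refine ⟨{U | x₁ ⊓ x₂ ⊓ x₃ ≤ U ∧ U ≤ x₁ ⊓ x₂ ∧ finrank F U = u₁₂}, ?_, ?_⟩
      · intro M hM _
        exact ⟨le_inf hM.le inf_le_left, inf_le_right, hM.e12⟩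
      · have hb := grass_bound' (x₁ ⊓ x₂ ⊓ x₃) (x₁ ⊓ x₂) u₁₂ (4 * n) (hM₀.e12 ▸ hV _)
        rw [ha, hd₁₂] at hb
        exact hb) s2
  have s0 := s1 M hM
  simp only [and_true, Set.ofPred_mem_eq] at s0
  refine s0.trans ?_
  have hTU : u₁₂ + u₁₃ + u₂₃ ≤ r + a := by
    have d1 := hM.dimTU
    have d2 := Submodule.finrank_mono (TU_le (x₁ := x₁) (x₂ := x₂) (x₃ := x₃) M)
    rw [hM.er] at d2
    omega
  have hz : 3 * κ ≤ n + k := by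
    have d1 := hM.dimSup
    have d2 : finrank F ↥(M ⊓ x₁ ⊔ M ⊓ x₂ ⊔ M ⊓ x₃) ≤ finrank F M :=
      Submodule.finrank_mono (sup_le (sup_le inf_le_left inf_le_left) inf_le_left)
    rw [hM.lag.2] at d2
    omega
  have m₁₂ : d₁₂ + 2 * κ ≤ n + 2 * u₁₂ := by
    have := maslov hω hM.lag h₁ h₂
    rw [inf_assoc, hM.k1, hM.k2, hM.e12, hd₁₂] at this
    omega
  have m₁₃ : d₁₃ + 2 * κ ≤ n + 2 * u₁₃ := by
    have := maslov hω hM.lag h₁ h₃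
    rw [inf_assoc, hM.k1, hM.k3, hM.e13, hd₁₃] at this
    omega
  have m₂₃ : d₂₃ + 2 * κ ≤ n + 2 * u₂₃ := by
    have := maslov hω hM.lag h₂ h₃
    rw [inf_assoc, hM.k2, hM.k3, hM.e23, hd₂₃] at this
    omega
  have hiso : 2 * k + (d₁₂ + d₁₃ + d₂₃) ≤ n + 2 * a + 2 * r := by
    have := iso_dim (mas ω) (Ksp x₁ x₂ x₃) (mas_symm hω h₁.1 h₂.1 h₃.1)
      (W := KU x₁ x₂ x₃ M) (Ksp_mono inf_le_right inf_le_right inf_le_right)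
      (isot_Ksp hM.lag.1 inf_le_left inf_le_left)
    rw [rad_Ksp hω h₁ h₂ h₃, hK, hM.ek] at this
    have e := hM.er
    unfold Rad at e hRad
    rw [e] at this
    omega
  have har := three_arith n a κ d₁₂ d₁₃ d₂₃ u₁₂ u₁₃ u₂₃ r k (r + a - (u₁₂ + u₁₃ + u₂₃))
    (by rw [Nat.cast_sub hTU]; push_cast; ring) (by exact_mod_cast hrk)
    (by have : (3 * κ : ℝ) ≤ n + k := by exact_mod_cast hz
        linarith)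
    (by exact_mod_cast m₁₂) (by exact_mod_cast m₁₃) (by exact_mod_cast m₂₃)
    (by have : (2 * k : ℝ) + (d₁₂ + d₁₃ + d₂₃) ≤ n + 2 * a + 2 * r := by exact_mod_cast hiso
        linarith)
  have hfin := Real.rpow_le_rpow_of_exponent_le hq1 har
  simp only [Real.rpow_add hq0] at hfin
  refine le_trans (le_of_eq ?_) (mul_le_mul_of_nonneg_left hfin (by positivity : 0 ≤ c ^ 9)) |>.trans
    (le_of_eq ?_)
  · ring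
  · simp only [Real.rpow_add hq0]

end

/-- Lagrangians through the triple intersection with prescribed intersection dimensions. -/
theorem three_main (n : ℕ) : ∃ C : ℝ, 0 < C ∧ ∀ (F : Type) [Field F] [Fintype F] (V : Type)
    [AddCommGroup V] [Module F V] [Finite V] (ω : LinearMap.BilinForm F V),
    Symp ω n → (2 : F) ≠ 0 → ∀ (x₁ x₂ x₃ : Submodule F V), IsLag ω n x₁ → IsLag ω n x₂ →
    IsLag ω n x₃ → ∀ (κ a d₁₂ d₁₃ d₂₃ : ℕ), finrank F ↥(x₁ ⊓ x₂ ⊓ x₃) = a →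
    finrank F ↥(x₁ ⊓ x₂) = d₁₂ → finrank F ↥(x₁ ⊓ x₃) = d₁₃ → finrank F ↥(x₂ ⊓ x₃) = d₂₃ →
    ∀ S : Set (Submodule F V), S = {M | IsLag ω n M ∧ x₁ ⊓ x₂ ⊓ x₃ ≤ M ∧ finrank F ↥(M ⊓ x₁) = κ ∧
      finrank F ↥(M ⊓ x₂) = κ ∧ finrank F ↥(M ⊓ x₃) = κ} →
    S = ∅ ∨ ∃ i₁₂ i₁₃ i₂₃ : ℕ, a + i₁₂ ≤ d₁₂ ∧ a + i₁₃ ≤ d₁₃ ∧ a + i₂₃ ≤ d₂₃ ∧
      d₁₂ + 2 * κ ≤ n + 2 * a + 2 * i₁₂ ∧ d₁₃ + 2 * κ ≤ n + 2 * a + 2 * i₁₃ ∧
      d₂₃ + 2 * κ ≤ n + 2 * a + 2 * i₂₃ ∧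
      (S.ncard : ℝ) ≤ C * (Fintype.card F : ℝ) ^
        (nu ((n : ℝ) - a) - 3 * nu ((κ : ℝ) - a) + Bq i₁₂ ((d₁₂ : ℝ) + 2 * κ - n - 2 * a) +
          Bq i₁₃ ((d₁₃ : ℝ) + 2 * κ - n - 2 * a) + Bq i₂₃ ((d₂₃ : ℝ) + 2 * κ - n - 2 * a)) := by
  refine ⟨(4 * n + 1) ^ 5 * (4 ^ (4 * n)) ^ 9, by positivity, ?_⟩
  intro F _ _ V _ _ _ ω hω h2 x₁ x₂ x₃ h₁ h₂ h₃ κ a d₁₂ d₁₃ d₂₃ ha hd₁₂ hd₁₃ hd₂₃ S hS
  rcases S.eq_empty_or_nonempty with h0 | hne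
  · exact Or.inl h0
  right
  set q : ℝ := (Fintype.card F : ℝ) with hq
  have hq1 : 1 ≤ q := by
    rw [hq]; exact_mod_cast Fintype.card_pos
  set E : Submodule F V → ℝ := fun M => nu ((n : ℝ) - a) - 3 * nu ((κ : ℝ) - a) +
    Bq ((finrank F ↥(M ⊓ (x₁ ⊓ x₂)) : ℝ) - a) ((d₁₂ : ℝ) + 2 * κ - n - 2 * a) +
    Bq ((finrank F ↥(M ⊓ (x₁ ⊓ x₃)) : ℝ) - a) ((d₁₃ : ℝ) + 2 * κ - n - 2 * a) +
    Bq ((finrank F ↥(M ⊓ (x₂ ⊓ x₃)) : ℝ) - a) ((d₂₃ : ℝ) + 2 * κ - n - 2 * a) with hE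
  obtain ⟨M₀, hM₀, hmax⟩ := Set.exists_max_image S E (Set.toFinite S) hne
  have hcls : ∀ M ∈ S, Cls ω n x₁ x₂ x₃ κ (finrank F ↥(M ⊓ (x₁ ⊓ x₂))) (finrank F ↥(M ⊓ (x₁ ⊓ x₃)))
      (finrank F ↥(M ⊓ (x₂ ⊓ x₃))) (finrank F ↥(KU x₁ x₂ x₃ M ⊓ Rad x₁ x₂ x₃))
      (finrank F ↥(KU x₁ x₂ x₃ M)) M := by
    intro M hM
    rw [hS] at hM
    exact ⟨hM.1, hM.2.1, hM.2.2.1, hM.2.2.2.1, hM.2.2.2.2, rfl, rfl, rfl, rfl, rfl⟩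
  have hc₀ := hcls M₀ hM₀
  have l₁₂ : a ≤ finrank F ↥(M₀ ⊓ (x₁ ⊓ x₂)) := by
    rw [← ha]; exact Submodule.finrank_mono (le_inf hc₀.le inf_le_left)
  have l₁₃ : a ≤ finrank F ↥(M₀ ⊓ (x₁ ⊓ x₃)) := by
    rw [← ha]
    exact Submodule.finrank_mono (le_inf hc₀.le
      (le_inf (inf_le_left.trans inf_le_left) inf_le_right))
  have l₂₃ : a ≤ finrank F ↥(M₀ ⊓ (x₂ ⊓ x₃)) := by
    rw [← ha]
    exact Submodule.finrank_mono (le_inf hc₀.le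
      (le_inf (inf_le_left.trans inf_le_right) inf_le_right))
  have r₁₂ : finrank F ↥(M₀ ⊓ (x₁ ⊓ x₂)) ≤ d₁₂ := by
    rw [← hd₁₂]; exact Submodule.finrank_mono inf_le_right
  have r₁₃ : finrank F ↥(M₀ ⊓ (x₁ ⊓ x₃)) ≤ d₁₃ := by
    rw [← hd₁₃]; exact Submodule.finrank_mono inf_le_right
  have r₂₃ : finrank F ↥(M₀ ⊓ (x₂ ⊓ x₃)) ≤ d₂₃ := by
    rw [← hd₂₃]; exact Submodule.finrank_mono inf_le_right
  have m₁₂ := maslov hω hc₀.lag h₁ h₂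
  have m₁₃ := maslov hω hc₀.lag h₁ h₃
  have m₂₃ := maslov hω hc₀.lag h₂ h₃
  rw [inf_assoc, hc₀.k1, hc₀.k2, hd₁₂] at m₁₂
  rw [inf_assoc, hc₀.k1, hc₀.k3, hd₁₃] at m₁₃
  rw [inf_assoc, hc₀.k2, hc₀.k3, hd₂₃] at m₂₃
  refine ⟨finrank F ↥(M₀ ⊓ (x₁ ⊓ x₂)) - a, finrank F ↥(M₀ ⊓ (x₁ ⊓ x₃)) - a,
    finrank F ↥(M₀ ⊓ (x₂ ⊓ x₃)) - a, by omega, by omega, by omega, by omega, by omega, by omega, ?_⟩
  rw [Nat.cast_sub l₁₂, Nat.cast_sub l₁₃, Nat.cast_sub l₂₃, mul_assoc]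
  have hV : ∀ W : Submodule F V, finrank F W < 4 * n + 1 := fun W => by
    have := Submodule.finrank_le W
    rw [hω.dim] at this; omega
  have hVV : ∀ W : Submodule F (V × V), finrank F W < 4 * n + 1 := fun W => by
    have := Submodule.finrank_le W
    rw [Module.finrank_prod, hω.dim] at this; omega
  refine ncard_le_mul_of_fiber S (fun M => (finrank F ↥(M ⊓ (x₁ ⊓ x₂)), finrank F ↥(M ⊓ (x₁ ⊓ x₃)),
    finrank F ↥(M ⊓ (x₂ ⊓ x₃)), finrank F ↥(KU x₁ x₂ x₃ M ⊓ Rad x₁ x₂ x₃),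
    finrank F ↥(KU x₁ x₂ x₃ M))) _ _ (by positivity) ?_ ?_
  · set R := Finset.range (4 * n + 1) with hR
    have h1 := Set.ncard_le_ncard (t := ((R ×ˢ R ×ˢ R ×ˢ R ×ˢ R : Finset (ℕ × ℕ × ℕ × ℕ × ℕ)) :
      Set (ℕ × ℕ × ℕ × ℕ × ℕ))) (s := (fun M => (finrank F ↥(M ⊓ (x₁ ⊓ x₂)),
        finrank F ↥(M ⊓ (x₁ ⊓ x₃)),
        finrank F ↥(M ⊓ (x₂ ⊓ x₃)), finrank F ↥(KU x₁ x₂ x₃ M ⊓ Rad x₁ x₂ x₃),
        finrank F ↥(KU x₁ x₂ x₃ M))) '' S) (by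
      rintro _ ⟨M, _, rfl⟩
      simp only [hR, Finset.coe_product, Finset.coe_range, Set.mem_prod, Set.mem_Iio]
      exact ⟨hV _, hV _, hV _, hVV _, hVV _⟩) (Finset.finite_toSet _)
    rw [Set.ncard_coe_finset] at h1
    simp only [Finset.card_product, hR, Finset.card_range] at h1
    refine (Nat.cast_le.2 h1).trans (le_of_eq ?_)
    push_cast; ring
  · intro M₁ hM₁
    have hb := class_bound hω h2 h₁ h₂ h₃ ha hd₁₂ hd₁₃ hd₂₃ (hcls M₁ hM₁)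
    refine le_trans (Nat.cast_le.2 (Set.ncard_le_ncard ?_)) (hb.trans ?_)
    · rintro M ⟨hM, hE⟩
      simp only [Prod.mk.injEq] at hE
      obtain ⟨e1, e2, e3, e4, e5⟩ := hE
      have := hcls M hM
      rw [e1, e2, e3, e4, e5] at this
      exact this
    · exact mul_le_mul_of_nonneg_left (Real.rpow_le_rpow_of_exponent_le hq1 (hmax M₁ hM₁))
        (by positivity)

end Vale.Agent.P050
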