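import Vale.Agent.P050.Ksp
import Vale.Agent.P050.Iso

namespace Vale.Agent.P050

open Finset Module
open scoped BigOperators

/-- One link of a chain of fibre counts. -/
theorem chain_step {α β γ : Type} [Finite α] [Finite β] (S : Set α) (g : α → γ) (f : α → β)
    (B₁ B₂ : ℝ) (hB₂ : 0 ≤ B₂)
    (h₁ : ∀ x₀ ∈ S, ∃ T : Set β, (∀ x ∈ S, g x = g x₀ → f x ∈ T) ∧ (T.ncard : ℝ) ≤ B₁)
    (h₂ : ∀ x₀ ∈ S, (({x | x ∈ S ∧ (g x, f x) = (g x₀, f x₀)} : Set α).ncard : ℝ) ≤ B₂) :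
    ∀ x₀ ∈ S, (({x | x ∈ S ∧ g x = g x₀} : Set α).ncard : ℝ) ≤ B₁ * B₂ := by
  intro x₀ hx₀
  obtain ⟨T, hT, hTc⟩ := h₁ x₀ hx₀
  refine ncard_le_mul_of_fiber _ f B₁ B₂ hB₂ ?_ ?_
  · refine le_trans ?_ hTc
    exact_mod_cast Set.ncard_le_ncard (by rintro _ ⟨x, ⟨hx, hg⟩, rfl⟩; exact hT x hx hg)
  · rintro x₁ ⟨hx₁, hg₁⟩
    refine le_trans ?_ (h₂ x₁ hx₁)
    refine Nat.cast_le.2 (Set.ncard_le_ncard ?_)
    rintro x ⟨⟨hx, hg⟩, hf⟩
    exact ⟨hx, by rw [hg, hg₁, hf]⟩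

theorem three_arith (n a κ d₁₂ d₁₃ d₂₃ u₁₂ u₁₃ u₂₃ r k : ℝ) (h₀ : ℕ)
    (hr : r = u₁₂ + u₁₃ + u₂₃ - a + h₀) (hk : r ≤ k) (hz : 3 * κ - k ≤ n)
    (m₁₂ : d₁₂ + 2 * κ ≤ n + 2 * u₁₂) (m₁₃ : d₁₃ + 2 * κ ≤ n + 2 * u₁₃)
    (m₂₃ : d₂₃ + 2 * κ ≤ n + 2 * u₂₃)
    (hiso : 2 * k + (d₁₂ + d₁₃ + d₂₃ - a) ≤ n + a + 2 * r) :
    (u₁₂ - a) * (d₁₂ - u₁₂) + ((u₁₃ - a) * (d₁₃ - u₁₃) + ((u₂₃ - a) * (d₂₃ - u₂₃) +
      ((r - (u₁₂ + u₁₃ + u₂₃ - a)) * ((d₁₂ + d₁₃ + d₂₃ - a) - r) +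
      (((k - r) * ((n + a) - r) - (3 * (k - r) ^ 2 + (k - r)) / 2) +
      ((κ - (k - u₂₃)) * ((n + u₁₂ - (k - u₁₃)) - κ) +
      ((κ - (k - u₁₃)) * ((n + u₁₂ - κ) - κ) +
      ((κ - (k - u₁₂)) * ((n + k - 2 * κ) - κ) + nu (n - (3 * κ - k))))))))) ≤
    nu (n - a) - 3 * nu (κ - a) + Bq (u₁₂ - a) (d₁₂ + 2 * κ - n - 2 * a) +
      Bq (u₁₃ - a) (d₁₃ + 2 * κ - n - 2 * a) + Bq (u₂₃ - a) (d₂₃ + 2 * κ - n - 2 * a) := by
  have hh : (0 : ℝ) ≤ (h₀ : ℝ) ^ 2 - h₀ := by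
    rcases Nat.eq_zero_or_pos h₀ with h | h
    · subst h; simp
    · have : (1 : ℝ) ≤ h₀ := by exact_mod_cast h
      nlinarith
  have h0 : (0 : ℝ) ≤ h₀ := Nat.cast_nonneg _
  have p1 : 0 ≤ (k - r) * (n - (3 * κ - k)) := mul_nonneg (by linarith) (by linarith)
  have p2 : 0 ≤ (h₀ : ℝ) * ((3 * κ - 3 * k + u₁₂ + u₁₃ + u₂₃) + 2 * (n - (3 * κ - k)) + h₀ -
      (d₁₂ + d₁₃ + d₂₃ - u₁₂ - u₁₃ - u₂₃)) := mul_nonneg h0 (by linarith)
  unfold nu Bq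
  subst hr
  nlinarith

section

variable {F : Type} [Field F] [Fintype F] {V : Type} [AddCommGroup V] [Module F V] [Finite V]

theorem grass_bound' (A B : Submodule F V) (u N : ℕ) (hu : u ≤ N) :
    (({U | A ≤ U ∧ U ≤ B ∧ finrank F U = u} : Set (Submodule F V)).ncard : ℝ) ≤
      4 ^ N * (Fintype.card F : ℝ) ^ (((u : ℝ) - finrank F A) * ((finrank F B : ℝ) - u)) := by
  refine (grass_bound A B u).trans (mul_le_mul_of_nonneg_right ?_ (by positivity))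
  have h1 := one_lt_lam (F := F)
  have h2 := lam_le_two (F := F)
  calc lam (Fintype.card F) ^ (u - finrank F A) ≤ 4 ^ (u - finrank F A) :=
        pow_le_pow_left₀ (by linarith) (by linarith) _
    _ ≤ 4 ^ N := pow_le_pow_right₀ (by norm_num) (by omega)

theorem iso_count' (h2 : (2 : F) ≠ 0) (B : LinearMap.BilinForm F V) (K : Submodule F V)
    (hs : ∀ u ∈ K, ∀ v ∈ K, B u v = B v u) (R : Submodule F V) (h N : ℕ) (hN : h ≤ N) :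
    (({W | W ≤ K ∧ Isot B W ∧ W ⊓ (K ⊓ B.orthogonal K) = R ∧ finrank F W = finrank F R + h} :
        Set (Submodule F V)).ncard : ℝ) ≤
      4 ^ N * (Fintype.card F : ℝ) ^
        ((h : ℝ) * ((finrank F K : ℝ) - finrank F R) - (3 * (h : ℝ) ^ 2 + h) / 2) := by
  refine (iso_count h2 B K hs R h).trans (mul_le_mul_of_nonneg_right ?_ (by positivity))
  have h1 := one_lt_lam (F := F)
  have h2 := lam_le_two (F := F)
  calc (2 * lam (Fintype.card F)) ^ h ≤ 4 ^ h :=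
        pow_le_pow_left₀ (by linarith) (by linarith) _
    _ ≤ 4 ^ N := pow_le_pow_right₀ (by norm_num) hN

theorem lag_ext' {ω : LinearMap.BilinForm F V} {n : ℕ} (h : Symp ω n) {W : Submodule F V}
    (hW : Isot ω W) (N : ℕ) (hN : n ≤ N) :
    (({M | IsLag ω n M ∧ W ≤ M} : Set (Submodule F V)).ncard : ℝ) ≤
      4 ^ N * (Fintype.card F : ℝ) ^ nu ((n : ℝ) - finrank F W) := by
  refine (lag_ext h hW).trans (mul_le_mul_of_nonneg_right ?_ (by positivity))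
  have h1 := one_lt_lam (F := F)
  have h2 := lam_le_two (F := F)
  calc lam (Fintype.card F) ^ (n - finrank F W) ≤ 4 ^ (n - finrank F W) :=
        pow_le_pow_left₀ (by linarith) (by linarith) _
    _ ≤ 4 ^ N := pow_le_pow_right₀ (by norm_num) (by omega)

omit [Fintype F] in
theorem finrank_fst_Ksp (a b c : Submodule F V) :
    finrank F ↥(a ⊓ (b ⊔ c)) + finrank F ↥(b ⊓ c) = finrank F (Ksp a b c) := by
  have h1 := finrank_Ksp a b c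
  have h2 := Submodule.finrank_sup_add_finrank_inf_eq a (b ⊔ c)
  have h3 := Submodule.finrank_sup_add_finrank_inf_eq b c
  rw [← sup_assoc] at h2
  omega

omit [Fintype F] in
theorem finrank_snd_Ksp (a b c : Submodule F V) :
    finrank F ↥(b ⊓ (a ⊔ c)) + finrank F ↥(a ⊓ c) = finrank F (Ksp a b c) := by
  have h1 := finrank_Ksp a b c
  have h2 := Submodule.finrank_sup_add_finrank_inf_eq b (a ⊔ c)
  have h3 := Submodule.finrank_sup_add_finrank_inf_eq a c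
  rw [← sup_assoc, sup_comm b a] at h2
  omega

omit [Fintype F] in
theorem finrank_add_Ksp (a b c : Submodule F V) :
    finrank F ↥(c ⊓ (a ⊔ b)) + finrank F ↥(a ⊓ b) = finrank F (Ksp a b c) := by
  have h1 := finrank_Ksp a b c
  have h2 := Submodule.finrank_sup_add_finrank_inf_eq c (a ⊔ b)
  have h3 := Submodule.finrank_sup_add_finrank_inf_eq a b
  rw [sup_comm c] at h2
  omega

end

end Vale.Agent.P050
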