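import Vale.Agent.P050.ThreeMain
import Vale.Agent.P050.GoodArith

namespace Vale.Agent.P050

open Finset Module
open scoped BigOperators

theorem exists_big_class {α : Type} [Finite α] (S : Set α) (f : α → ℕ) (N : ℕ)
    (hf : ∀ x ∈ S, f x ≤ N) :
    ∃ t ≤ N, (S.ncard : ℝ) ≤ (N + 1) * (({x | x ∈ S ∧ f x = t} : Set α).ncard : ℝ) := by
  obtain ⟨t, ht, hmax⟩ := Finset.exists_max_image (Finset.range (N + 1))
    (fun t => ({x | x ∈ S ∧ f x = t} : Set α).ncard) ⟨0, by simp⟩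
  refine ⟨t, by simpa [Nat.lt_succ_iff] using ht, ncard_le_mul_of_fiber S f _ _ (by positivity) ?_
    fun x₀ hx₀ => ?_⟩
  · have : (f '' S).ncard ≤ ((Finset.range (N + 1) : Finset ℕ) : Set ℕ).ncard := by
      refine Set.ncard_le_ncard ?_ (Finset.finite_toSet _)
      rintro _ ⟨x, hx, rfl⟩
      simpa [Nat.lt_succ_iff] using hf x hx
    rw [Set.ncard_coe_finset, Finset.card_range] at this
    exact_mod_cast this
  · exact_mod_cast hmax (f x₀) (by simpa [Nat.lt_succ_iff] using hf x₀ hx₀)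

/-- Common neighbours of three Lagrangians, in any position. -/
theorem three_nbr (m : ℕ) (hm : 500 ≤ m) : ∃ C : ℝ, 0 < C ∧ ∀ (F : Type) [Field F] [Fintype F]
    (V : Type) [AddCommGroup V] [Module F V] [Finite V] (ω : LinearMap.BilinForm F V),
    Symp ω (2 * m) → (2 : F) ≠ 0 → ∀ (x₁ x₂ x₃ : Submodule F V), IsLag ω (2 * m) x₁ →
    IsLag ω (2 * m) x₂ → IsLag ω (2 * m) x₃ →
    ∃ Φ : ℝ, Good (2 * m) (finrank F ↥(x₁ ⊓ x₂ ⊓ x₃)) (finrank F ↥(x₂ ⊓ x₃))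
        (finrank F ↥(x₁ ⊓ x₃)) (finrank F ↥(x₁ ⊓ x₂)) Φ ∧
      (({M | IsLag ω (2 * m) M ∧ finrank F ↥(M ⊓ x₁) = m ∧ finrank F ↥(M ⊓ x₂) = m ∧
          finrank F ↥(M ⊓ x₃) = m} : Set (Submodule F V)).ncard : ℝ) ≤
        C * (Fintype.card F : ℝ) ^ ((m : ℝ) * (m - 1) / 2 + Φ) := by
  obtain ⟨C₀, hC₀, H⟩ := three_main (2 * m)
  refine ⟨((2 * m : ℕ) + 1) * (C₀ * 2 ^ (2 * m)), by positivity, ?_⟩
  intro F _ _ V _ _ _ ω hω h2 x₁ x₂ x₃ h₁ h₂ h₃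
  have hq : (0 : ℝ) < Fintype.card F := by exact_mod_cast Fintype.card_pos
  set I := x₁ ⊓ x₂ ⊓ x₃ with hI
  have hI1 : I ≤ x₁ := inf_le_left.trans inf_le_left
  have hI2 : I ≤ x₂ := inf_le_left.trans inf_le_right
  have hI3 : I ≤ x₃ := inf_le_right
  have hIiso : Isot ω I := fun u hu v hv => h₁.1 u (hI1 hu) v (hI1 hv)
  have a12 : finrank F I ≤ finrank F ↥(x₁ ⊓ x₂) := Submodule.finrank_mono inf_le_left
  have a13 : finrank F I ≤ finrank F ↥(x₁ ⊓ x₃) := Submodule.finrank_mono (le_inf hI1 hI3)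
  have a23 : finrank F I ≤ finrank F ↥(x₂ ⊓ x₃) := Submodule.finrank_mono (le_inf hI2 hI3)
  have an : finrank F I ≤ 2 * m := h₁.2 ▸ Submodule.finrank_mono hI1
  have hmas := maslov hω h₁ h₂ h₃
  rw [← hI] at hmas
  set S : Set (Submodule F V) := {M | IsLag ω (2 * m) M ∧ finrank F ↥(M ⊓ x₁) = m ∧
    finrank F ↥(M ⊓ x₂) = m ∧ finrank F ↥(M ⊓ x₃) = m} with hS
  have hk : ∀ M : Submodule F V, finrank F ↥(M ⊓ I) ≤ finrank F I := fun M =>
    Submodule.finrank_mono inf_le_right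
  obtain ⟨k, -, hcl⟩ := exists_big_class S (fun M => finrank F ↥(M ⊓ I)) (2 * m)
    fun M _ => (hk M).trans an
  rcases Set.eq_empty_or_nonempty {M | M ∈ S ∧ finrank F ↥(M ⊓ I) = k} with he | ⟨M₀, hM₀⟩
  · refine ⟨0, good_zero a23 a13 a12 (by omega), hcl.trans ?_⟩
    rw [he, Set.ncard_empty, Nat.cast_zero, mul_zero]
    positivity
  obtain ⟨t, ht⟩ := Nat.exists_eq_add_of_le (hM₀.2 ▸ hk M₀ : k ≤ finrank F I)
  have himg : (fun M => M ⊓ ω.orthogonal I ⊔ I) '' {M | M ∈ S ∧ finrank F ↥(M ⊓ I) = k} ⊆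
      {M | IsLag ω (2 * m) M ∧ x₁ ⊓ x₂ ⊓ x₃ ≤ M ∧ finrank F ↥(M ⊓ x₁) = m + t ∧
        finrank F ↥(M ⊓ x₂) = m + t ∧ finrank F ↥(M ⊓ x₃) = m + t} := by
    rintro _ ⟨M, ⟨⟨hM, e1, e2, e3⟩, e⟩, rfl⟩
    obtain ⟨r1, -, r3⟩ := reduce hω hM hIiso
    have := r3 x₁ h₁.1 hI1
    have := r3 x₂ h₂.1 hI2
    have := r3 x₃ h₃.1 hI3
    refine ⟨r1, le_sup_right, ?_, ?_, ?_⟩ <;> dsimp only <;> omega
  obtain ⟨β12, e12⟩ := Nat.exists_eq_add_of_le a12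
  obtain ⟨β13, e13⟩ := Nat.exists_eq_add_of_le a13
  obtain ⟨β23, e23⟩ := Nat.exists_eq_add_of_le a23
  rw [ht] at e12 e13 e23
  rcases H F V ω hω h2 x₁ x₂ x₃ h₁ h₂ h₃ (m + t) _ _ _ _ ht e12 e13 e23 _ rfl with
    he | ⟨i12, i13, i23, b1, b2, b3, c1, c2, c3, hb⟩
  · exact absurd (himg ⟨M₀, hM₀, rfl⟩) (he ▸ Set.notMem_empty _)
  rw [ht, e12, e13, e23]
  refine ⟨_, good_three (i1 := i23) (i2 := i13) (i3 := i12) hm (by omega) (by omega) (by omega)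
    (by omega) (by omega) (by omega) (by omega), hcl.trans ?_⟩
  obtain ⟨d, hd⟩ := Nat.exists_eq_add_of_le (show t ≤ 2 * m by omega)
  have key := ncard_le_mul_of_fiber {M | M ∈ S ∧ finrank F ↥(M ⊓ I) = k}
    (fun M => M ⊓ ω.orthogonal I ⊔ I) _
    (2 ^ (2 * m) * (Fintype.card F : ℝ) ^ (nu (2 * m : ℕ) - nu d)) (by positivity)
    ((Nat.cast_le.2 (Set.ncard_le_ncard himg (Set.toFinite _))).trans hb) (by
      intro M₁ hM₁
      refine le_trans (Nat.cast_le.2 (Set.ncard_le_ncard ?_ (Set.toFinite _)))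
        ((one_nbr hω (reduce hω hM₁.1.1 hIiso).1 d).trans ?_)
      · rintro M ⟨⟨⟨hM, -⟩, e⟩, e'⟩
        refine ⟨hM, ?_⟩
        have := (reduce hω hM hIiso).2.1
        rw [← e']
        omega
      · gcongr
        · exact zero_le_one.trans one_lt_lam.le
        · exact lam_le_two)
  rw [mul_assoc]
  refine mul_le_mul_of_nonneg_left (key.trans (le_of_eq ?_)) (by positivity)
  rw [mul_mul_mul_comm, ← Real.rpow_add hq]
  congr 2
  have hd' : (d : ℝ) = 2 * m - t := by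
    have : ((2 * m : ℕ) : ℝ) = (t + d : ℕ) := by rw [hd]
    push_cast at this
    linarith
  rw [hd']
  unfold nu Bq
  push_cast
  ring

/-- Common neighbours of two Lagrangians, in any position. -/
theorem two_nbr_boost (m : ℕ) : ∃ C : ℝ, 0 < C ∧ ∀ (F : Type) [Field F] [Fintype F]
    (V : Type) [AddCommGroup V] [Module F V] [Finite V] (ω : LinearMap.BilinForm F V),
    Symp ω (2 * m) → ∀ (y z : Submodule F V), IsLag ω (2 * m) y → IsLag ω (2 * m) z →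
    ∃ i : ℕ, finrank F ↥(y ⊓ z) ≤ 2 * i ∧
      (({M | IsLag ω (2 * m) M ∧ finrank F ↥(M ⊓ y) = m ∧ finrank F ↥(M ⊓ z) = m} :
          Set (Submodule F V)).ncard : ℝ) ≤
        C * (Fintype.card F : ℝ) ^ ((m : ℝ) ^ 2 + Bq i (finrank F ↥(y ⊓ z))) := by
  refine ⟨((2 * m : ℕ) + 1) * 2 ^ (2 * m), by positivity, ?_⟩
  intro F _ _ V _ _ _ ω hω y z hy hz
  set S : Set (Submodule F V) :=
    {M | IsLag ω (2 * m) M ∧ finrank F ↥(M ⊓ y) = m ∧ finrank F ↥(M ⊓ z) = m} with hS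
  obtain ⟨c, -, hcl⟩ := exists_big_class S (fun M => finrank F ↥(M ⊓ y ⊓ z)) (2 * m)
    fun M _ => hz.2 ▸ Submodule.finrank_mono inf_le_right
  rcases Set.eq_empty_or_nonempty {M | M ∈ S ∧ finrank F ↥(M ⊓ y ⊓ z) = c} with he | ⟨M₀, hM₀⟩
  · refine ⟨finrank F ↥(y ⊓ z), by omega, hcl.trans ?_⟩
    rw [he, Set.ncard_empty, Nat.cast_zero, mul_zero]
    positivity
  have hmas := maslov hω hM₀.1.1 hy hz
  refine ⟨c, by obtain ⟨⟨-, e1, e2⟩, e3⟩ := hM₀; omega, hcl.trans ?_⟩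
  rw [mul_assoc]
  refine mul_le_mul_of_nonneg_left ?_ (by positivity)
  refine le_trans (Nat.cast_le.2 (Set.ncard_le_ncard ?_ (Set.toFinite _)))
    ((two_nbr hω hy hz m m c).trans ?_)
  · rintro M ⟨⟨hM, e1, e2⟩, e3⟩
    exact ⟨hM, e1, e2, e3⟩
  · have e : nu (2 * m : ℕ) - nu m - nu m - psi (2 * m) c m m (finrank F ↥(y ⊓ z)) =
        (m : ℝ) ^ 2 + Bq c (finrank F ↥(y ⊓ z)) := by
      unfold psi nu Bq
      push_cast
      ring
    rw [e]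
    gcongr
    · exact zero_le_one.trans one_lt_lam.le
    · exact lam_le_two

end Vale.Agent.P050
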